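import Vale.Agent.P073.H490.I2a
import Vale.Agent.P073.H696.BSpec2

/-!
# P073, block B09, [I2]: the partition of Round 2 (part B: the geometry, `SpecGeo`)
-/

open Set Metric Topology Filter MeasureTheory Matrix
open scoped ENNReal

namespace Vale.Agent.P073.H490

open Vale.Agent.P073
open Vale.Agent.P073.St (V Mat)
open Vale.Agent.P073.AB (Idx Part cl)
open Vale.Agent.P073.AB.P86
open Vale.Agent.P073.H696
open Vale.Agent.P073.H73 (ctr)
open Vale.Agent.P073.H304 (Nb mid)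
open Vale.Agent.P073.H193 (exists_sub finite_sub dyo_sub)
open Vale.Agent.P073.H333 (closure_dyo)
open Vale.Agent.P073.H851 (M3)
open _root_.P073 (ConHomeo)
open _root_.P073.Net (dyc dyo IsTile SizeFn)
open _root_.P073.Net.NC (fine_sub fine_sub' dyc_sub)

/-! ### dyadic cubes -/

theorem dyc_ball (v : V) (n : ℕ) (z : Fin 3 → ℤ) :
    dyc v n z = closedBall (ctr v n z) (1 / 2 / 2 ^ n) := H851.dyc_ball v n z

theorem ctr_mem_dyo (v : V) (n : ℕ) (z : Fin 3 → ℤ) : ctr v n z ∈ dyo v n z := by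
  intro k
  have h : (0:ℝ) < 2 ^ n := by positivity
  simp only [ctr]
  constructor
  · have : (z k : ℝ) / 2 ^ n < (z k + 1 / 2) / 2 ^ n := by gcongr; linarith
    linarith
  · have : ((z k : ℝ) + 1 / 2) / 2 ^ n < (z k + 1) / 2 ^ n := by gcongr; linarith
    linarith

theorem dyo_ball (v : V) (n : ℕ) (z : Fin 3 → ℤ) :
    dyo v n z = ball (ctr v n z) (1 / 2 / 2 ^ n) := by
  ext x
  rw [mem_ball, dist_pi_lt_iff (by positivity)]
  simp only [dyo, Set.mem_ofPred_eq, ctr, Real.dist_eq, abs_lt]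
  have h : (0:ℝ) < 2 ^ n := by positivity
  have e1 : ∀ k, ((z k : ℝ) + 1 / 2) / 2 ^ n = z k / 2 ^ n + 1 / 2 / 2 ^ n := fun k => by ring
  have e2 : ∀ k, ((z k : ℝ) + 1) / 2 ^ n = z k / 2 ^ n + (1 / 2 / 2 ^ n + 1 / 2 / 2 ^ n) :=
    fun k => by ring
  constructor
  · intro hx k
    have := hx k
    rw [e2 k] at this
    rw [e1 k]
    constructor <;> linarith
  · intro hx k
    have := hx k
    rw [e1 k] at this
    rw [e2 k]
    constructor <;> linarith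

theorem isOpen_dyo (v : V) (n : ℕ) (z : Fin 3 → ℤ) : IsOpen (dyo v n z) := by
  rw [dyo_ball]; exact isOpen_ball

/-- an open set which meets a closed dyadic cube meets the open cube -/
theorem exists_dyo {v : V} {n : ℕ} {z : Fin 3 → ℤ} {U : Set V} (hU : IsOpen U) {x : V}
    (hx : x ∈ dyc v n z) (hxU : x ∈ U) : ∃ y ∈ dyo v n z, y ∈ U := by
  rw [← closure_dyo] at hx
  obtain ⟨y, h1, h2⟩ := mem_closure_iff.1 hx U hU hxU
  exact ⟨y, h2, h1⟩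

theorem box_uniq {v : V} {K : Set Idx}
    (hd : ∀ k ∈ K, ∀ k' ∈ K, k ≠ k' → Disjoint (dyo v k.1 k.2) (dyo v k'.1 k'.2)) {k k' : Idx}
    (hk : k ∈ K) (hk' : k' ∈ K) {x : V} (hx : x ∈ dyo v k.1 k.2) (hx' : x ∈ dyc v k'.1 k'.2) :
    k = k' := by
  by_contra hne
  obtain ⟨y, h1, h2⟩ := exists_dyo (isOpen_dyo v k.1 k.2) hx' hx
  exact Set.disjoint_left.1 (hd k hk k' hk' hne) h2 h1

/-- the image of a cube under a diagonal map -/
theorem diag_image {g : V → V} {a b : V} {r R : ℝ} (hr : 0 < r) (hR : 0 < R) {s : V}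
    (hs : ∀ i, s i = 1 ∨ s i = -1)
    (hg : ∀ x ∈ closedBall a r, ∀ i, g x i = b i + R / r * s i * (x i - a i)) :
    g '' closedBall a r = closedBall b R := by
  have hs1 : ∀ i, |s i| = 1 := fun i => by rcases hs i with h | h <;> rw [h] <;> norm_num
  have hs2 : ∀ i, s i * s i = 1 := fun i => by rcases hs i with h | h <;> rw [h] <;> norm_num
  ext y
  constructor
  · rintro ⟨x, hx, rfl⟩
    have hg' := hg x hx
    rw [mem_closedBall, dist_pi_le_iff hr.le] at hx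
    rw [mem_closedBall, dist_pi_le_iff hR.le]
    intro i
    rw [hg' i, Real.dist_eq, add_sub_cancel_left, abs_mul, abs_mul, hs1 i, abs_div, abs_of_pos hR,
      abs_of_pos hr, mul_one]
    have h1 := hx i
    rw [Real.dist_eq] at h1
    calc R / r * |x i - a i| ≤ R / r * r := by gcongr
      _ = R := by field_simp
  · intro hy
    rw [mem_closedBall, dist_pi_le_iff hR.le] at hy
    have hx : (fun i => a i + r / R * s i * (y i - b i)) ∈ closedBall a r := by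
      rw [mem_closedBall, dist_pi_le_iff hr.le]
      intro i
      rw [Real.dist_eq, add_sub_cancel_left, abs_mul, abs_mul, hs1 i, abs_div, abs_of_pos hR,
        abs_of_pos hr, mul_one]
      have h1 := hy i
      rw [Real.dist_eq] at h1
      calc r / R * |y i - b i| ≤ r / R * R := by gcongr
        _ = r := by field_simp
    refine ⟨_, hx, ?_⟩
    funext i
    rw [hg _ hx i]
    have h2 := hs2 i
    have h3 : R / r * s i * (a i + r / R * s i * (y i - b i) - a i) =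
        (R / r * (r / R)) * (s i * s i) * (y i - b i) := by ring
    rw [h3, h2]
    have h4 : R / r * (r / R) = 1 := by field_simp
    rw [h4]
    ring

/-- the middle cube is in the open tile -/
theorem mid_dyo {w : V} {η : ℝ} (hη : 0 < η) (t : Idx) : mid w η t ⊆ dyo w t.1 t.2 := by
  rw [dyo_ball]
  refine closedBall_subset_ball ?_
  gcongr
  linarith

/-! ### blocks -/

theorem blk_dyo {v : V} {k : Idx} {n : ℕ} (hn : k.1 ≤ n) {z : Fin 3 → ℤ} (hz : z ∈ blk k n) :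
    dyc v n z ⊆ dyo v k.1 k.2 := by
  obtain ⟨m, rfl⟩ := Nat.exists_eq_add_of_le hn
  intro x hx i
  have h1 := hx i
  have h2 := hz i
  rw [Nat.add_sub_cancel_left] at h2
  have h3 : (0:ℝ) < 2 ^ m := by positivity
  have h4 : (0:ℝ) < 2 ^ k.1 := by positivity
  have h5 : ((2:ℝ) ^ m * k.2 i) < z i := by
    have : (2:ℤ) ^ m * k.2 i < z i := by linarith [h2.1]
    exact_mod_cast this
  have h6 : (z i : ℝ) + 1 < 2 ^ m * (k.2 i + 1) := by
    have : z i + 1 < (2:ℤ) ^ m * (k.2 i + 1) := by linarith [h2.2]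
    exact_mod_cast this
  rw [pow_add] at h1
  have h7 : (k.2 i : ℝ) / 2 ^ k.1 < z i / (2 ^ k.1 * 2 ^ m) := by
    rw [div_lt_div_iff₀ h4 (by positivity)]
    calc (k.2 i : ℝ) * (2 ^ k.1 * 2 ^ m) = 2 ^ k.1 * (2 ^ m * k.2 i) := by ring
      _ < 2 ^ k.1 * z i := by gcongr
      _ = z i * 2 ^ k.1 := by ring
  have h8 : ((z i : ℝ) + 1) / (2 ^ k.1 * 2 ^ m) < (k.2 i + 1) / 2 ^ k.1 := by
    rw [div_lt_div_iff₀ (by positivity) h4]
    calc ((z i : ℝ) + 1) * 2 ^ k.1 < (2 ^ m * (k.2 i + 1)) * 2 ^ k.1 := by gcongr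
      _ = (k.2 i + 1) * (2 ^ k.1 * 2 ^ m) := by ring
  constructor <;> linarith [h1.1, h1.2]

theorem deep_ball {v : V} {n : ℕ} {z : Fin 3 → ℤ} {c : ℝ} (hc : 0 ≤ c) :
    closedBall (ctr v n z) ((1 - 2 * c) / 2 / 2 ^ n) ⊆ dyc v n z := by
  rw [dyc_ball]
  refine closedBall_subset_closedBall ?_
  gcongr
  linarith

theorem deep_anti {v : V} {n : Idx → ℕ} {c c' : ℝ} (h : c ≤ c') (k : Idx) :
    deep v n c' k ⊆ deep v n c k := by
  unfold deep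
  refine iUnion₂_mono fun z _ => closedBall_subset_closedBall ?_
  gcongr

theorem deep_blkS {v : V} {n : Idx → ℕ} {c : ℝ} (hc : 0 ≤ c) (k : Idx) :
    deep v n c k ⊆ blkS v k (n k) := by
  unfold deep blkS
  exact iUnion₂_mono fun z _ => deep_ball hc

theorem blkS_dyo {v : V} {k : Idx} {n : ℕ} (hn : k.1 ≤ n) : blkS v k n ⊆ dyo v k.1 k.2 :=
  iUnion₂_subset fun _ hz => blk_dyo hn hz

/-! ### the data of Round 2 -/

variable {p Cu : ℝ} {Lc : M3 → ℝ} {δ : ℝ} {j : ℕ} {ε : ℝ} {Ω Λ : Set V} {f : V → V} {F : V → Mat}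
  {v : V}

theorem am_eq (f : V → V) (F : V → Mat) (x : Idx → V) (k : Idx) (y : V) :
    am f F (x k) y = Mx F x k *ᵥ y + bx f F x k := by
  show f (x k) + (cl (F (x k))) (y - x k) = Mx F x k *ᵥ y + (f (x k) - Mx F x k *ᵥ x k)
  have h : ∀ w : V, (cl (F (x k))) w = Mx F x k *ᵥ w := fun w => rfl
  rw [h, Matrix.mulVec_sub]
  abel

section R2

variable (X : R2 p Cu Lc δ j ε Ω Λ f F v)
include X

theorem r2_n {k : Idx} (hk : k ∈ X.K) : k.1 ≤ X.n k := by have := (X.box k hk).2.1; omega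

theorem r2_c0 {k : Idx} (hk : k ∈ X.K) : 0 < X.c₀ k := (X.box k hk).2.2.1

theorem r2_D_Dp {k : Idx} (hk : k ∈ X.K) : X.D k ⊆ X.Dp k :=
  deep_anti (by linarith [r2_c0 X hk]) k

theorem r2_Dp_blkS {k : Idx} (hk : k ∈ X.K) : X.Dp k ⊆ blkS v k (X.n k) :=
  deep_blkS (by linarith [r2_c0 X hk]) k

theorem r2_Dp_dyo {k : Idx} (hk : k ∈ X.K) : X.Dp k ⊆ dyo v k.1 k.2 :=
  (r2_Dp_blkS X hk).trans (blkS_dyo (r2_n X hk))

theorem r2_Dp_Ω {k : Idx} (hk : k ∈ X.K) : X.Dp k ⊆ Ω :=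
  (r2_Dp_dyo X hk).trans (dyo_sub_dyc.trans (X.box k hk).1)

/-- `h₁` is affine on `Dp` -/
theorem r2_kept {k : Idx} (hk : k ∈ X.K) {y : V} (hy : y ∈ X.Dp k) : X.h₁.toFun y = X.a k y :=
  X.st.kept k hk y hy

theorem r2_kept' {k : Idx} (hk : k ∈ X.K) {y : V} (hy : y ∈ X.Dp k) :
    X.h₁.toFun y = Mx F X.x k *ᵥ y + bx f F X.x k := by
  rw [r2_kept X hk hy]; exact am_eq f F X.x k y

theorem r2_uniq {k k' : Idx} (hk : k ∈ X.K) (hk' : k' ∈ X.K) {x : V} (hx : x ∈ dyo v k.1 k.2)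
    (hx' : x ∈ dyc v k'.1 k'.2) : k = k' := box_uniq X.disj hk hk' hx hx'

/-- a solid cube which meets the open box is in the box -/
theorem r2_sub {k q : Idx} (hk : k ∈ X.K) (hq : q ∈ X.S) {x : V} (hx : x ∈ dyo v k.1 k.2)
    (hxq : x ∈ dyc v q.1 q.2) : dyc v q.1 q.2 ⊆ dyc v k.1 k.2 := by
  obtain ⟨k', hk', h⟩ := X.st.inBox q hq
  rwa [r2_uniq X hk hk' hx (h hxq)]

/-- the box of a solid cube is unique -/
theorem r2_uniq' {k k' q : Idx} (hk : k ∈ X.K) (hk' : k' ∈ X.K)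
    (h : dyc v q.1 q.2 ⊆ dyc v k.1 k.2) (h' : dyc v q.1 q.2 ⊆ dyc v k'.1 k'.2) : k = k' := by
  have h1 := dyo_sub h (cen_mem v q.1 q.2)
  exact r2_uniq X hk hk' h1 (h' (dyo_sub_dyc (cen_mem v q.1 q.2)))

/-- the cubes of `I₁ \ S` do not meet the interior of the block -/
theorem r2_out {k q : Idx} (hk : k ∈ X.K) (hq : q ∈ X.I₁ \ X.S) {y : V} (hy : y ∈ dyc v q.1 q.2) :
    y ∉ interior (blkS v k (X.n k)) := by
  intro h
  obtain ⟨y', h1, h2⟩ := exists_dyo isOpen_interior hy h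
  obtain ⟨q', hq', h3⟩ := mem_iUnion₂.1 (X.st.cov k hk (interior_subset h2))
  have h4 := eq_of_mem X.st.part hq.1 (X.st.sub hq') h1 h3
  exact hq.2 (h4 ▸ hq')

theorem r2_int_D {k : Idx} (hk : k ∈ X.K) : interior (X.D k) ⊆ interior (blkS v k (X.n k)) :=
  interior_mono ((r2_D_Dp X hk).trans (r2_Dp_blkS X hk))

/-- points outside of the open kept sets -/
theorem r2_V0 {y : V} (hy : y ∈ Ω) (h : ∀ k ∈ X.K, y ∉ interior (X.D k)) :
    X.h₁.toFun y ∈ H696.V0 Λ (fun k : {k // k ∈ X.K} => Mx F X.x k.1)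
      (fun k => bx f F X.x k.1) (fun k => deep v X.n (3 * X.c₀ k.1) k.1) := by
  refine ⟨X.h₁.mapsTo hy, fun k x hx he => ?_⟩
  have hx1 : x ∈ X.Dp k.1 := r2_D_Dp X k.2 (interior_subset hx)
  rw [← r2_kept' X k.2 hx1] at he
  have h2 : x = y := by
    have e1 := X.h₁.left_inv (r2_Dp_Ω X k.2 hx1)
    rw [he, X.h₁.left_inv hy] at e1
    exact e1.symm
  exact h k.1 k.2 (h2 ▸ hx)

theorem r2_not_V0 {y : V} (hy : y ∈ Ω)
    (h : X.h₁.toFun y ∉ H696.V0 Λ (fun k : {k // k ∈ X.K} => Mx F X.x k.1)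
      (fun k => bx f F X.x k.1) (fun k => deep v X.n (3 * X.c₀ k.1) k.1)) :
    ∃ k ∈ X.K, y ∈ interior (X.D k) := by
  by_contra hc
  push Not at hc
  exact h (r2_V0 X hy hc)

/-- a point which is mapped into `Core` is in the interior of a kept set -/
theorem r2_core {y : V} (hy : y ∈ Ω) (h : X.h₁.toFun y ∈ X.Core) :
    ∃ k ∈ X.K, y ∈ interior (X.D k) :=
  r2_not_V0 X hy fun h0 => Set.disjoint_left.1 X.tg.coreV0 h h0

theorem r2_off {q : Idx} (hq : q ∈ X.I₁ \ X.S) {y : V} (hy : y ∈ dyc v q.1 q.2) :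
    X.h₁.toFun y ∉ X.Core ∧ X.hh.toFun y ∈ Nb 0 X.J₀ (1 / 2 ^ j) := by
  have hyΩ := X.st.part.sub q hq.1 hy
  have h1 := r2_V0 X hyΩ fun k hk h => r2_out X hk hq hy (r2_int_D X hk h)
  exact ⟨fun h => Set.disjoint_left.1 X.tg.coreV0 h h1, X.tg.V0 _ h1⟩

/-! ### the cells of the tiles -/

theorem r2_cell_D {t : Idx} (ht : t ∈ X.J) : dyc v (X.nt t) (X.w t) ⊆ interior (X.D (X.κ t).1) :=
  X.tg.cell t ht

theorem r2_cell_Dp {t : Idx} (ht : t ∈ X.J) : dyc v (X.nt t) (X.w t) ⊆ X.Dp (X.κ t).1 :=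
  (r2_cell_D X ht).trans (interior_subset.trans (r2_D_Dp X (X.κ t).2))

/-- the diagonal map -/
theorem r2_diag {t : Idx} (ht : t ∈ X.J) : ∃ s : V, (∀ i, s i = 1 ∨ s i = -1) ∧
    ∀ x ∈ dyc v (X.nt t) (X.w t), ∀ i, X.hh.toFun x i = ctr 0 t.1 t.2 i +
      (1 - 1 / 2 ^ j) / 2 / 2 ^ t.1 / (1 / 2 / 2 ^ X.nt t) * s i *
        (x i - ctr v (X.nt t) (X.w t) i) := by
  obtain ⟨s, hs, h⟩ := X.tg.diag t ht
  refine ⟨s, hs, fun x hx i => ?_⟩
  rw [← h x hx i, ← r2_kept' X (X.κ t).2 (r2_cell_Dp X ht hx)]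
  rfl

theorem r2_η : (0:ℝ) < 1 / 2 ^ j ∧ (1:ℝ) / 2 ^ j ≤ 1 / 128 := by
  refine ⟨by positivity, ?_⟩
  have h1 : (2:ℝ) ^ 7 ≤ 2 ^ j := pow_le_pow_right₀ (by norm_num) X.hj
  have h2 : (2:ℝ) ^ 7 = 128 := by norm_num
  rw [h2] at h1
  exact one_div_le_one_div_of_le (by norm_num) h1

/-- the image of the cell is the middle cube -/
theorem r2_image {t : Idx} (ht : t ∈ X.J) :
    X.hh.toFun '' dyc v (X.nt t) (X.w t) = mid 0 (1 / 2 ^ j) t := by
  obtain ⟨s, hs, h⟩ := r2_diag X ht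
  rw [dyc_ball] at h ⊢
  have hη := r2_η X
  have h1 : (0:ℝ) < 2 ^ t.1 := by positivity
  refine diag_image (by positivity) ?_ hs h
  have : (0:ℝ) < 1 - 1 / 2 ^ j := by linarith [hη.2]
  positivity

/-- different cells are disjoint -/
theorem r2_disj {t t' : Idx} (ht : t ∈ X.J) (ht' : t' ∈ X.J) (hne : t ≠ t') :
    Disjoint (dyc v (X.nt t) (X.w t)) (dyc v (X.nt t') (X.w t')) := by
  rw [Set.disjoint_left]
  intro x hx hx'
  have h1 := mid_dyo (r2_η X).1 t ((r2_image X ht) ▸ mem_image_of_mem X.hh.toFun hx)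
  have h2 := mid_dyo (r2_η X).1 t' ((r2_image X ht') ▸ mem_image_of_mem X.hh.toFun hx')
  exact Set.disjoint_left.1 (_root_.P073.Net.NC.disj (X.tg.tile t ht) (X.tg.tile t' ht') hne) h1
    (dyo_sub_dyc h2)

theorem r2_disjC : ∀ c ∈ X.C, ∀ c' ∈ X.C, c ≠ c' → Disjoint (dyc v c.1 c.2) (dyc v c'.1 c'.2) := by
  rintro c ⟨t, ht, rfl⟩ c' ⟨t', ht', rfl⟩ hne
  refine r2_disj X ht ht' fun h => hne ?_
  rw [h]

/-- sizes of the cells -/
theorem r2_size {t : Idx} (ht : t ∈ X.J) {x : V} (hx : x ∈ dyc v (X.nt t) (X.w t)) :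
    1 / 2 ^ X.nt t ≤ X.δt (am f F (X.x (X.κ t).1) x) := by
  have hxD := r2_cell_Dp X ht hx
  have hxΩ := r2_Dp_Ω X (X.κ t).2 hxD
  have h1 : X.Tt.toFun (X.h₁.toFun x) ∈ dyc 0 t.1 t.2 :=
    dyo_sub_dyc (mid_dyo (r2_η X).1 t ((r2_image X ht) ▸ mem_image_of_mem X.hh.toFun hx))
  have h2 := X.tg.fine t (X.tg.tile t ht) _ (X.h₁.mapsTo hxΩ) h1
  rw [r2_kept X (X.κ t).2 hxD] at h2
  refine le_trans ?_ h2
  exact one_div_le_one_div_of_le (by positivity)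
    (pow_le_pow_right₀ (by norm_num) (X.tg.szC t ht))

/-- the box of the solid cube which contains a point of the cell -/
theorem r2_cell_box {t : Idx} (ht : t ∈ X.J) {x : V} (hx : x ∈ dyc v (X.nt t) (X.w t)) {k : Idx}
    (hk : k ∈ X.K) (hxk : x ∈ dyc v k.1 k.2) : (X.κ t).1 = k :=
  r2_uniq X (X.κ t).2 hk (r2_Dp_dyo X (X.κ t).2 (r2_cell_Dp X ht hx)) hxk

theorem r2_cell_sub {t : Idx} (ht : t ∈ X.J) : ∃ q ∈ X.S,
    dyc v (X.nt t) (X.w t) ⊆ dyc v q.1 q.2 ∧ q.1 < X.nt t := by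
  have hx := ctr_mem_dyo v (X.nt t) (X.w t)
  have hx' := dyo_sub_dyc hx
  have hxD := r2_cell_Dp X ht hx'
  have hk := (X.κ t).2
  obtain ⟨q, hq, hxq⟩ := mem_iUnion₂.1 (X.st.cov _ hk (r2_Dp_blkS X hk hxD))
  have hqk := r2_sub X hk hq (r2_Dp_dyo X hk hxD) hxq
  have h1 := X.sz' _ hk q hq hqk _ hxD
  have h2 := (r2_size X ht hx').trans_lt h1
  have h3 : q.1 < X.nt t := by
    by_contra hle
    push Not at hle
    have : (1:ℝ) / 2 ^ q.1 ≤ 1 / 2 ^ X.nt t :=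
      one_div_le_one_div_of_le (by positivity) (pow_le_pow_right₀ (by norm_num) hle)
    linarith
  exact ⟨q, hq, dyc_sub (fine_sub' h3.le hx hxq), h3⟩

theorem r2_C_sub : ∀ c ∈ X.C, ∃ q ∈ X.S, dyc v c.1 c.2 ⊆ dyc v q.1 q.2 ∧ q.1 < c.1 := by
  rintro c ⟨t, ht, rfl⟩
  exact r2_cell_sub X ht

/-- only finitely many cells in a solid cube -/
theorem r2_fin : ∀ q ∈ X.S, {c | c ∈ X.C ∧ dyc v c.1 c.2 ⊆ dyc v q.1 q.2}.Finite := by
  intro q hq
  have hsub := X.st.part.sub q (X.st.sub hq)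
  have hK : IsCompact (X.hh.toFun '' dyc v q.1 q.2) :=
    (isCompact_dyc v q.1 q.2).image_of_continuousOn (X.hh.cont.mono hsub)
  have hKΛ : X.hh.toFun '' dyc v q.1 q.2 ⊆ Λ := by
    rintro _ ⟨x, hx, rfl⟩
    exact X.hh.mapsTo (hsub hx)
  have hf := _root_.P073.Net.NC.finite X.tg.size 0 hKΛ hK
  refine (hf.image fun t : Idx => (X.nt t, X.w t)).subset ?_
  rintro c ⟨⟨t, ht, rfl⟩, hc⟩
  refine ⟨t, ⟨X.tg.tile t ht, ?_⟩, rfl⟩
  have hx := dyo_sub_dyc (ctr_mem_dyo v (X.nt t) (X.w t))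
  exact ⟨_, dyo_sub_dyc (mid_dyo (r2_η X).1 t ((r2_image X ht) ▸ mem_image_of_mem X.hh.toFun hx)),
    mem_image_of_mem _ (hc hx)⟩

/-! ### thresholds -/

omit X in
theorem blk_finite (k : Idx) (n : ℕ) : (blk k n).Finite := by
  refine (Set.Finite.pi' (fun i : Fin 3 => Set.finite_Icc (2 ^ (n - k.1) * k.2 i)
    (2 ^ (n - k.1) * (k.2 i + 1)))).subset fun z hz i => ?_
  have h := hz i
  exact ⟨by linarith [h.1], by linarith [h.2]⟩

omit X in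
theorem isCompact_deep (v : V) (n : Idx → ℕ) (c : ℝ) (k : Idx) : IsCompact (deep v n c k) :=
  (blk_finite k (n k)).isCompact_biUnion fun _ _ => isCompact_closedBall _ _

theorem r2_cont (k : Idx) : Continuous (X.a k) := by
  show Continuous fun y => f (X.x k) + (cl (F (X.x k))) (y - X.x k)
  exact continuous_const.add ((cl (F (X.x k))).continuous.comp (continuous_id.sub continuous_const))

theorem r2_core_int {k : Idx} (hk : k ∈ X.K) {y : V} (hy : y ∈ X.core k) :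
    y ∈ interior (X.D k) := by
  have h1 : y ∈ X.Dp k := r2_D_Dp X hk hy.1
  have h2 : X.h₁.toFun y ∈ X.Core := by rw [r2_kept X hk h1]; exact hy.2
  obtain ⟨k', hk', h3⟩ := r2_core X (r2_Dp_Ω X hk h1) h2
  have h4 : y ∈ dyo v k'.1 k'.2 := r2_Dp_dyo X hk' (r2_D_Dp X hk' (interior_subset h3))
  have h5 := r2_uniq X hk' hk h4 (dyo_sub_dyc (r2_Dp_dyo X hk h1))
  rwa [h5] at h3

theorem r2_core_coreN (k : Idx) : X.core k ⊆ X.coreN k := fun _ h => ⟨h.1, X.tg.core.1 h.2⟩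

/-- the cores are deep in their neighbourhood -/
theorem r2_margin {k : Idx} (hk : k ∈ X.K) : ∃ d > 0, ∀ y ∈ X.core k, ∀ z, ‖z - y‖ ≤ d →
    z ∈ X.coreN k ∧ z ∈ interior (X.D k) := by
  have hcl : X.core k = X.D k ∩ X.a k ⁻¹' (X.Core ∪ Λᶜ) := by
    ext y
    constructor
    · rintro ⟨h1, h2⟩
      exact ⟨h1, Or.inl h2⟩
    · rintro ⟨h1, h2 | h2⟩
      · exact ⟨h1, h2⟩
      · exfalso
        have h3 := r2_D_Dp X hk h1
        apply h2
        rw [← r2_kept X hk h3]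
        exact X.h₁.mapsTo (r2_Dp_Ω X hk h3)
  have hc : IsCompact (X.core k) := by
    rw [hcl]
    exact (isCompact_deep v X.n _ k).inter_right (X.tg.coreC'.preimage (r2_cont X k))
  have hU : IsOpen (interior (X.D k) ∩ X.a k ⁻¹' X.CoreN) :=
    isOpen_interior.inter (X.tg.coreO.preimage (r2_cont X k))
  obtain ⟨d, hd, h⟩ := hc.exists_cthickening_subset_open hU fun y hy =>
    ⟨r2_core_int X hk hy, X.tg.core.1 hy.2⟩
  refine ⟨d, hd, fun y hy z hz => ?_⟩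
  have h1 := h (mem_cthickening_of_dist_le z y d _ hy (by rwa [dist_eq_norm]))
  exact ⟨⟨interior_subset h1.1, h1.2⟩, h1.1⟩

/-- **thresholds** -/
theorem r2_thr : ∃ (N : Idx → ℕ) (d : Idx → ℝ),
    (∀ k ∈ X.K, ∀ y ∈ X.core k, ∀ z, ‖z - y‖ ≤ d k →
      z ∈ X.coreN k ∧ z ∈ interior (X.D k)) ∧ ∀ q ∈ X.S, q.1 ≤ N q ∧
    (∀ q' ∈ X.I₁, (dyc v q.1 q.2 ∩ dyc v q'.1 q'.2).Nonempty → q'.1 ≤ N q) ∧
    (∀ c ∈ X.C, dyc v c.1 c.2 ⊆ dyc v q.1 q.2 → c.1 < N q) ∧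
    ∀ k ∈ X.K, dyc v q.1 q.2 ⊆ dyc v k.1 k.2 → (1:ℝ) / 2 ^ N q ≤ X.c₀ k / 16 / 2 ^ X.n k ∧
      1 / 2 ^ N q ≤ d k / 2 := by
  classical
  have hd : ∀ k : Idx, ∃ d : ℝ, k ∈ X.K → 0 < d ∧ ∀ y ∈ X.core k, ∀ z, ‖z - y‖ ≤ d →
      z ∈ X.coreN k ∧ z ∈ interior (X.D k) := by
    intro k
    by_cases hk : k ∈ X.K
    · obtain ⟨d, h0, h1⟩ := r2_margin X hk
      exact ⟨d, fun _ => ⟨h0, h1⟩⟩
    · exact ⟨0, fun h => absurd h hk⟩
  choose d hd using hd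
  obtain ⟨N₁, hN₁⟩ := exists_thr X.st.part
  have key : ∀ q : Idx, ∃ N : ℕ, q ∈ X.S → q.1 ≤ N ∧
      (∀ q' ∈ X.I₁, (dyc v q.1 q.2 ∩ dyc v q'.1 q'.2).Nonempty → q'.1 ≤ N) ∧
      (∀ c ∈ X.C, dyc v c.1 c.2 ⊆ dyc v q.1 q.2 → c.1 < N) ∧
      ∀ k ∈ X.K, dyc v q.1 q.2 ⊆ dyc v k.1 k.2 → (1:ℝ) / 2 ^ N ≤ X.c₀ k / 16 / 2 ^ X.n k ∧
        1 / 2 ^ N ≤ d k / 2 := by
    intro q
    by_cases hq : q ∈ X.S
    · obtain ⟨k, hk, hqk⟩ := X.st.inBox q hq
      obtain ⟨b, hb⟩ := ((r2_fin X q hq).image fun c => c.1).bddAbove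
      have hc0 := r2_c0 X hk
      have hd0 := (hd k hk).1
      obtain ⟨m, hm⟩ := exists_pow_lt_of_lt_one
        (lt_min (show 0 < X.c₀ k / 16 / 2 ^ X.n k by positivity) (half_pos hd0))
        (show (1/2:ℝ) < 1 by norm_num)
      refine ⟨max (max q.1 (N₁ q)) (max (b + 1) m), fun _ => ⟨?_, ?_, ?_, ?_⟩⟩
      · exact (le_max_left _ _).trans (le_max_left _ _)
      · intro q' hq' hne
        exact (hN₁ q (X.st.sub hq) q' hq' hne).trans ((le_max_right _ _).trans (le_max_left _ _))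
      · intro c hc hcq
        have h1 : c.1 ≤ b := hb (mem_image_of_mem _ ⟨hc, hcq⟩)
        have h2 : b + 1 ≤ max (max q.1 (N₁ q)) (max (b + 1) m) :=
          (le_max_left _ _).trans (le_max_right _ _)
        omega
      · intro k' hk' hqk'
        have he : k' = k := r2_uniq' X hk' hk hqk' hqk
        subst he
        have h1 : (1:ℝ) / 2 ^ max (max q.1 (N₁ q)) (max (b + 1) m) ≤ (1 / 2) ^ m := by
          rw [div_pow, one_pow]
          exact one_div_le_one_div_of_le (by positivity) (pow_le_pow_right₀ (by norm_num)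
            ((le_max_right _ _).trans (le_max_right _ _)))
        exact ⟨h1.trans (hm.le.trans (min_le_left _ _)), h1.trans (hm.le.trans (min_le_right _ _))⟩
    · exact ⟨0, fun h => absurd h hq⟩
  choose N hN using key
  exact ⟨N, d, fun k hk => (hd k hk).2, fun q hq => hN q hq⟩

/-! ### the geometry -/

theorem r2_adm {ng : Idx → ℕ} (h1 : ∀ q ∈ X.S, q.1 ≤ ng q)
    (h2 : ∀ q ∈ X.S, ∀ c ∈ X.C, dyc v c.1 c.2 ⊆ dyc v q.1 q.2 → c.1 < ng q) :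
    Adm2 v X.I₁ X.S X.C ng where
  sub := X.st.sub
  gen := h1
  big := fun c hc => by
    obtain ⟨q, hq, hcq, -⟩ := r2_C_sub X c hc
    exact ⟨q, hq, hcq, (h2 q hq c hc hcq).le⟩
  disj := r2_disjC X

/-- all cubes of `I₂` in a solid cube of the box `k` are small -/
theorem r2_small {ng : Idx → ℕ} (H : Adm2 v X.I₁ X.S X.C ng) {k q r : Idx} (hk : k ∈ X.K)
    (hq : q ∈ X.S) (hqk : dyc v q.1 q.2 ⊆ dyc v k.1 k.2)
    (hn : (1:ℝ) / 2 ^ ng q ≤ X.c₀ k / 16 / 2 ^ X.n k) (hr : r ∈ X.I₂ ng)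
    (hrq : dyc v r.1 r.2 ⊆ dyc v q.1 q.2) : (1:ℝ) / 2 ^ r.1 ≤ X.c₀ k / 16 / 2 ^ X.n k := by
  rcases H.inside X.st.part hq hr hrq with ⟨⟨t, ht, rfl⟩, -⟩ | ⟨h, -⟩
  · have hx := dyo_sub_dyc (ctr_mem_dyo v (X.nt t) (X.w t))
    have hκ := r2_cell_box X ht hx hk (hqk (hrq hx))
    have h1 := r2_size X ht hx
    have h2 := X.sz _ (X.κ t).2 _ (r2_cell_Dp X ht hx)
    rw [hκ] at h1 h2
    exact h1.trans h2
  · rw [h]; exact hn

theorem r2_pas {ng : Idx → ℕ} (H : Adm2 v X.I₁ X.S X.C ng)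
    (hn : ∀ q ∈ X.S, ∀ k ∈ X.K, dyc v q.1 q.2 ⊆ dyc v k.1 k.2 →
      (1:ℝ) / 2 ^ ng q ≤ X.c₀ k / 16 / 2 ^ X.n k) {r : Idx} (hr : r ∈ X.I₂ ng) {y : V}
    (hy : y ∈ dyc v r.1 r.2) (hyN : X.hh.toFun y ∉ Nb 0 X.J₀ (1 / 2 ^ j)) :
    ∃ k ∈ X.K, ∀ r' ∈ X.I₂ ng, (dyc v r.1 r.2 ∩ dyc v r'.1 r'.2).Nonempty →
      dyc v r'.1 r'.2 ⊆ X.Dp k := by
  have hyΩ := (H.part X.st.part).sub r hr hy
  obtain ⟨k, hk, hyk⟩ := r2_not_V0 X hyΩ fun h => hyN (X.tg.V0 _ h)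
  have hc0 := r2_c0 X hk
  have hyD := interior_subset hyk
  have hydyo := r2_Dp_dyo X hk (r2_D_Dp X hk hyD)
  refine ⟨k, hk, fun r' hr' ⟨z, hz, hz'⟩ => ?_⟩
  obtain ⟨z₀, hz₀, hyz⟩ := mem_iUnion₂.1 hyD
  rw [mem_closedBall, dist_eq_norm] at hyz
  have hp : (0:ℝ) < 2 ^ X.n k := by positivity
  -- the cube `r`
  have hr1 : (1:ℝ) / 2 ^ r.1 ≤ X.c₀ k / 16 / 2 ^ X.n k := by
    rcases H.cases hr with h | ⟨q, hq, hrq, -⟩
    · exact absurd (r2_int_D X hk hyk) (r2_out X hk h hy)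
    · have hqk := r2_sub X hk hq hydyo (hrq hy)
      exact r2_small X H hk hq hqk (hn q hq k hk hqk) hr hrq
  have hzy : ‖z - y‖ ≤ X.c₀ k / 16 / 2 ^ X.n k := by
    exact (_root_.P073.Net.NC.dist_le hz hy).trans hr1
  have e0 : (1 - 2 * (3 * X.c₀ k)) / 2 / 2 ^ X.n k =
      1 / 2 / 2 ^ X.n k - 3 * (X.c₀ k / 2 ^ X.n k) := by ring
  have e1 : X.c₀ k / 16 / 2 ^ X.n k = X.c₀ k / 2 ^ X.n k / 16 := by ring
  have e2 : (1 - 2 * (2 * X.c₀ k)) / 2 / 2 ^ X.n k =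
      1 / 2 / 2 ^ X.n k - 2 * (X.c₀ k / 2 ^ X.n k) := by ring
  have hcp : 0 < X.c₀ k / 2 ^ X.n k := by positivity
  rw [e0] at hyz
  have hzc : ‖z - ctr v (X.n k) z₀‖ ≤ 1 / 2 / 2 ^ X.n k - 3 * (X.c₀ k / 2 ^ X.n k) +
      X.c₀ k / 16 / 2 ^ X.n k := by
    have := norm_add_le (z - y) (y - ctr v (X.n k) z₀)
    rw [sub_add_sub_cancel] at this
    linarith
  have hzo : z ∈ dyo v (X.n k) z₀ := by
    rw [dyo_ball, mem_ball, dist_eq_norm]
    rw [e1] at hzc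
    linarith
  have hzint : z ∈ interior (blkS v k (X.n k)) := by
    refine mem_interior.2 ⟨dyo v (X.n k) z₀, ?_, isOpen_dyo _ _ _, hzo⟩
    exact dyo_sub_dyc.trans (subset_iUnion₂ (s := fun z (_ : z ∈ blk k (X.n k)) =>
      dyc v (X.n k) z) z₀ hz₀)
  -- the cube `r'`
  have hr2 : (1:ℝ) / 2 ^ r'.1 ≤ X.c₀ k / 16 / 2 ^ X.n k := by
    rcases H.cases hr' with h | ⟨q, hq, hrq, -⟩
    · exact absurd hzint (r2_out X hk h hz')
    · have hqk := r2_sub X hk hq (blkS_dyo (r2_n X hk) (interior_subset hzint)) (hrq hz')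
      exact r2_small X H hk hq hqk (hn q hq k hk hqk) hr' hrq
  intro u hu
  refine mem_iUnion₂.2 ⟨z₀, hz₀, ?_⟩
  rw [mem_closedBall, dist_eq_norm, e2]
  have h1 := _root_.P073.Net.NC.dist_le hu hz'
  have h2 := norm_add_le (u - z) (z - ctr v (X.n k) z₀)
  rw [sub_add_sub_cancel] at h2
  rw [e1] at hr2 hzc
  linarith

/-- a cell which meets the box `k` is in the core -/
theorem r2_cell_core {t : Idx} (ht : t ∈ X.J) {k : Idx} (hκ : (X.κ t).1 = k) :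
    dyc v (X.nt t) (X.w t) ⊆ X.core k := by
  intro x hx
  subst hκ
  refine ⟨interior_subset (r2_cell_D X ht hx), ?_⟩
  have h1 := X.tg.coreC t ht (mem_image_of_mem _ hx)
  show am f F (X.x (X.κ t).1) x ∈ X.Core
  rw [am_eq]
  exact h1

theorem r2_coreN {ng : Idx → ℕ} (H : Adm2 v X.I₁ X.S X.C ng) {d : Idx → ℝ}
    (hd : ∀ k ∈ X.K, ∀ y ∈ X.core k, ∀ z, ‖z - y‖ ≤ d k →
      z ∈ X.coreN k ∧ z ∈ interior (X.D k))
    (hn : ∀ q ∈ X.S, ∀ k ∈ X.K, dyc v q.1 q.2 ⊆ dyc v k.1 k.2 → (1:ℝ) / 2 ^ ng q ≤ d k / 2)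
    {r r' : Idx} (hr : r ∈ X.I₂ ng) (hr' : r' ∈ X.I₂ ng)
    (hne : (dyc v r.1 r.2 ∩ dyc v r'.1 r'.2).Nonempty) {k : Idx} (hk : k ∈ X.K)
    (hc : (dyc v r'.1 r'.2 ∩ X.core k).Nonempty) : dyc v r.1 r.2 ⊆ X.coreN k := by
  obtain ⟨z, hz, hz'⟩ := hne
  obtain ⟨y, hy, hyc⟩ := hc
  have hyint := r2_core_int X hk hyc
  have hydyo := r2_Dp_dyo X hk (r2_D_Dp X hk hyc.1)
  -- a point of the core near `z`
  obtain ⟨y', hy', hzy⟩ : ∃ y' ∈ X.core k, ‖z - y'‖ ≤ d k / 2 := by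
    rcases H.cases hr' with h | ⟨q, hq, hrq, h0⟩
    · exact absurd (r2_int_D X hk hyint) (r2_out X hk h hy)
    · have hqk := r2_sub X hk hq hydyo (hrq hy)
      rcases h0 with ⟨⟨t, ht, rfl⟩, -⟩ | ⟨h0, -⟩
      · have hκ := r2_cell_box X ht hy hk (dyo_sub_dyc hydyo)
        refine ⟨z, r2_cell_core X ht hκ hz', ?_⟩
        rw [sub_self, norm_zero]
        have := hn q hq k hk hqk
        have h2 : (0:ℝ) < 1 / 2 ^ ng q := by positivity
        linarith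
      · refine ⟨y, hyc, ?_⟩
        have h1 := _root_.P073.Net.NC.dist_le hz' hy
        rw [h0] at h1
        exact h1.trans (hn q hq k hk hqk)
  have hd0 : 0 ≤ d k / 2 := (norm_nonneg _).trans hzy
  have hz1 := hd k hk y' hy' z (by linarith)
  have hzdyo := r2_Dp_dyo X hk (r2_D_Dp X hk (interior_subset hz1.2))
  rcases H.cases hr with h | ⟨q, hq, hrq, h0⟩
  · exact absurd (r2_int_D X hk hz1.2) (r2_out X hk h hz)
  · have hqk := r2_sub X hk hq hzdyo (hrq hz)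
    rcases h0 with ⟨⟨t, ht, rfl⟩, -⟩ | ⟨h0, -⟩
    · have hκ := r2_cell_box X ht hz hk (dyo_sub_dyc hzdyo)
      exact (r2_cell_core X ht hκ).trans (r2_core_coreN X k)
    · intro u hu
      have h1 := _root_.P073.Net.NC.dist_le hu hz
      rw [h0] at h1
      have h2 := norm_add_le (u - z) (z - y')
      rw [sub_add_sub_cancel] at h2
      have h3 := hn q hq k hk hqk
      exact (hd k hk y' hy' u (by linarith)).1

/-- **[I2]** -/
theorem specGeo : X.SpecGeo := by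
  obtain ⟨N, d, hd, hN⟩ := r2_thr X
  refine ⟨N, fun ng hng => ?_⟩
  have hpow : ∀ q ∈ X.S, (1:ℝ) / 2 ^ ng q ≤ 1 / 2 ^ N q := fun q hq =>
    one_div_le_one_div_of_le (by positivity) (pow_le_pow_right₀ (by norm_num) (hng q hq))
  have H : Adm2 v X.I₁ X.S X.C ng := r2_adm X (fun q hq => (hN q hq).1.trans (hng q hq))
    fun q hq c hc hcq => ((hN q hq).2.2.1 c hc hcq).trans_le (hng q hq)
  refine ⟨H.part X.st.part, fun q hq => (hN q hq).1.trans (hng q hq), ?_, ?_, ?_, ?_, ?_⟩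
  · intro c hc
    obtain ⟨q, hq, hcq, hlt⟩ := r2_C_sub X c hc
    refine ⟨fun hcI => ?_, q, hq, hcq, hlt, ((hN q hq).2.2.1 c hc hcq).trans_le (hng q hq)⟩
    have := eq_of_sub X.st.part hcI (X.st.sub hq) hcq
    rw [this] at hlt
    exact lt_irrefl _ hlt
  · intro q hq q' hq' hne
    exact ((hN q hq).2.1 q' hq' hne).trans (hng q hq)
  · intro q hq y hy
    exact r2_off X hq hy
  · rintro r hr ⟨y, hy, hyN⟩
    exact r2_pas X H (fun q hq k hk hqk => (hpow q hq).trans ((hN q hq).2.2.2 k hk hqk).1) hr hy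
      hyN
  · intro r hr r' hr' hne k hk hc
    exact r2_coreN X H hd (fun q hq k hk hqk => (hpow q hq).trans ((hN q hq).2.2.2 k hk hqk).2)
      hr hr' hne hk hc

end R2

end Vale.Agent.P073.H490
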