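import Vale.Agent.P073.H490.R2b

/-!
# P073, block B09, [R2ASM] (c): summation, `SpecR2`
-/

open Set Metric Topology Filter MeasureTheory Matrix
open scoped ENNReal ContDiff

namespace Vale.Agent.P073.H490

open Vale.Agent.P073
open Vale.Agent.P073.St (V Mat)
open Vale.Agent.P073.AB (Idx Part cl)
open Vale.Agent.P073.AB.P86
open Vale.Agent.P073.H696
open Vale.Agent.P073.H73 (ctr Mesh)
open Vale.Agent.P073.H304 (Nb mid In Out LipBd K3C)
open Vale.Agent.P073.H194 (partMesh cellT interior_dyc)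
open Vale.Agent.P073.H803 (meshsum tinyT)
open Vale.Agent.P073.H851 (M3 LocLip)
open _root_.P073 (ConHomeo)
open _root_.P073.Net (dyc dyo IsTile SizeFn)

/-! ### sums over the cubes of a partition -/

theorem ae_notMem_frontier (v : V) (r : Idx) :
    ∀ᵐ x ∂(volume : Measure V), x ∉ frontier (dyc v r.1 r.2) :=
  measure_eq_zero_iff_ae_notMem.1 (volume_frontier_dyc v r.1 r.2)

theorem mem_dyo_of {v : V} {r : Idx} {x : V} (hx : x ∈ dyc v r.1 r.2)
    (hf : x ∉ frontier (dyc v r.1 r.2)) : x ∈ dyo v r.1 r.2 := by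
  rw [← interior_dyc]
  by_contra h
  exact hf ⟨subset_closure hx, h⟩

/-- volumes of the parts of a set in the cubes of a partition -/
theorem tsum_vol_le {ι : Type*} [Countable ι] {Ω : Set V} {v : V} {I : Set Idx} (hI : Part Ω v I)
    {c : ι → Idx} (hc : Function.Injective c) (hcI : ∀ i, c i ∈ I) (E : Set V) :
    ∑' i, volume (dyc v (c i).1 (c i).2 ∩ E) ≤ volume E := by
  have hm : ∀ i, MeasurableSet (dyo v (c i).1 (c i).2) := fun i => (isOpen_dyo _ _ _).measurableSet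
  calc ∑' i, volume (dyc v (c i).1 (c i).2 ∩ E)
      ≤ ∑' i, (volume.restrict E) (dyo v (c i).1 (c i).2) := by
        refine ENNReal.tsum_le_tsum fun i => ?_
        rw [Measure.restrict_apply (hm i)]
        refine measure_mono_ae ?_
        filter_upwards [ae_notMem_frontier v (c i)] with x hx hxE
        exact ⟨mem_dyo_of hxE.1 hx, hxE.2⟩
    _ = (volume.restrict E) (⋃ i, dyo v (c i).1 (c i).2) := by
        refine (measure_iUnion ?_ hm).symm
        intro i i' hne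
        exact (hI.disj _ (hcI i) _ (hcI i') fun h => hne (hc h)).mono_right dyo_sub_dyc
    _ ≤ (volume.restrict E) univ := measure_mono (subset_univ _)
    _ = volume E := by rw [Measure.restrict_apply_univ]

/-- the sum over a union of two index sets -/
theorem tsum_split {S I : Set Idx} (a : Idx → ℝ≥0∞) :
    ∑' q : I, a q ≤ (∑' q : {q : Idx // q ∈ I \ S}, a q.1) + ∑' q : S, a q := by
  calc ∑' q : I, a q ≤ ∑' q : ((I \ S) ∪ S : Set Idx), a q := by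
        refine ENNReal.tsum_mono_subtype a fun q hq => ?_
        by_cases h : q ∈ S
        · exact Or.inr h
        · exact Or.inl ⟨hq, h⟩
    _ ≤ _ := ENNReal.tsum_union_le a (I \ S) S

open scoped Classical in
theorem tsum_ite_sub {A B C : Idx → Prop} (a : Idx → ℝ≥0∞) :
    ∑' r : {r : Idx // A r ∧ B r}, (if C r.1 then a r.1 else 0) =
      ∑' r : {r : Idx // A r ∧ B r ∧ C r}, a r.1 := by
  have e1 := tsum_subtype {r : Idx | A r ∧ B r} (fun r : Idx => if C r then a r else 0)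
  have e2 := tsum_subtype {r : Idx | A r ∧ B r ∧ C r} a
  refine e1.trans (Eq.trans (tsum_congr fun r => ?_) e2.symm)
  simp only [Set.indicator_apply, Set.mem_ofPred_eq]
  by_cases ha : A r <;> by_cases hb : B r <;> by_cases hc : C r <;> simp [ha, hb, hc]

section R2

variable {p Cu : ℝ} {Lc : M3 → ℝ} {δ : ℝ} {j : ℕ} {ε : ℝ} {Ω Λ : Set V} {f : V → V} {F : V → Mat}
  {v : V} {X : R2 p Cu Lc δ j ε Ω Λ f F v} {D D' c₀ : ℝ} {YS : Set (Idx × Fin 3)}
  {ng : Idx → ℕ} {τ : Idx → ℝ} {g : ConHomeo Ω Λ}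

/-- the cubes of `I₂` in the cube `q` -/
abbrev In2 (X : R2 p Cu Lc δ j ε Ω Λ f F v) (ng : Idx → ℕ) (q : Idx) : Type :=
  {r : Idx // r ∈ X.I₂ ng ∧ dyc v r.1 r.2 ⊆ dyc v q.1 q.2}

theorem adm_of_geo (G : X.Geo ng) : Adm2 v X.I₁ X.S X.C ng where
  sub := X.st.sub
  gen := G.ge
  big := fun c hc => by
    obtain ⟨-, q, hq, h1, -, h2⟩ := G.cell c hc
    exact ⟨q, hq, h1, h2.le⟩
  disj := r2_disjC X

/-- the integral over a solid cube -/
theorem lint_in2 (G : X.Geo ng) {q : Idx} (hq : q ∈ X.S) (R : Set V) (H : V → ℝ≥0∞) :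
    ∫⁻ x in dyc v q.1 q.2 \ R, H x ≤ ∑' r : In2 X ng q, ∫⁻ x in dyc v r.1.1 r.1.2 \ R, H x := by
  calc ∫⁻ x in dyc v q.1 q.2 \ R, H x
      ≤ ∫⁻ x in ⋃ r : In2 X ng q, (dyc v r.1.1 r.1.2 \ R), H x := by
        refine lintegral_mono_set' ?_
        filter_upwards [ae_notMem_frontier v q] with x hx hxq
        have h1 := mem_dyo_of hxq.1 hx
        obtain ⟨r, hr, hxr⟩ := G.part.cover x (X.st.part.sub q (X.st.sub hq) hxq.1)
        exact mem_iUnion.2 ⟨⟨r, hr, (adm_of_geo G).sub_of_mem X.st.part hq hr h1 hxr⟩, hxr, hxq.2⟩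
    _ ≤ _ := lintegral_iUnion_le _ _

theorem in2_inj (X : R2 p Cu Lc δ j ε Ω Λ f F v) (ng : Idx → ℕ) (q : Idx) :
    Function.Injective fun r : In2 X ng q => r.1 := Subtype.val_injective

theorem tsum_in2_vol (G : X.Geo ng) (q : Idx) (E : Set V) :
    ∑' r : In2 X ng q, volume (dyc v r.1.1 r.1.2 ∩ E) ≤ volume (dyc v q.1 q.2 ∩ E) := by
  have h := tsum_vol_le G.part (in2_inj X ng q) (fun r => r.2.1) (dyc v q.1 q.2 ∩ E)
  refine le_trans (ENNReal.tsum_le_tsum fun r => ?_) h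
  refine measure_mono fun x hx => ⟨hx.1, r.2.2 hx.1, hx.2⟩

/-- the tolerances in the cube `q` -/
noncomputable def TT (X : R2 p Cu Lc δ j ε Ω Λ f F v) (ng : Idx → ℕ) (τ : Idx → ℝ) (q : Idx) :
    ℝ≥0∞ := ∑' r : In2 X ng q, ENNReal.ofReal (τ r.1)

/-- **solid cubes in the kept set** -/
theorem Res.sub_in (H : Res X D D' c₀ YS ng τ g) (hp : 1 ≤ p) {q k : Idx} (hq : q ∈ X.S) (hk : k ∈ X.K)
    (hqk : dyc v q.1 q.2 ⊆ dyc v k.1 k.2) (hqD : dyc v q.1 q.2 ⊆ X.D k) :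
    ∫⁻ x in dyc v q.1 q.2 \ good X g.toFun, en p g.toFun x ≤
      ENNReal.ofReal (c2 p Cu D) * (X.W ⟨k, hk⟩ * volume (dyc v q.1 q.2 ∩ CN X k) +
        ‖cl (F (X.x k))‖ₑ ^ p * volume (dyc v q.1 q.2 ∩ AS X k)) +
        ENNReal.ofReal (c1 p D) * TT X ng τ q := by
  refine (lint_in2 H.geo hq _ _).trans ?_
  refine (ENNReal.tsum_le_tsum fun r => H.cell_in hp r.2.1 hq r.2.2 hk hqk hqD).trans ?_
  rw [ENNReal.tsum_add, ENNReal.tsum_mul_left, ENNReal.tsum_add, ENNReal.tsum_mul_left,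
    ENNReal.tsum_mul_left, ENNReal.tsum_mul_left]
  unfold TT
  gcongr
  · exact tsum_in2_vol H.geo q _
  · exact tsum_in2_vol H.geo q _

/-- **solid cubes which are not in the kept set** -/
theorem Res.sub_out (H : Res X D D' c₀ YS ng τ g) (hp : 1 ≤ p) {q k : Idx} (hq : q ∈ X.S) (hk : k ∈ X.K)
    (hqk : dyc v q.1 q.2 ⊆ dyc v k.1 k.2) {B : ℝ≥0∞}
    (hB : ∑' r : {r : Idx // r ∈ X.I₂ ng ∧ dyc v r.1 r.2 ⊆ dyc v q.1 q.2 ∧
        Disjoint (dyc v r.1 r.2) (X.core k)}, meshsum p v (X.I₂ ng) X.ℓ r.1 ≤ B) :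
    ∫⁻ x in dyc v q.1 q.2 \ good X g.toFun, en p g.toFun x ≤
      ENNReal.ofReal (c2 p Cu D) * (X.W ⟨k, hk⟩ * volume (dyc v q.1 q.2 ∩ CN X k) +
        ENNReal.ofReal (X.E k) * volume (dyc v q.1 q.2)) +
        ENNReal.ofReal (c1 p D) * TT X ng τ q + ENNReal.ofReal (c1 p D) * B := by
  classical
  refine (lint_in2 H.geo hq _ _).trans ?_
  have key : ∀ r : In2 X ng q, ∫⁻ x in dyc v r.1.1 r.1.2 \ good X g.toFun, en p g.toFun x ≤
      (ENNReal.ofReal (c2 p Cu D) * (X.W ⟨k, hk⟩ * volume (dyc v r.1.1 r.1.2 ∩ CN X k) +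
        ENNReal.ofReal (X.E k) * volume (dyc v r.1.1 r.1.2 ∩ univ)) +
        ENNReal.ofReal (c1 p D) * ENNReal.ofReal (τ r.1)) +
      ENNReal.ofReal (c1 p D) * (if Disjoint (dyc v r.1.1 r.1.2) (X.core k) then
        meshsum p v (X.I₂ ng) X.ℓ r.1 else 0) := by
    intro r
    refine (lintegral_mono_set sdiff_subset).trans ?_
    rw [inter_univ]
    rcases H.cell_out hp r.2.1 hq r.2.2 hk hqk with h | ⟨h0, h⟩
    · exact h.trans le_self_add
    · refine h.trans ?_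
      rw [if_pos h0, mul_add, add_comm]
      gcongr
      exact le_add_self
  refine (ENNReal.tsum_le_tsum key).trans ?_
  rw [ENNReal.tsum_add, ENNReal.tsum_add, ENNReal.tsum_mul_left, ENNReal.tsum_add,
    ENNReal.tsum_mul_left, ENNReal.tsum_mul_left, ENNReal.tsum_mul_left, ENNReal.tsum_mul_left]
  unfold TT
  have h1 := tsum_in2_vol H.geo q (CN X k)
  have h2 := tsum_in2_vol H.geo q univ
  rw [inter_univ] at h2
  have h3 : ∑' r : In2 X ng q, (if Disjoint (dyc v r.1.1 r.1.2) (X.core k) then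
      meshsum p v (X.I₂ ng) X.ℓ r.1 else 0) ≤ B := by
    exact le_trans (le_of_eq (tsum_ite_sub (A := fun r => r ∈ X.I₂ ng)
      (B := fun r => dyc v r.1 r.2 ⊆ dyc v q.1 q.2)
      (C := fun r => Disjoint (dyc v r.1 r.2) (X.core k)) (meshsum p v (X.I₂ ng) X.ℓ))) hB
  gcongr

/-! ### the sum over all cubes -/

/-- the part of the solid cubes of the box which is not deep -/
def UU (X : R2 p Cu Lc δ j ε Ω Λ f F v) (k : Idx) : Set V :=
  (⋃ q ∈ {q | q ∈ X.S ∧ dyc v q.1 q.2 ⊆ dyc v k.1 k.2}, dyc v q.1 q.2) \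
    deep v X.n (4 * X.c₀ k) k

theorem sub_UU (X : R2 p Cu Lc δ j ε Ω Λ f F v) {q k : Idx} (hq : q ∈ X.S) (hk : k ∈ X.K)
    (hqk : dyc v q.1 q.2 ⊆ dyc v k.1 k.2) (hqD : ¬ dyc v q.1 q.2 ⊆ X.D k) :
    dyc v q.1 q.2 ⊆ UU X k := by
  intro y hy
  refine ⟨mem_iUnion₂.2 ⟨q, ⟨hq, hqk⟩, hy⟩, fun hd => hqD fun u hu => ?_⟩
  obtain ⟨z, hz, hyz⟩ := mem_iUnion₂.1 hd
  refine mem_iUnion₂.2 ⟨z, hz, ?_⟩
  rw [mem_closedBall, dist_eq_norm] at hyz ⊢
  have h1 := (_root_.P073.Net.NC.dist_le hu hy).trans (X.szS k hk q hq hqk)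
  have h2 := norm_add_le (u - y) (y - ctr v (X.n k) z)
  rw [sub_add_sub_cancel] at h2
  have e1 : (1 - 2 * (4 * X.c₀ k)) / 2 / 2 ^ X.n k =
      1 / 2 / 2 ^ X.n k - 4 * (X.c₀ k / 2 ^ X.n k) := by ring
  have e2 : (1 - 2 * (3 * X.c₀ k)) / 2 / 2 ^ X.n k =
      1 / 2 / 2 ^ X.n k - 3 * (X.c₀ k / 2 ^ X.n k) := by ring
  rw [e1] at hyz
  rw [e2]
  linarith

/-- the cost of the cube `q` in the box `k` -/
noncomputable def BB (X : R2 p Cu Lc δ j ε Ω Λ f F v) (k : {k // k ∈ X.K}) (q : Idx) : ℝ≥0∞ :=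
  X.W k * volume (dyc v q.1 q.2 ∩ CN X k.1) +
    ‖cl (F (X.x k.1))‖ₑ ^ p * volume (dyc v q.1 q.2 ∩ AS X k.1) +
    ENNReal.ofReal (X.E k.1) * volume (dyc v q.1 q.2 ∩ UU X k.1)

/-- **the energy in a solid cube** -/
theorem Res.solid (H : Res X D D' c₀ YS ng τ g) (hp : 1 ≤ p) {q : Idx} (hq : q ∈ X.S) {τ' : Idx → ℝ}
    (h2 : ∀ k ∈ X.K, ∀ q ∈ X.S, dyc v q.1 q.2 ⊆ dyc v k.1 k.2 → ¬ dyc v q.1 q.2 ⊆ X.D k →
      ∑' r : {r : Idx // r ∈ X.I₂ ng ∧ dyc v r.1 r.2 ⊆ dyc v q.1 q.2 ∧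
        Disjoint (dyc v r.1 r.2) (X.core k)}, meshsum p v (X.I₂ ng) X.ℓ r.1 ≤
      ENNReal.ofReal (24 * 4 ^ p * Cu ^ p) * (ENNReal.ofReal (X.E k) * volume (dyc v q.1 q.2) +
        ENNReal.ofReal (τ' q))) :
    ∫⁻ x in dyc v q.1 q.2 \ good X g.toFun, en p g.toFun x ≤
      ENNReal.ofReal (2 * c2 p Cu D) * ((∑' k, BB X k q) + ENNReal.ofReal (τ' q)) +
        ENNReal.ofReal (c1 p D) * TT X ng τ q := by
  have hCu0 : 0 ≤ Cu := zero_le_one.trans X.hCu
  have hD0 := H.D0.le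
  have hc20 := c2_nonneg (p := p) hCu0 hD0
  have h22 : ENNReal.ofReal (2 * c2 p Cu D) =
      ENNReal.ofReal (c2 p Cu D) + ENNReal.ofReal (c2 p Cu D) := by
    rw [two_mul, ENNReal.ofReal_add hc20 hc20]
  obtain ⟨k, hk, hqk⟩ := X.st.inBox q hq
  have hle : BB X ⟨k, hk⟩ q ≤ ∑' k, BB X k q := ENNReal.le_tsum _
  by_cases hqD : dyc v q.1 q.2 ⊆ X.D k
  · refine (H.sub_in hp hq hk hqk hqD).trans ?_
    have hB : X.W ⟨k, hk⟩ * volume (dyc v q.1 q.2 ∩ CN X k) +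
        ‖cl (F (X.x k))‖ₑ ^ p * volume (dyc v q.1 q.2 ∩ AS X k) ≤
        (∑' k, BB X k q) + ENNReal.ofReal (τ' q) :=
      le_trans le_self_add (hle.trans le_self_add)
    have hc : ENNReal.ofReal (c2 p Cu D) ≤ ENNReal.ofReal (2 * c2 p Cu D) :=
      ENNReal.ofReal_le_ofReal (by linarith)
    exact add_le_add (mul_le_mul' hc hB) le_rfl
  · refine (H.sub_out hp hq hk hqk (h2 k hk q hq hqk hqD)).trans ?_
    have hU : volume (dyc v q.1 q.2) = volume (dyc v q.1 q.2 ∩ UU X k) := by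
      rw [inter_eq_left.2 (sub_UU X hq hk hqk hqD)]
    have h3 : ENNReal.ofReal (c1 p D) * (ENNReal.ofReal (24 * 4 ^ p * Cu ^ p) *
        (ENNReal.ofReal (X.E k) * volume (dyc v q.1 q.2) + ENNReal.ofReal (τ' q))) ≤
        ENNReal.ofReal (c2 p Cu D) *
          (ENNReal.ofReal (X.E k) * volume (dyc v q.1 q.2) + ENNReal.ofReal (τ' q)) := by
      rw [← mul_assoc, ← ENNReal.ofReal_mul (c1_nonneg hD0)]
      gcongr
      exact c2_le2 hCu0 hD0
    calc _ ≤ ENNReal.ofReal (c2 p Cu D) * (X.W ⟨k, hk⟩ * volume (dyc v q.1 q.2 ∩ CN X k) +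
            ENNReal.ofReal (X.E k) * volume (dyc v q.1 q.2)) +
          ENNReal.ofReal (c1 p D) * TT X ng τ q + ENNReal.ofReal (c2 p Cu D) *
            (ENNReal.ofReal (X.E k) * volume (dyc v q.1 q.2) + ENNReal.ofReal (τ' q)) := by
          gcongr
      _ ≤ ENNReal.ofReal (c2 p Cu D) * ((∑' k, BB X k q) + ENNReal.ofReal (τ' q)) +
          ENNReal.ofReal (c1 p D) * TT X ng τ q + ENNReal.ofReal (c2 p Cu D) *
            ((∑' k, BB X k q) + ENNReal.ofReal (τ' q)) := by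
          have hE : ENNReal.ofReal (X.E k) * volume (dyc v q.1 q.2) ≤ ∑' k, BB X k q := by
            rw [hU]
            exact le_trans le_add_self hle
          have hWE : X.W ⟨k, hk⟩ * volume (dyc v q.1 q.2 ∩ CN X k) +
              ENNReal.ofReal (X.E k) * volume (dyc v q.1 q.2) ≤
              (∑' k, BB X k q) + ENNReal.ofReal (τ' q) := by
            refine le_trans ?_ (hle.trans le_self_add)
            rw [hU]
            show _ ≤ X.W ⟨k, hk⟩ * volume (dyc v q.1 q.2 ∩ CN X k) +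
              ‖cl (F (X.x k))‖ₑ ^ p * volume (dyc v q.1 q.2 ∩ AS X k) +
              ENNReal.ofReal (X.E k) * volume (dyc v q.1 q.2 ∩ UU X k)
            gcongr
            exact le_self_add
          gcongr
      _ = _ := by
          rw [h22, add_mul]
          ring

/-- the tolerances -/
theorem tsum_TT (X : R2 p Cu Lc δ j ε Ω Λ f F v) (ng : Idx → ℕ) (τ : Idx → ℝ) :
    ∑' q : {q // q ∈ X.S}, TT X ng τ q.1 ≤ ∑' r : Idx, ENNReal.ofReal (τ r) := by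
  unfold TT
  rw [← ENNReal.tsum_sigma' (fun x : (Σ q : {q // q ∈ X.S}, In2 X ng q.1) =>
    ENNReal.ofReal (τ x.2.1))]
  refine ENNReal.tsum_comp_le_tsum_of_injective
    (f := fun x : (Σ q : {q // q ∈ X.S}, In2 X ng q.1) => x.2.1) ?_ (fun r => ENNReal.ofReal (τ r))
  rintro ⟨⟨q, hq⟩, ⟨r, hr⟩⟩ ⟨⟨q', hq'⟩, ⟨r', hr'⟩⟩ h
  dsimp only at h
  subst h
  have hqq : q = q' := by
    have h1 := H193.dyo_sub hr.2 (cen_mem v r.1 r.2)
    exact eq_of_mem X.st.part (X.st.sub hq) (X.st.sub hq') h1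
      (hr'.2 (dyo_sub_dyc (cen_mem v r.1 r.2)))
  subst hqq
  rfl

/-- the costs of the solid cubes -/
theorem tsum_BB (X : R2 p Cu Lc δ j ε Ω Λ f F v) :
    ∑' q : {q // q ∈ X.S}, ∑' k, BB X k q.1 ≤ ENNReal.ofReal ε + ENNReal.ofReal ε +
      ∑' k : {k // k ∈ X.K}, ENNReal.ofReal (X.E k.1) * volume (UU X k.1) := by
  have hv : ∀ E : Set V, ∑' q : {q // q ∈ X.S}, volume (dyc v q.1.1 q.1.2 ∩ E) ≤ volume E :=
    fun E => tsum_vol_le X.st.part (c := fun q : {q // q ∈ X.S} => q.1) Subtype.val_injective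
      (fun q => X.st.sub q.2) E
  rw [ENNReal.tsum_comm]
  have h1 : ∀ k : {k // k ∈ X.K}, ∑' q : {q // q ∈ X.S}, BB X k q.1 ≤
      X.W k * volume (CN X k.1) + ‖cl (F (X.x k.1))‖ₑ ^ p * volume (AS X k.1) +
        ENNReal.ofReal (X.E k.1) * volume (UU X k.1) := by
    intro k
    unfold BB
    rw [ENNReal.tsum_add, ENNReal.tsum_add, ENNReal.tsum_mul_left, ENNReal.tsum_mul_left,
      ENNReal.tsum_mul_left]
    gcongr <;> exact hv _
  refine (ENNReal.tsum_le_tsum h1).trans ?_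
  rw [ENNReal.tsum_add, ENNReal.tsum_add]
  gcongr
  · exact X.tg.costC
  · exact X.tg.cost

/-- constant of Round 2 -/
noncomputable def cf (p Cu D : ℝ) : ℝ :=
  D + 3 + c1 p D * (16 * 4 ^ p * Cu ^ p) + 6 * c2 p Cu D + 2 * c1 p D

/-- the sum of the passive cubes -/
noncomputable def S1 (X : R2 p Cu Lc δ j ε Ω Λ f F v) : ℝ≥0∞ :=
  ∑' q : {q : Idx // q ∈ X.I₁ \ X.S}, ENNReal.ofReal (X.Eq q.1) *
    (cellT v X.I₁ univ X.H q.1 + nSq v X.I₁ q.1 * X.tol q.1)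

/-- **the total energy** -/
theorem Res.total (H : Res X D D' c₀ ∅ ng τ g) (hp : 1 ≤ p) {τ' : Idx → ℝ}
    (h1 : ∀ q ∈ X.I₁ \ X.S, meshsum p v (X.I₂ ng) X.ℓ q ≤ ENNReal.ofReal (16 * 4 ^ p * Cu ^ p) *
      (ENNReal.ofReal (X.Eq q) * (cellT v X.I₁ univ X.H q + nSq v X.I₁ q * X.tol q)))
    (h2 : ∀ k ∈ X.K, ∀ q ∈ X.S, dyc v q.1 q.2 ⊆ dyc v k.1 k.2 → ¬ dyc v q.1 q.2 ⊆ X.D k →
      ∑' r : {r : Idx // r ∈ X.I₂ ng ∧ dyc v r.1 r.2 ⊆ dyc v q.1 q.2 ∧
        Disjoint (dyc v r.1 r.2) (X.core k)}, meshsum p v (X.I₂ ng) X.ℓ r.1 ≤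
      ENNReal.ofReal (24 * 4 ^ p * Cu ^ p) * (ENNReal.ofReal (X.E k) * volume (dyc v q.1 q.2) +
        ENNReal.ofReal (τ' q)))
    (hτ : ∑' r : Idx, ENNReal.ofReal (τ r) ≤ ENNReal.ofReal ε)
    (hτ' : ∑' r : Idx, ENNReal.ofReal (τ' r) ≤ ENNReal.ofReal ε) :
    ∫⁻ x in Ω \ good X g.toFun, en p g.toFun x ≤ ENNReal.ofReal (cf p Cu D) *
      (S1 X + (∑' k : {k // k ∈ X.K}, ENNReal.ofReal (X.E k.1) * volume (UU X k.1)) +
        ENNReal.ofReal ε) := by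
  have hCu0 : 0 ≤ Cu := zero_le_one.trans X.hCu
  have hD0 := H.D0.le
  have hc10 := c1_nonneg (p := p) hD0
  have hc20 := c2_nonneg (p := p) hCu0 hD0
  have hCp : 0 ≤ Cu ^ p := Real.rpow_nonneg hCu0 p
  have h4p : (0:ℝ) < 4 ^ p := by positivity
  have hadm := adm_of_geo H.geo
  set S2 : ℝ≥0∞ := ∑' k : {k // k ∈ X.K}, ENNReal.ofReal (X.E k.1) * volume (UU X k.1) with hS2
  -- the cover
  have hcov : ∫⁻ x in Ω \ good X g.toFun, en p g.toFun x ≤
      ∑' q : X.I₁, ∫⁻ x in dyc v q.1.1 q.1.2 \ good X g.toFun, en p g.toFun x := by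
    calc ∫⁻ x in Ω \ good X g.toFun, en p g.toFun x
        ≤ ∫⁻ x in ⋃ q : X.I₁, (dyc v q.1.1 q.1.2 \ good X g.toFun), en p g.toFun x := by
          refine lintegral_mono_set fun x hx => ?_
          obtain ⟨q, hq, hxq⟩ := X.st.part.cover x hx.1
          exact mem_iUnion.2 ⟨⟨q, hq⟩, hxq, hx.2⟩
      _ ≤ _ := lintegral_iUnion_le _ _
  -- passive cubes
  have hpas : ∑' q : {q : Idx // q ∈ X.I₁ \ X.S},
      ∫⁻ x in dyc v q.1.1 q.1.2 \ good X g.toFun, en p g.toFun x ≤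
      ENNReal.ofReal (c1 p D * (16 * 4 ^ p * Cu ^ p)) * S1 X +
        ENNReal.ofReal (c1 p D) * ENNReal.ofReal ε := by
    have hc : ∀ q : {q : Idx // q ∈ X.I₁ \ X.S},
        ∫⁻ x in dyc v q.1.1 q.1.2 \ good X g.toFun, en p g.toFun x ≤
        ENNReal.ofReal (c1 p D * (16 * 4 ^ p * Cu ^ p)) * (ENNReal.ofReal (X.Eq q.1) *
          (cellT v X.I₁ univ X.H q.1 + nSq v X.I₁ q.1 * X.tol q.1)) +
        ENNReal.ofReal (c1 p D) * ENNReal.ofReal (τ q.1) := by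
      rintro ⟨q, hq⟩
      refine (lintegral_mono_set sdiff_subset).trans ?_
      refine (H.drawn hp (r := q) (Or.inl (Or.inl hq)) (fun hc => hadm.notMem_of_C X.st.part hc hq)
        (fun y hy => (H.geo.off q hq y hy).2)
        (Or.inr ⟨le_rfl, fun s hs => absurd hs (notMem_empty s)⟩)).trans ?_
      rw [mul_add, ENNReal.ofReal_mul hc10, mul_assoc]
      gcongr
      exact h1 q hq
    refine (ENNReal.tsum_le_tsum hc).trans ?_
    rw [ENNReal.tsum_add, ENNReal.tsum_mul_left, ENNReal.tsum_mul_left]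
    unfold S1
    gcongr
    exact (ENNReal.tsum_comp_le_tsum_of_injective Subtype.val_injective
      (fun r : Idx => ENNReal.ofReal (τ r))).trans hτ
  -- solid cubes
  have hsol : ∑' q : X.S, ∫⁻ x in dyc v q.1.1 q.1.2 \ good X g.toFun, en p g.toFun x ≤
      ENNReal.ofReal (2 * c2 p Cu D) * ((ENNReal.ofReal ε + ENNReal.ofReal ε + S2) +
        ENNReal.ofReal ε) + ENNReal.ofReal (c1 p D) * ENNReal.ofReal ε := by
    refine (ENNReal.tsum_le_tsum fun q : X.S => H.solid hp q.2 h2).trans ?_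
    rw [ENNReal.tsum_add, ENNReal.tsum_mul_left, ENNReal.tsum_mul_left, ENNReal.tsum_add]
    have e1 := tsum_BB X
    have e2 := (tsum_TT X ng τ).trans hτ
    have e3 : ∑' q : X.S, ENNReal.ofReal (τ' q.1) ≤ ENNReal.ofReal ε :=
      (ENNReal.tsum_comp_le_tsum_of_injective Subtype.val_injective
        (fun r : Idx => ENNReal.ofReal (τ' r))).trans hτ'
    gcongr
  refine hcov.trans ((tsum_split (S := X.S) (fun q =>
    ∫⁻ x in dyc v q.1 q.2 \ good X g.toFun, en p g.toFun x)).trans ((add_le_add hpas hsol).trans ?_))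
  -- the constants
  have k1 : ENNReal.ofReal (c1 p D * (16 * 4 ^ p * Cu ^ p)) ≤ ENNReal.ofReal (cf p Cu D) := by
    refine ENNReal.ofReal_le_ofReal ?_
    unfold cf
    linarith
  have k2 : ENNReal.ofReal (2 * c2 p Cu D) ≤ ENNReal.ofReal (cf p Cu D) := by
    refine ENNReal.ofReal_le_ofReal ?_
    unfold cf
    have : 0 ≤ c1 p D * (16 * 4 ^ p * Cu ^ p) := by positivity
    linarith
  have k3 : ENNReal.ofReal (6 * c2 p Cu D + 2 * c1 p D) ≤ ENNReal.ofReal (cf p Cu D) := by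
    refine ENNReal.ofReal_le_ofReal ?_
    unfold cf
    have : 0 ≤ c1 p D * (16 * 4 ^ p * Cu ^ p) := by positivity
    linarith
  have k4 : ENNReal.ofReal (6 * c2 p Cu D + 2 * c1 p D) = 3 * ENNReal.ofReal (2 * c2 p Cu D) +
      2 * ENNReal.ofReal (c1 p D) := by
    rw [ENNReal.ofReal_add (by positivity) (by positivity), ENNReal.ofReal_mul (by norm_num),
      ENNReal.ofReal_mul (by norm_num), ENNReal.ofReal_mul (by norm_num)]
    have e6 : ENNReal.ofReal 6 = 3 * ENNReal.ofReal 2 := by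
      rw [show (6:ℝ) = 3 * 2 by norm_num, ENNReal.ofReal_mul (by norm_num)]
      norm_num
    rw [e6, mul_assoc]
    norm_num
  calc _ = ENNReal.ofReal (c1 p D * (16 * 4 ^ p * Cu ^ p)) * S1 X +
        ENNReal.ofReal (2 * c2 p Cu D) * S2 +
        (3 * ENNReal.ofReal (2 * c2 p Cu D) + 2 * ENNReal.ofReal (c1 p D)) *
          ENNReal.ofReal ε := by ring
    _ ≤ ENNReal.ofReal (cf p Cu D) * S1 X + ENNReal.ofReal (cf p Cu D) * S2 +
        ENNReal.ofReal (cf p Cu D) * ENNReal.ofReal ε := by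
        rw [← k4]
        gcongr
    _ = _ := by ring

end R2

/-- **[R2ASM]** -/
theorem specR2 {p : ℝ} (hp : 1 ≤ p) (hK : K3C p) : SpecR2 p := by
  obtain ⟨D, hD, hK⟩ := k3c_inst hK
  obtain ⟨D', hDD', r, -, hK⟩ := hK 1 one_pos
  obtain ⟨j, hj, δ, hδ, hK⟩ := hK (1 / 64) (by norm_num) le_rfl
  have hj7 : 7 ≤ j := seven_le hj le_rfl
  refine ⟨j, δ, hj7, hδ, fun Cu Lc hCu hLc => ⟨cf p Cu D, ?_, ?_⟩⟩
  · have hCu0 : 0 ≤ Cu := zero_le_one.trans hCu
    have h1 := c1_nonneg (p := p) hD.le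
    have h2 := c2_nonneg (p := p) hCu0 hD.le
    have h3 : 0 ≤ Cu ^ p := Real.rpow_nonneg hCu0 p
    have h4 : (0:ℝ) < 4 ^ p := by positivity
    have : 0 ≤ c1 p D * (16 * 4 ^ p * Cu ^ p) := by positivity
    unfold cf
    linarith
  · intro ε Ω Λ f F v X
    have hε := X.hε.1
    obtain ⟨τ, hτ0, hτ⟩ : ∃ τ : Idx → ℝ, (∀ r, 0 < τ r) ∧
        ∑' r : Idx, ENNReal.ofReal (τ r) ≤ ENNReal.ofReal ε := by
      obtain ⟨e, he, hs⟩ := ENNReal.exists_pos_sum_of_countable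
        (ENNReal.ofReal_pos.2 hε).ne' Idx
      refine ⟨fun r => (e r : ℝ), fun r => he r, le_trans (le_of_eq ?_) hs.le⟩
      simp only [ENNReal.ofReal_coe_nnreal]
    obtain ⟨N₁, hN₁⟩ := specGeo X
    obtain ⟨N₂, hN₂⟩ := specIn X
    obtain ⟨N₃, hN₃⟩ := H582.R2.specSum2 hp X τ hτ0
    set ng : Idx → ℕ := fun q => max (N₁ q) (max (N₂ q) (N₃ q)) with hng
    have G := hN₁ ng fun q _ => le_max_left _ _
    have hΩ : IsOpen Ω := X.hΩ.1
    have hI := G.part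
    have hIn := hN₂ ng (fun q _ => (le_max_left _ _).trans (le_max_right _ _)) hΩ hI
    have hS2 := hN₃ ng (fun q _ => (le_max_right _ _).trans (le_max_right _ _)) G
    have hS1 := H582.R2.specSum1 hp X ng G
    obtain ⟨εs, hεs0, hεs⟩ := H803.exists_tiny hI (show 0 < p by linarith) τ hτ0 (fun _ => 1)
      fun _ => one_pos
    obtain ⟨g, O, -⟩ := hK Ω Λ X.hΩ X.hΛ v 0 X.ρ X.tg.size (partMesh hΩ hI) X.hh X.J₀ X.J X.P X.Z
      hIn ∅ (fun k => εs k.1 / 2) (fun k => half_pos (hεs0 k.1).1)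
    have O' := O.empty
    have H : Res X D D (1 / 64) ∅ ng τ g := by
      refine ⟨G, hD, le_rfl, le_rfl, fun _ _ s hs => absurd hs (notMem_empty s), hΩ, hI,
        fun k => εs k.1 / 2, εs, ∅, fun k => (half_pos (hεs0 k.1).1).le, ?_,
        hεs, fun k hk => absurd hk (notMem_empty k), O'⟩
      intro k s hks
      have hk : k.1 = s := H803.squ_injective v hks
      subst hk
      show 2 * (εs k.1 / 2) ≤ εs k.1
      linarith
    have hCu0 : 0 ≤ Cu := zero_le_one.trans hCu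
    have hc1 := c1_nonneg (p := p) hD.le
    have hc2 := c2_nonneg (p := p) hCu0 hD.le
    have h3 : 0 ≤ Cu ^ p := Real.rpow_nonneg hCu0 p
    have h4 : (0:ℝ) < 4 ^ p := by positivity
    have h5 : 0 ≤ c1 p D * (16 * 4 ^ p * Cu ^ p) := by positivity
    have hcf : D + 3 ≤ cf p Cu D := by unfold cf; linarith
    refine ⟨g, fun y hy => ?_, good X g.toFun, good_meas X _, good_sub X _, fun y hy => ?_, ?_, ?_⟩
    · refine (r2_close X hD.le O' y hy).trans ?_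
      gcongr
      linarith
    · obtain ⟨k, hk, h1, h2⟩ := good_near X hy
      refine ⟨k, hk, h1, fun i => (h2 i).trans ?_⟩
      have h6 := norm_nonneg (cl (F (X.x k)))
      have : 1 * ε ≤ cf p Cu D * ε := by
        gcongr
        linarith
      nlinarith
    · intro k hk
      filter_upwards [H.good_ae] with y hy h1 h2
      exact hy k hk h1 h2
    · exact H.total hp hS1 hS2 hτ hτ

end Vale.Agent.P073.H490
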