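import Vale.Agent.P073.H803.Dict2
import Vale.Agent.P073.H304.K3C
import Vale.Agent.P073.H73.R2FL

/-!
# P073, blocks B09 / B10: the output of `K3C` as Round 2 uses it

This is the only file of `H490` which depends on the argument list of `H304.Out` and on the
quantifiers of `H304.K3C`.

* `OutX`: the output for some width of the plates;
* `KI`, `k3c_inst`: `K3C` for fixed constants.
-/

open Set Metric Topology Filter MeasureTheory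
open scoped ENNReal

namespace Vale.Agent.P073.H490

open Vale.Agent.P073
open Vale.Agent.P073.St (V)
open Vale.Agent.P073.AB (Idx)
open Vale.Agent.P073.H73 (Mesh MinEdge segP onSeg)
open Vale.Agent.P073.H304 (Nb mid In OutB LipBd K3C Cst)
open Vale.Agent.P073.H212 (SharpOut3)
open Vale.Agent.P073.H803 (meshsum tinyT DyM)
open _root_.P073 (ConHomeo)
open _root_.P073.Net (dyc IsTile SizeFn len)

/-- the output of `K3C` -/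
def OutX {Ω Λ : Set V} (p D D' η c₀ : ℝ) (w : V) (ρ : V → ℝ) (M : Mesh Ω) (h : V → V)
    (J₀ J : Set (ℕ × (Fin 3 → ℤ))) (P Z : Set M.ι) (Y : Set M.κ) (ε : M.κ → ℝ)
    (g : ConHomeo Ω Λ) : Prop :=
  ∃ m : ℝ, OutB p D D' η c₀ m w ρ M h J₀ J P Z Y ε g

section OutX

variable {Ω Λ : Set V} {p D D' η c₀ : ℝ} {w : V} {ρ : V → ℝ} {M : Mesh Ω} {h : V → V}
  {J₀ J : Set (ℕ × (Fin 3 → ℤ))} {P Z : Set M.ι} {Y : Set M.κ} {ε : M.κ → ℝ} {g : ConHomeo Ω Λ}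

theorem OutX.off (O : OutX p D D' η c₀ w ρ M h J₀ J P Z Y ε g) :
    ∀ x ∈ Ω, h x ∉ Nb w J₀ c₀ → g.toFun x = h x := by
  obtain ⟨m, O⟩ := O
  exact O.off

theorem OutX.close (O : OutX p D D' η c₀ w ρ M h J₀ J P Z Y ε g) :
    ∀ x ∈ Ω, ∀ t ∈ J₀, h x ∈ Nb w {t} c₀ → ‖g.toFun x - h x‖ ≤ D / 2 ^ t.1 := by
  obtain ⟨m, O⟩ := O
  exact O.close

theorem OutX.prot (O : OutX p D D' η c₀ w ρ M h J₀ J P Z Y ε g) :
    ∀ i ∈ P, ∀ x ∈ M.Q i, ∀ y ∈ M.Q i, ‖g.toFun x - g.toFun y‖ ≤ D * ‖h x - h y‖ := by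
  obtain ⟨m, O⟩ := O
  exact O.prot

theorem OutX.lip (O : OutX p D D' η c₀ w ρ M h J₀ J P Z Y ε g) :
    (∀ t ∈ J₀, ∀ t' : ℕ × (Fin 3 → ℤ), IsTile ρ w t'.1 t'.2 →
      (dyc w t.1 t.2 ∩ dyc w t'.1 t'.2).Nonempty → t' ∈ J) →
    ∀ i, i ∉ P → ∀ K > 0, (∀ i', (M.Q i ∩ M.Q i').Nonempty →
      ∀ x ∈ M.Q i', ∀ y ∈ M.Q i', ‖h x - h y‖ ≤ K * ‖x - y‖) →
    ∀ C, Cst M Y D D' (M.Q i) C →
    ∀ x ∈ M.Q i, ∀ y ∈ M.Q i, ‖g.toFun x - g.toFun y‖ ≤ C * K * ‖x - y‖ := by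
  obtain ⟨m, O⟩ := O
  exact O.lip

theorem OutX.drawn {v : V} {I U : Set Idx} (Dm : DyM M v I U)
    (O : OutX p D D' η c₀ w ρ M h J₀ J P Z Y ε g)
    (hp : 1 ≤ p) (hε : ∀ k, 0 ≤ ε k) {εs : Idx × Fin 3 → ℝ}
    (hεs : ∀ k s, M.F k = AB.squ v s → 2 * ε k ≤ εs s)
    {i : M.ι} (hi : i ∈ Z) {q : Idx} (hiq : M.Q i = dyc v q.1 q.2) {C : ℝ} (hC0 : 0 ≤ C)
    (hC : Cst M Y D D' (dyc v q.1 q.2) C) :
    ∃ G : V → ℝ, LipBd g.toFun (dyc v q.1 q.2) G ∧ ∀ ℓ : Idx × Fin 3 → ℝ≥0∞,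
      (∀ e, MinEdge v I e → AB.edge v e ⊆ dyc v q.1 q.2 →
        len (onSeg h (segP v e)) (Icc 0 1) ≤ ℓ e) →
      ∫⁻ x in dyc v q.1 q.2, ENNReal.ofReal (G x ^ p) ≤
        ENNReal.ofReal (2 ^ (p - 1) * C) * (meshsum p v I ℓ q + tinyT v I p εs q) := by
  obtain ⟨m, O⟩ := O
  exact Dm.drawn_meshsum O hp hε hεs hi hiq hC0 hC

theorem OutX.toL (O : OutX p D D' η c₀ w ρ M h J₀ J P Z Y ε g) :
    H73.OutL p D D' η c₀ w M h J₀ Z Y ε g := by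
  obtain ⟨m, O⟩ := O
  exact H73.OutB.toL O

/-- without sharp faces the constant is `D` -/
theorem OutX.empty (O : OutX p D D' η c₀ w ρ M h J₀ J P Z ∅ ε g) :
    OutX p D D η c₀ w ρ M h J₀ J P Z ∅ ε g := by
  obtain ⟨m, O⟩ := O
  exact ⟨m, O.empty⟩

/-- monotonicity of the output in the constants -/
theorem OutX.mono {D₁ D₁' : ℝ} (O : OutX p D D' η c₀ w ρ M h J₀ J P Z Y ε g) (h1 : D ≤ D₁)
    (h2 : D' ≤ D₁') : OutX p D₁ D₁' η c₀ w ρ M h J₀ J P Z Y ε g := by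
  obtain ⟨m, H⟩ := O
  have key : ∀ {S : Set V} {C : ℝ}, H304.Cst M Y D₁ D₁' S C → H304.Cst M Y D D' S C := by
    rintro S C (h | ⟨h, h'⟩)
    · exact Or.inl (h2.trans h)
    · exact Or.inr ⟨h1.trans h, h'⟩
  refine ⟨m, H.off, fun x hx t ht hN => (H.close x hx t ht hN).trans (by gcongr),
    fun i hi x hx y hy => (H.prot i hi x hx y hy).trans (by gcongr),
    fun a i b K c d C e => H.lip a i b K c d C (key e),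
    fun k e he hk => (H.edge k e he hk).trans (by gcongr),
    fun k e a b c C d => H.elip k e a b c C (key d),
    fun k a C b => H.flip k a C (key b), fun k a C b => H.face k a C (key b),
    fun i a C b => H.drawn i a C (key b)⟩

end OutX

/-- `K3C` for fixed constants -/
def KI (p D D' c₀ δ μ r : ℝ) (j : ℕ) : Prop :=
  ∀ (Ω Λ : Set V), St.IsBoundedDomain Ω → St.IsBoundedDomain Λ →
    ∀ (v w : V) (ρ : V → ℝ), SizeFn Λ ρ →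
    ∀ (M : Mesh Ω) (h : ConHomeo Ω Λ) (J₀ J : Set (ℕ × (Fin 3 → ℤ))) (P Z : Set M.ι),
    In (Λ := Λ) (1 / 2 ^ j) δ c₀ v w ρ M h.toFun J₀ J P Z →
    ∀ (Y : Set M.κ) (ε : M.κ → ℝ), (∀ k, 0 < ε k) →
    ∃ g : ConHomeo Ω Λ, OutX p D D' (1 / 2 ^ j) c₀ w ρ M h.toFun J₀ J P Z Y ε g ∧
      SharpOut3 p D c₀ δ μ r w ρ M h.toFun J₀ Y ε g

theorem k3c_inst {p : ℝ} (hK : K3C p) : ∃ D > 0, ∀ μ > 0, ∃ D' ≥ D, ∃ r > 0, ∀ c₀ : ℝ, 0 < c₀ →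
    c₀ ≤ 1 / 64 → ∃ j : ℕ, 1 / 2 ^ j < c₀ ∧ ∃ δ > 0, KI p D D' c₀ δ μ r j := by
  obtain ⟨D, hD, hK⟩ := hK
  refine ⟨D, hD, fun μ hμ => ?_⟩
  obtain ⟨D', hD', r, hr, hK⟩ := hK μ hμ
  refine ⟨D', hD', r, hr, fun c₀ h1 h2 => ?_⟩
  obtain ⟨j, hj, δ, hδ, m, -, -, hK⟩ := hK c₀ h1 h2
  refine ⟨j, hj, δ, hδ, ?_⟩
  intro Ω Λ hΩ hΛ v w ρ hρ M h J₀ J P Z hIn Y ε hε
  obtain ⟨g, O, Sh, -⟩ := hK Ω Λ hΩ hΛ v w ρ hρ M h J₀ J P Z hIn Y ε hε true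
  exact ⟨g, ⟨m, O⟩, Sh rfl⟩

/-- monotonicity of the sharp output in the constant -/
theorem _root_.Vale.Agent.P073.H212.SharpOut3.mono_D {Ω Λ : Set V} {p D D₁ c₀ δ μ r : ℝ} {w : V}
    {ρ : V → ℝ} {M : Mesh Ω} {h : V → V} {J₀ : Set (ℕ × (Fin 3 → ℤ))} {Y : Set M.κ} {ε : M.κ → ℝ}
    {g : ConHomeo Ω Λ} (H : SharpOut3 p D c₀ δ μ r w ρ M h J₀ Y ε g) (h1 : D ≤ D₁) :
    SharpOut3 p D₁ c₀ δ μ r w ρ M h J₀ Y ε g := by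
  obtain ⟨q, A, hF⟩ := H.aux
  exact ⟨H.tv, q, ⟨A.off, fun x hx t ht hN => (A.close x hx t ht hN).trans (by gcongr),
    fun k e he hk => (A.edge k e he hk).trans (by gcongr), A.tv⟩, hF⟩

/-- monotonicity in the constants -/
theorem KI.mono {p D D' D₁ D₁' c₀ δ μ r : ℝ} {j : ℕ} (H : KI p D D' c₀ δ μ r j) (h1 : D ≤ D₁)
    (h2 : D' ≤ D₁') : KI p D₁ D₁' c₀ δ μ r j := by
  intro Ω Λ hΩ hΛ v w ρ hρ M h J₀ J P Z hIn Y ε hε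
  obtain ⟨g, O, Sh⟩ := H Ω Λ hΩ hΛ v w ρ hρ M h J₀ J P Z hIn Y ε hε
  exact ⟨g, O.mono h1 h2, Sh.mono_D h1⟩

theorem seven_le {j : ℕ} {c₀ : ℝ} (hj : 1 / 2 ^ j < c₀) (hc : c₀ ≤ 1 / 64) : 7 ≤ j := by
  by_contra h
  push Not at h
  have h1 : (2:ℝ) ^ j ≤ 2 ^ 6 := pow_le_pow_right₀ (by norm_num) (by omega)
  have h2 : (1:ℝ) / 2 ^ 6 ≤ 1 / 2 ^ j := one_div_le_one_div_of_le (by positivity) h1
  norm_num at h2
  have h3 : (1:ℝ) / 2 ^ j < 1 / 64 := hj.trans_le hc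
  norm_num at h3
  linarith

end Vale.Agent.P073.H490
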