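import Vale.Agent.P073.H490.RTd1
import Vale.Agent.P073.H16.EdgeComp

/-!
# P073, [REF-TOP], RTe: nearly shortest chords of the faces, small numbers on the faces

* `exists_chord`, `exists_chords`: nearly shortest segments from a point of a face to the boundary;
* `exists_beta`: positive numbers on the faces, smaller than the oscillation of the cells;
* `exists_lipF`: Lipschitz constants of `h` on the faces.
-/

open Set Metric Topology Filter MeasureTheory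
open scoped ENNReal

namespace Vale.Agent.P073.H490

open Vale.Agent.P073
open Vale.Agent.P073.St (V)
open Vale.Agent.P073.H73 (Mesh onSeg)
open Vale.Agent.P073.H193 (Edges edges)
open _root_.P073.Net (len)
open _root_.P073 (ConHomeo)

theorem norm_le_len (h : V → V) (x y : V) :
    ENNReal.ofReal ‖h x - h y‖ ≤ len (onSeg h (x, y)) (Icc 0 1) := by
  have h1 : edist (onSeg h (x, y) 0) (onSeg h (x, y) 1) ≤ len (onSeg h (x, y)) (Icc 0 1) :=
    (eVariationOn.edist_le _ (left_mem_Icc.2 zero_le_one) (right_mem_Icc.2 zero_le_one)).trans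
      (_root_.P073.H926.var_le_len _ _)
  have h2 : onSeg h (x, y) 0 = h x := by
    show h (x + (0:ℝ) • (y - x)) = h x
    rw [zero_smul, add_zero]
  have h3 : onSeg h (x, y) 1 = h y := by
    show h (x + (1:ℝ) • (y - x)) = h y
    rw [one_smul, add_sub_cancel]
  rw [h2, h3, edist_dist, dist_eq_norm] at h1
  exact h1

variable {Ω Λ : Set V} (M : Mesh Ω) (h : ConHomeo Ω Λ)

/-- nearly shortest chord -/
theorem exists_chord {k : M.κ} {z : V} (hz : z ∈ M.F k) (hz' : z ∉ intrinsicFrontier ℝ (M.F k)) :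
    ∃ y ∈ intrinsicFrontier ℝ (M.F k), ∀ y' ∈ intrinsicFrontier ℝ (M.F k),
      len (onSeg h.toFun (z, y)) (Icc 0 1) ≤ 2 * len (onSeg h.toFun (z, y')) (Icc 0 1) := by
  have hP := Vale.Agent.P073.H193.pgn_of_fat (M.fat k)
  have hFΩ : M.F k ⊆ Ω := Vale.Agent.P073.H193.mesh_sub M k
  have hsub : intrinsicFrontier ℝ (M.F k) ⊆ M.F k := intrinsicFrontier_subset hP.cpt.isClosed
  have hcl : IsClosed (intrinsicFrontier ℝ (M.F k)) := isClosed_intrinsicFrontier (affineSpan ℝ (M.F k)).closed_of_finiteDimensional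
  have hcpt : IsCompact (intrinsicFrontier ℝ (M.F k)) := hP.cpt.of_isClosed_subset hcl hsub
  obtain ⟨y₀, hy₀⟩ := (_root_.P073.H227.bd_conSphere k).nonempty
  -- a positive lower bound
  obtain ⟨c, hc, hcb⟩ : ∃ c : ℝ, 0 < c ∧ ∀ y ∈ intrinsicFrontier ℝ (M.F k),
      c ≤ ‖h.toFun z - h.toFun y‖ := by
    obtain ⟨y₁, hy₁, hmin⟩ := hcpt.exists_isMinOn ⟨y₀, hy₀⟩
      (f := fun y => ‖h.toFun z - h.toFun y‖)
      ((continuousOn_const.sub (h.cont.mono (hsub.trans hFΩ))).norm)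
    refine ⟨‖h.toFun z - h.toFun y₁‖, ?_, fun y hy => hmin hy⟩
    rw [norm_pos_iff, sub_ne_zero]
    intro h0
    have := h.injOn (hFΩ hz) (hFΩ (hsub hy₁)) h0
    rw [this] at hz'
    exact hz' hy₁
  set L : V → ℝ≥0∞ := fun y => len (onSeg h.toFun (z, y)) (Icc 0 1) with hL
  have hcL : ∀ y ∈ intrinsicFrontier ℝ (M.F k), ENNReal.ofReal c ≤ L y := fun y hy =>
    (ENNReal.ofReal_le_ofReal (hcb y hy)).trans (norm_le_len _ _ _)
  set m : ℝ≥0∞ := ⨅ y ∈ intrinsicFrontier ℝ (M.F k), L y with hm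
  have hm0 : m ≠ 0 := by
    have : ENNReal.ofReal c ≤ m := le_iInf₂ hcL
    exact ((ENNReal.ofReal_pos.2 hc).trans_le this).ne'
  have hmle : ∀ y ∈ intrinsicFrontier ℝ (M.F k), m ≤ L y := fun y hy => iInf₂_le y hy
  by_cases hmt : m = ⊤
  · refine ⟨y₀, hy₀, fun y' hy' => ?_⟩
    have h1 : L y' = ⊤ := top_le_iff.1 (hmt ▸ hmle y' hy')
    show L y₀ ≤ 2 * L y'
    rw [h1, ENNReal.mul_top (by norm_num)]
    exact le_top
  · have hlt : m < 2 * m := by
      rw [two_mul]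
      exact ENNReal.lt_add_right hmt hm0
    obtain ⟨y, hy1⟩ := iInf_lt_iff.1 (show (⨅ y ∈ intrinsicFrontier ℝ (M.F k), L y) < 2 * m from hlt)
    obtain ⟨hy, hlt'⟩ := iInf_lt_iff.1 hy1
    exact ⟨y, hy, fun y' hy' => hlt'.le.trans (mul_le_mul_right (hmle y' hy') 2)⟩

/-- two points in a cell have different images -/
theorem exists_ci : ∃ c : M.ι → ℝ, (∀ i, 0 < c i) ∧ ∀ i B,
    (∀ x ∈ M.Q i, ∀ y ∈ M.Q i, ‖h.toFun x - h.toFun y‖ ≤ B) → c i ≤ B := by
  have h1 : ∀ i, ∃ c : ℝ, 0 < c ∧ ∀ B,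
      (∀ x ∈ M.Q i, ∀ y ∈ M.Q i, ‖h.toFun x - h.toFun y‖ ≤ B) → c ≤ B := by
    intro i
    obtain ⟨x, hx⟩ := (M.poly i).int
    obtain ⟨r, hr, hball⟩ := Metric.isOpen_iff.1 isOpen_interior x hx
    set y : V := x + (r / 2) • SQ.ev 0 with hy
    have hyx : ‖y - x‖ = r / 2 := by
      rw [hy, add_sub_cancel_left, norm_smul, Real.norm_eq_abs, abs_of_pos (half_pos hr)]
      have : ‖(SQ.ev 0 : V)‖ = 1 := by
        show ‖(Pi.single 0 1 : V)‖ = 1
        rw [Pi.norm_single, norm_one]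
      rw [this, mul_one]
    have hyQ : y ∈ interior (M.Q i) := hball (by
      rw [mem_ball, dist_eq_norm, hyx]
      linarith)
    have hne : y ≠ x := by
      intro h0
      rw [h0, sub_self, norm_zero] at hyx
      linarith
    refine ⟨‖h.toFun y - h.toFun x‖, ?_, fun B hB =>
      hB y (interior_subset hyQ) x (interior_subset hx)⟩
    rw [norm_pos_iff, sub_ne_zero]
    exact fun h0 => hne (h.injOn (M.sub i (interior_subset hyQ)) (M.sub i (interior_subset hx)) h0)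
  choose c hc hcB using h1
  exact ⟨c, hc, hcB⟩

/-- positive numbers on the faces, smaller than the oscillation on the cells -/
theorem exists_beta : ∃ β : M.κ → ℝ, (∀ k, 0 < β k) ∧ ∀ k i, M.F k ⊆ M.Q i → ∀ B,
    (∀ x ∈ M.Q i, ∀ y ∈ M.Q i, ‖h.toFun x - h.toFun y‖ ≤ B) → β k ≤ B := by
  classical
  obtain ⟨c, hc, hcB⟩ := exists_ci M h
  have h2 : ∀ k : M.κ, ∃ β : ℝ, 0 < β ∧ ∀ i, M.F k ⊆ M.Q i → β ≤ c i := by
    intro k
    have hP := Vale.Agent.P073.H193.pgn_of_fat (M.fat k)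
    have hfin : {i | M.F k ⊆ M.Q i}.Finite := by
      refine (M.fin (M.F k) (Vale.Agent.P073.H193.mesh_sub M k) hP.cpt).subset fun i hi => ?_
      obtain ⟨x, hx⟩ := hP.nonempty
      exact ⟨x, hi hx, hx⟩
    obtain ⟨β, hβ, hβ'⟩ := _root_.P073.Gauge.O407.exists_pos_le hfin c fun i _ => hc i
    exact ⟨β, hβ, fun i hi => hβ' i hi⟩
  choose β hβ hβ' using h2
  exact ⟨β, hβ, fun k i hk B hB => (hβ' k i hk).trans (hcB i B hB)⟩

/-- Lipschitz constants on the faces -/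
theorem exists_lipF (hΩ : IsOpen Ω) : ∃ L : M.κ → ℝ, (∀ k, 0 ≤ L k) ∧
    ∀ k, ∀ x ∈ M.F k, ∀ y ∈ M.F k, ‖h.toFun x - h.toFun y‖ ≤ L k * ‖x - y‖ := by
  choose L hL hL' using fun k : M.κ => H16.exists_lip_cpt hΩ h.conical h.cont
    (Vale.Agent.P073.H193.pgn_of_fat (M.fat k)).cpt (Vale.Agent.P073.H193.mesh_sub M k)
  exact ⟨L, fun k => (hL k).le, hL'⟩

/-- chords for finitely many points of every face -/
theorem exists_chords (X : M.κ → Finset V) (hX : ∀ k, ∀ z ∈ X k, z ∈ M.F k) :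
    ∃ ch : M.κ → Finset (V × V),
      (∀ k, ∀ s ∈ ch k, s.1 ∈ X k ∧ s.1 ∉ intrinsicFrontier ℝ (M.F k) ∧
        s.2 ∈ intrinsicFrontier ℝ (M.F k) ∧ segment ℝ s.1 s.2 ⊆ M.F k) ∧
      ∀ k, ∀ z ∈ X k, z ∉ intrinsicFrontier ℝ (M.F k) → ∃ y, (z, y) ∈ ch k ∧
        ∀ y' ∈ intrinsicFrontier ℝ (M.F k),
          len (onSeg h.toFun (z, y)) (Icc 0 1) ≤ 2 * len (onSeg h.toFun (z, y')) (Icc 0 1) := by
  classical
  have hy : ∀ (k : M.κ) (z : V), ∃ y, z ∈ M.F k → z ∉ intrinsicFrontier ℝ (M.F k) →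
      y ∈ intrinsicFrontier ℝ (M.F k) ∧ ∀ y' ∈ intrinsicFrontier ℝ (M.F k),
        len (onSeg h.toFun (z, y)) (Icc 0 1) ≤ 2 * len (onSeg h.toFun (z, y')) (Icc 0 1) := by
    intro k z
    by_cases hz : z ∈ M.F k ∧ z ∉ intrinsicFrontier ℝ (M.F k)
    · obtain ⟨y, h1, h2⟩ := exists_chord M h hz.1 hz.2
      exact ⟨y, fun _ _ => ⟨h1, h2⟩⟩
    · exact ⟨z, fun h1 h2 => absurd ⟨h1, h2⟩ hz⟩
  choose y hy using hy
  refine ⟨fun k => ((X k).filter fun z => z ∉ intrinsicFrontier ℝ (M.F k)).image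
    fun z => (z, y k z), fun k s hs => ?_, fun k z hz hz' => ?_⟩
  · obtain ⟨z, hz, rfl⟩ := Finset.mem_image.1 hs
    rw [Finset.mem_filter] at hz
    have h1 := hX k z hz.1
    obtain ⟨h2, -⟩ := hy k z h1 hz.2
    have hP := Vale.Agent.P073.H193.pgn_of_fat (M.fat k)
    refine ⟨hz.1, hz.2, h2, hP.convex.segment_subset h1 ?_⟩
    exact intrinsicFrontier_subset hP.cpt.isClosed h2
  · exact ⟨y k z, Finset.mem_image.2 ⟨z, Finset.mem_filter.2 ⟨hz, hz'⟩, rfl⟩,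
      (hy k z (hX k z hz) hz').2⟩

end Vale.Agent.P073.H490
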