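import Vale.Agent.P073.H227.OscCell
import Vale.Agent.P073.H950.Adapt5
import Vale.Agent.P073.H926.RelCor
import Vale.Agent.P073.Gauge.Of407b

/-!
# P073, [REF-TOP], RTd: oscillation of a cell from its faces and edges

* `osc_of_faces`: the oscillation of the image of a cell is controlled by the oscillation of its
  faces and the lengths of its edges;
* `exists_nu`: positive numbers on the edges with small sums on the cells.
-/

open Set Metric Topology Filter MeasureTheory
open scoped ENNReal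

namespace Vale.Agent.P073.H490

open Vale.Agent.P073
open Vale.Agent.P073.St (V)
open Vale.Agent.P073.H73 (Mesh onSeg)
open Vale.Agent.P073.H193 (Edges edges)
open _root_.P073.Net (len)
open _root_.P073 (ConHomeo)

/-- **oscillation of a cell from the faces and the edges** -/
theorem osc_of_faces {Ω Λ : Set V} (hΛ : IsOpen Λ) {M : Mesh Ω} {h : V → V} {g : ConHomeo Ω Λ}
    {i : M.ι} {B C₁ D : ℝ} (hB : 0 ≤ B) (hC : 0 ≤ C₁) (hD : 0 ≤ D)
    (hF : ∀ k, M.F k ⊆ M.Q i → ∀ x ∈ M.F k, ∀ y ∈ M.F k, ‖g.toFun x - g.toFun y‖ ≤ C₁ * B)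
    (hE : ∃ E : Finset (V × V), (∀ e, H304.IsEdge M e → segment ℝ e.1 e.2 ⊆ M.Q i → e ∈ E) ∧
      ∑ e ∈ E, len (onSeg h e) (Icc 0 1) ≤ ENNReal.ofReal B)
    {ν : (edges M).ε → ℝ} (hν : ∀ e, 0 ≤ ν e)
    (hν2 : ∀ T : Finset (edges M).ε, (∀ e ∈ T, (edges M).seg e ⊆ M.Q i) → ∑ e ∈ T, ν e ≤ B)
    (hedge : ∀ e : (edges M).ε, (edges M).seg e ⊆ M.Q i →
      len (onSeg g.toFun ((edges M).a e, (edges M).b e)) (Icc 0 1) ≤
      ENNReal.ofReal D * len (onSeg h ((edges M).a e, (edges M).b e)) (Icc 0 1) +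
        ENNReal.ofReal (ν e)) :
    ∀ x ∈ M.Q i, ∀ y ∈ M.Q i, ‖g.toFun x - g.toFun y‖ ≤ (2 * C₁ + D + 1) * B := by
  classical
  obtain ⟨E, hE, hEs⟩ := hE
  set T : Finset (edges M).ε := (_root_.P073.H227.finite_edges (edges M) i).toFinset with hT
  have hTm : ∀ e, e ∈ T ↔ (edges M).seg e ⊆ M.Q i := fun e => by
    rw [hT, Set.Finite.mem_toFinset]
    rfl
  -- lengths
  set lg : (edges M).ε → ℝ≥0∞ := fun e => len (onSeg h ((edges M).a e, (edges M).b e)) (Icc 0 1)
    with hlg
  have hlsum : ∑ e ∈ T, lg e ≤ ENNReal.ofReal B := by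
    refine le_trans ?_ hEs
    set φ : (edges M).ε → V × V := fun e => ((edges M).a e, (edges M).b e) with hφ
    have hinj : Function.Injective φ := fun e e' hee => by
      apply Subtype.ext
      exact hee
    have himg : ∑ x ∈ T.image φ, len (onSeg h x) (Icc 0 1) = ∑ e ∈ T, lg e :=
      Finset.sum_image (fun e _ e' _ hee => hinj hee)
    rw [← himg]
    refine Finset.sum_le_sum_of_subset fun x hx => ?_
    obtain ⟨e, he, rfl⟩ := Finset.mem_image.1 hx
    exact hE _ (_root_.P073.H950.isEdge_iff.2 (Or.inl e.2)) ((hTm e).1 he)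
  have hltop : ∀ e ∈ T, lg e ≠ ⊤ := fun e he =>
    ((Finset.single_le_sum (fun _ _ => zero_le) he).trans_lt
      (hlsum.trans_lt ENNReal.ofReal_lt_top)).ne
  have hlr : ∑ e ∈ T, (lg e).toReal ≤ B := by
    rw [← ENNReal.toReal_sum hltop]
    exact ENNReal.toReal_le_of_le_ofReal hB hlsum
  have key : ∀ j : Fin 3, ∀ x ∈ M.Q i, ∀ y ∈ M.Q i, |g.toFun x j - g.toFun y j| ≤
      2 * (C₁ * B) + ∑ e ∈ T, (D * (lg e).toReal + ν e) := by
    intro j
    refine _root_.P073.H227.osc_cell hΛ g (edges M) i j (A := C₁ * B)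
      (fun k hk x hx y hy => ?_) (T := T) (fun e he => (hTm e).2 he)
      (w := fun e => D * (lg e).toReal + ν e) (fun e _ => ?_) fun e he hei x hx y hy => ?_
    · refine le_trans (le_abs_self _) (le_trans ?_ (hF k hk x hx y hy))
      exact norm_le_pi_norm (g.toFun x - g.toFun y) j
    · have := hν e
      positivity
    · have hx' : x ∈ segment ℝ ((edges M).a e) ((edges M).b e) := hx
      have hy' : y ∈ segment ℝ ((edges M).a e) ((edges M).b e) := hy
      rw [segment_eq_image'] at hx' hy'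
      obtain ⟨s, hs, rfl⟩ := hx'
      obtain ⟨s', hs', rfl⟩ := hy'
      set G : ℝ → V := onSeg g.toFun ((edges M).a e, (edges M).b e) with hG
      have h3 : edist (G s) (G s') ≤ len G (Icc 0 1) :=
        (eVariationOn.edist_le G hs hs').trans (_root_.P073.H926.var_le_len _ _)
      have h8 := hν e
      have h4 : ENNReal.ofReal ‖G s - G s'‖ ≤ ENNReal.ofReal (D * (lg e).toReal + ν e) := by
        rw [← dist_eq_norm, ← edist_dist]
        refine h3.trans ((hedge e hei).trans (le_of_eq ?_))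
        have h7 : ENNReal.ofReal (D * (lg e).toReal) = ENNReal.ofReal D * lg e := by
          rw [ENNReal.ofReal_mul hD, ENNReal.ofReal_toReal (hltop e he)]
        rw [ENNReal.ofReal_add (mul_nonneg hD ENNReal.toReal_nonneg) h8, h7]
      have h5 := (ENNReal.ofReal_le_ofReal_iff (by positivity)).1 h4
      have h6 := norm_le_pi_norm (G s - G s') j
      exact (le_abs_self _).trans (h6.trans h5)
  intro x hx y hy
  have hsum' : ∑ e ∈ T, (D * (lg e).toReal + ν e) ≤ D * B + B := by
    rw [Finset.sum_add_distrib, ← Finset.mul_sum]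
    exact add_le_add (mul_le_mul_of_nonneg_left hlr hD) (hν2 T fun e he => (hTm e).1 he)
  rw [pi_norm_le_iff_of_nonneg (by positivity)]
  intro j
  rw [Pi.sub_apply, Real.norm_eq_abs]
  refine (key j x hx y hy).trans ?_
  nlinarith

/-- **positive numbers on the edges**, with small sums on the cells -/
theorem exists_nu {Ω Λ : Set V} (M : Mesh Ω) (h : ConHomeo Ω Λ) :
    ∃ ν : (edges M).ε → ℝ, (∀ e, 0 < ν e) ∧ ∀ i, ∀ T : Finset (edges M).ε,
      (∀ e ∈ T, (edges M).seg e ⊆ M.Q i) → ∀ B,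
      (∀ x ∈ M.Q i, ∀ y ∈ M.Q i, ‖h.toFun x - h.toFun y‖ ≤ B) → ∑ e ∈ T, ν e ≤ B := by
  classical
  -- two points in a cell with different images
  have h1 : ∀ i, ∃ c : ℝ, 0 < c ∧ ∀ B,
      (∀ x ∈ M.Q i, ∀ y ∈ M.Q i, ‖h.toFun x - h.toFun y‖ ≤ B) → c ≤ B := by
    intro i
    obtain ⟨x, hx⟩ := (M.poly i).int
    obtain ⟨r, hr, hball⟩ := Metric.isOpen_iff.1 isOpen_interior x hx
    set y : V := x + (r / 2) • SQ.ev 0 with hy
    have hyx : ‖y - x‖ = r / 2 := by
      rw [hy, add_sub_cancel_left, norm_smul, Real.norm_eq_abs, abs_of_pos (half_pos hr)]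
      have : ‖(SQ.ev 0 : V)‖ = 1 := by
        show ‖(Pi.single 0 1 : V)‖ = 1
        rw [Pi.norm_single, norm_one]
      rw [this, mul_one]
    have hyQ : y ∈ interior (M.Q i) := hball (by
      rw [mem_ball, dist_eq_norm, hyx]
      linarith)
    have hne : y ≠ x := by
      intro h0
      rw [h0, sub_self, norm_zero] at hyx
      linarith
    refine ⟨‖h.toFun y - h.toFun x‖, ?_, fun B hB =>
      hB y (interior_subset hyQ) x (interior_subset hx)⟩
    rw [norm_pos_iff, sub_ne_zero]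
    exact fun h0 => hne (h.injOn (M.sub i (interior_subset hyQ)) (M.sub i (interior_subset hx)) h0)
  choose c hc hcB using h1
  -- the numbers of edges
  set N : M.ι → ℕ := fun i => (_root_.P073.H227.finite_edges (edges M) i).toFinset.card with hN
  have h2 : ∀ e : (edges M).ε, ∃ ν : ℝ, 0 < ν ∧ ∀ i, (edges M).seg e ⊆ M.Q i →
      ν ≤ c i / (N i + 1) := by
    intro e
    have hfin : {i | (edges M).seg e ⊆ M.Q i}.Finite := by
      by_cases hne : {i | (edges M).seg e ⊆ M.Q i}.Nonempty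
      · obtain ⟨i₀, hi₀⟩ := hne
        refine (M.fin (M.Q i₀) (M.sub i₀) (M.poly i₀).cpt).subset fun i hi => ?_
        exact ⟨(edges M).a e, hi ((edges M).left_mem e), hi₀ ((edges M).left_mem e)⟩
      · rw [Set.not_nonempty_iff_eq_empty] at hne
        rw [hne]
        exact Set.finite_empty
    obtain ⟨ν, hν, hν'⟩ := _root_.P073.Gauge.O407.exists_pos_le hfin
      (fun i => c i / (N i + 1)) fun i _ => div_pos (hc i) (by positivity)
    exact ⟨ν, hν, fun i hi => hν' i hi⟩
  choose ν hν hν' using h2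
  refine ⟨ν, hν, fun i T hT B hB => ?_⟩
  refine le_trans ?_ (hcB i B hB)
  have hsub : T ⊆ (_root_.P073.H227.finite_edges (edges M) i).toFinset := fun e he => by
    rw [Set.Finite.mem_toFinset]
    exact hT e he
  have hcard : (T.card : ℝ) ≤ N i := by exact_mod_cast Finset.card_le_card hsub
  have hN1 : (0:ℝ) < N i + 1 := by positivity
  calc ∑ e ∈ T, ν e ≤ ∑ _e ∈ T, c i / (N i + 1) := Finset.sum_le_sum fun e he => hν' e i (hT e he)
    _ = T.card * (c i / (N i + 1)) := by rw [Finset.sum_const, nsmul_eq_mul]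
    _ ≤ (N i + 1) * (c i / (N i + 1)) := by
        refine mul_le_mul_of_nonneg_right (by linarith) (div_pos (hc i) hN1).le
    _ = c i := by field_simp

end Vale.Agent.P073.H490
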