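import Vale.Agent.P073.H238.StepB
import Vale.Agent.P073.H579.Face1

/-!
# P073, H490, [CHART-P]: the end point of a level arc on an edge of a flat face

Near such a point the face is a half disc and the level is crossed transversally to a segment, so
there is an affine chart `(α, s) ↦ p + α • e + s • v` in which the level function is `α * δ`.
-/

open Set Metric Topology Filter

namespace Vale.Agent.P073.H490

open _root_.P073 _root_.P073.TR _root_.P073.SCH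
open Vale.Agent.P073.St (V)
open Vale.Agent.P073.H238 (PFace)

/-- an affine chart of a half disc: `A` with boundary `B`, the function `u` is `u p + α * δ` -/
structure HalfChart {E : Type*} [NormedAddCommGroup E] [NormedSpace ℝ E] (A B : Set E) (u : E → ℝ)
    (p e v : E) (δ : ℝ) : Prop where
  pos : 0 < δ
  lin : ∀ α s : ℝ, α • e + s • v = 0 → α = 0 ∧ s = 0
  mem : ∀ α ∈ Icc (-1 : ℝ) 1, ∀ s ∈ Icc (0 : ℝ) 1, p + α • e + s • v ∈ A
  val : ∀ α ∈ Icc (-1 : ℝ) 1, ∀ s ∈ Icc (0 : ℝ) 1, u (p + α • e + s • v) = u p + α * δ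
  bd : ∀ α ∈ Icc (-1 : ℝ) 1, ∀ s ∈ Icc (0 : ℝ) 1, (p + α • e + s • v ∈ B ↔ s = 0)
  op : ∃ U, IsOpen U ∧ A ∩ U = (fun q : ℝ × ℝ => p + q.1 • e + q.2 • v) ''
    (Ioo (-1 : ℝ) 1 ×ˢ Ico (0 : ℝ) 1)

/-- the linear isomorphism of the plane given by two independent vectors -/
theorem exists_coord {e v : ℝ × ℝ} (h : ∀ α s : ℝ, α • e + s • v = 0 → α = 0 ∧ s = 0) :
    ∃ K : (ℝ × ℝ) ≃L[ℝ] (ℝ × ℝ), ∀ q : ℝ × ℝ, K q = q.1 • e + q.2 • v := by
  set l : (ℝ × ℝ) →ₗ[ℝ] (ℝ × ℝ) :=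
    (LinearMap.fst ℝ ℝ ℝ).smulRight e + (LinearMap.snd ℝ ℝ ℝ).smulRight v with hl
  have hlq : ∀ q : ℝ × ℝ, l q = q.1 • e + q.2 • v := fun q => rfl
  have hinj : Function.Injective l := by
    rw [← LinearMap.ker_eq_bot, LinearMap.ker_eq_bot']
    intro q hq
    rw [hlq] at hq
    obtain ⟨h1, h2⟩ := h _ _ hq
    exact Prod.ext h1 h2
  refine ⟨(LinearEquiv.ofInjectiveEndo l hinj).toContinuousLinearEquiv, fun q => ?_⟩
  show l q = _
  exact hlq q

/-- the supporting functional -/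
theorem exists_support {C : Set (ℝ × ℝ)} (hC : Convex ℝ C) (hcl : IsClosed C)
    (hint : (interior C).Nonempty) {z : ℝ × ℝ} (hzf : z ∈ frontier C) :
    ∃ φ : (ℝ × ℝ) →L[ℝ] ℝ, (∀ x ∈ interior C, φ x < φ z) ∧ ∀ x ∈ C, φ x ≤ φ z := by
  have hzi : z ∉ interior C := by
    rw [frontier, hcl.closure_eq] at hzf
    exact hzf.2
  obtain ⟨φ, hφ⟩ := geometric_hahn_banach_open_point hC.interior isOpen_interior hzi
  refine ⟨φ, hφ, fun x hx => ?_⟩
  have h1 : x ∈ closure (interior C) := by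
    rw [hC.closure_interior_eq_closure_of_nonempty_interior hint]
    exact subset_closure hx
  have h2 : closure (interior C) ⊆ {y | φ y ≤ φ z} :=
    closure_minimal (fun y hy => (hφ y hy).le) (isClosed_le φ.continuous continuous_const)
  exact h2 h1

/-- the flow goes along the edge -/
theorem flow_dir {a₀ b₀ z : ℝ × ℝ} (hz : z ∈ openSegment ℝ a₀ b₀) {ι : Type*}
    {M : ι → Set (ℝ × ℝ)} {j : ι} (hj : M j = segment ℝ a₀ b₀) {u : ℝ × ℝ → ℝ}
    {σ : ℝ →ₗ[ℝ] ℝ × ℝ} {r : ℝ} (hb : FlowBox u M z σ r) :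
    ∃ lam : ℝ, lam ≠ 0 ∧ σ 1 = lam • (b₀ - a₀) ∧ σ 1 ≠ 0 := by
  obtain ⟨hr, hadd, hiff⟩ := hb
  have hσ : ∀ s, σ s = s • σ 1 := fun s => by
    rw [← map_smul, smul_eq_mul, mul_one]
  have hr2 : ‖r / 2‖ < r := by
    rw [Real.norm_eq_abs, abs_of_pos (by linarith)]; linarith
  have hs0 : σ 1 ≠ 0 := by
    intro h0
    have h1 := hadd 0 (r / 2) (by rw [norm_zero]; exact hr) hr2
    rw [hσ, h0, smul_zero, add_zero] at h1
    linarith
  obtain ⟨t₀, t₁, h0, h1, h01, hzt⟩ := hz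
  have h2 : z + 0 + σ (r / 2) ∈ M j := by
    rw [hiff j 0 _ (by rw [norm_zero]; exact hr) hr2, hj, add_zero]
    exact ⟨t₀, t₁, h0.le, h1.le, h01, hzt⟩
  rw [hj, add_zero, hσ] at h2
  obtain ⟨c₀, c₁, k0, k1, k01, hk⟩ := h2
  have h3 : (r / 2) • σ 1 = (c₁ - t₁) • (b₀ - a₀) := by
    have h4 : (r / 2) • σ 1 = (c₀ • a₀ + c₁ • b₀) - (t₀ • a₀ + t₁ • b₀) := by
      rw [hk, hzt]; abel
    have e0 : c₀ = 1 - c₁ := by linarith
    have e1 : t₀ = 1 - t₁ := by linarith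
    rw [h4, e0, e1]
    module
  have h5 : σ 1 = ((r / 2)⁻¹ * (c₁ - t₁)) • (b₀ - a₀) := by
    rw [mul_smul, ← h3, smul_smul, inv_mul_cancel₀ (by linarith), one_smul]
  refine ⟨_, fun h6 => ?_, h5, hs0⟩
  rw [h6, zero_smul] at h5
  exact hs0 h5

/-- the data of the chart, before normalisation -/
structure Pre (C : Set (ℝ × ℝ)) (u : ℝ × ℝ → ℝ) (z : ℝ × ℝ) (φ : (ℝ × ℝ) →L[ℝ] ℝ)
    (e v : ℝ × ℝ) (δ : ℝ) : Prop where
  pos : 0 < δ
  int : ∀ x ∈ interior C, φ x < φ z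
  sup : ∀ x ∈ C, φ x ≤ φ z
  e0 : e ≠ 0
  φe : φ e = 0
  φv : φ v < 0
  mem : ∀ α ∈ Icc (-2 : ℝ) 2, ∀ s ∈ Icc (0 : ℝ) 2, z + α • e + s • v ∈ C
  val : ∀ α ∈ Icc (-2 : ℝ) 2, ∀ s ∈ Icc (0 : ℝ) 2, u (z + α • e + s • v) = u z + α * δ

theorem Pre.halfChart {C : Set (ℝ × ℝ)} (hcl : IsClosed C) {u : ℝ × ℝ → ℝ} {z : ℝ × ℝ}
    {φ : (ℝ × ℝ) →L[ℝ] ℝ} {e v : ℝ × ℝ} {δ : ℝ} (H : Pre C u z φ e v δ) :
    HalfChart C (frontier C) u z e v δ := by
  have hlin : ∀ α s : ℝ, α • e + s • v = 0 → α = 0 ∧ s = 0 := by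
    intro α s h
    have h1 := congrArg φ h
    rw [map_add, map_smul, map_smul, H.φe, map_zero, smul_zero, zero_add, smul_eq_mul] at h1
    have hs : s = 0 := (mul_eq_zero.1 h1).resolve_right H.φv.ne
    rw [hs, zero_smul, add_zero] at h
    exact ⟨(smul_eq_zero.1 h).resolve_right H.e0, hs⟩
  obtain ⟨K, hK⟩ := exists_coord hlin
  have hKa : ∀ α s : ℝ, z + α • e + s • v = z + K (α, s) := by
    intro α s; rw [hK]; abel
  have hφK : ∀ q : ℝ × ℝ, φ (z + K q) = φ z + q.2 * φ v := by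
    intro q
    rw [hK, map_add, map_add, map_smul, map_smul, H.φe, smul_zero, zero_add, smul_eq_mul]
  have hopenmap : IsOpenMap fun y : ℝ × ℝ => z + K y :=
    (Homeomorph.addLeft z).isOpenMap.comp K.toHomeomorph.isOpenMap
  refine ⟨H.pos, hlin, ?_, ?_, ?_, ?_⟩
  · intro α hα s hs
    exact H.mem α ⟨by linarith [hα.1], by linarith [hα.2]⟩ s ⟨hs.1, by linarith [hs.2]⟩
  · intro α hα s hs
    exact H.val α ⟨by linarith [hα.1], by linarith [hα.2]⟩ s ⟨hs.1, by linarith [hs.2]⟩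
  · intro α hα s hs
    constructor
    · intro hf
      by_contra hs0'
      have hspos : 0 < s := lt_of_le_of_ne hs.1 (Ne.symm hs0')
      have hopen := hopenmap (Ioo (-2 : ℝ) 2 ×ˢ Ioo (0 : ℝ) 2) (isOpen_Ioo.prod isOpen_Ioo)
      have hsub : (fun y : ℝ × ℝ => z + K y) '' (Ioo (-2 : ℝ) 2 ×ˢ Ioo (0 : ℝ) 2) ⊆ C := by
        rintro _ ⟨y, ⟨hy1, hy2⟩, rfl⟩
        have h1 := H.mem y.1 ⟨hy1.1.le, hy1.2.le⟩ y.2 ⟨hy2.1.le, hy2.2.le⟩
        rwa [hKa] at h1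
      have hmem : z + α • e + s • v ∈ interior C :=
        interior_maximal hsub hopen ⟨(α, s), ⟨⟨by linarith [hα.1], by linarith [hα.2]⟩,
          ⟨hspos, by linarith [hs.2]⟩⟩, (hKa α s).symm⟩
      exact hf.2 hmem
    · rintro rfl
      rw [frontier, hcl.closure_eq]
      refine ⟨H.mem α ⟨by linarith [hα.1], by linarith [hα.2]⟩ 0 ⟨le_rfl, by norm_num⟩,
        fun hin => ?_⟩
      have h1 := H.int _ hin
      rw [hKa, hφK] at h1
      simp at h1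
  · refine ⟨(fun y : ℝ × ℝ => z + K y) '' (Ioo (-1 : ℝ) 1 ×ˢ Ioo (-1 : ℝ) 1),
      hopenmap _ (isOpen_Ioo.prod isOpen_Ioo), ?_⟩
    ext x
    constructor
    · rintro ⟨hxC, y, ⟨hy1, hy2⟩, rfl⟩
      have h1 := H.sup _ hxC
      simp only at h1
      rw [hφK] at h1
      have h2 : 0 ≤ y.2 := by
        by_contra hlt
        rw [not_le] at hlt
        nlinarith [H.φv]
      exact ⟨y, ⟨hy1, h2, hy2.2⟩, hKa _ _⟩
    · rintro ⟨y, ⟨hy1, hy2⟩, rfl⟩
      refine ⟨H.mem y.1 ⟨by linarith [hy1.1], by linarith [hy1.2]⟩ y.2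
        ⟨hy2.1, by linarith [hy2.2]⟩, y, ⟨hy1, by linarith [hy2.1], hy2.2⟩, (hKa _ _).symm⟩

/-- `t` small -/
theorem exists_smallP {K R : ℝ} (hK : 0 ≤ K) (hR : 0 < R) : ∃ t > 0, t ≤ 1 ∧ t * K ≤ R := by
  refine ⟨min 1 (R / (K + 1)), lt_min one_pos (by positivity), min_le_left _ _, ?_⟩
  have h1 : min 1 (R / (K + 1)) ≤ R / (K + 1) := min_le_right _ _
  calc min 1 (R / (K + 1)) * K ≤ R / (K + 1) * K := by gcongr
    _ ≤ R / (K + 1) * (K + 1) := by gcongr; linarith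
    _ = R := by field_simp

/-- the vector into the level -/
theorem exists_inward {C : Set (ℝ × ℝ)} (hC : Convex ℝ C) {z q : ℝ × ℝ} (hzC : z ∈ C)
    (hqC : q ∈ C) {ι : Type*} {M : ι → Set (ℝ × ℝ)} {i : ι} (hi : M i = C) {u : ℝ × ℝ → ℝ}
    {σ : ℝ →ₗ[ℝ] ℝ × ℝ} {r : ℝ} (hb : FlowBox u M z σ r) (hu : ConicalAt u z) :
    ∃ (v : ℝ × ℝ) (t c : ℝ), 0 < t ∧ v = t • (q - z) - c • σ 1 ∧
      ∃ r' > 0, r' ≤ 1 ∧ ∀ s ∈ Icc (0 : ℝ) r', z + s • v ∈ C ∧ u (z + s • v) = u z := by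
  obtain ⟨hr, hadd, hiff⟩ := hb
  obtain ⟨r₁, hr₁, hcon⟩ := hu
  have hσ : ∀ s, σ s = s • σ 1 := fun s => by
    rw [← map_smul, smul_eq_mul, mul_one]
  obtain ⟨t₁, ht₁, ht₁1, ht₁w⟩ := exists_smallP (norm_nonneg (q - z)) hr₁
  obtain ⟨c₀, hc₀⟩ : ∃ c₀, c₀ = u (z + t₁ • (q - z)) - u z := ⟨_, rfl⟩
  obtain ⟨r', hr'0, hr'1, hr'⟩ := exists_smallP (K := ‖t₁ • (q - z)‖ + |c₀|) (by positivity)
    (half_pos hr)
  refine ⟨t₁ • (q - z) - c₀ • σ 1, t₁, c₀, ht₁, rfl, r', hr'0, hr'1, fun s hs => ?_⟩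
  have hn0 : 0 ≤ ‖t₁ • (q - z)‖ := norm_nonneg _
  have hn1 : 0 ≤ |c₀| := abs_nonneg _
  have hw1C : z + s • (t₁ • (q - z)) ∈ C := by
    have e1 : z + s • (t₁ • (q - z)) = (1 - s * t₁) • z + (s * t₁) • q := by module
    rw [e1]
    refine hC hzC hqC ?_ (mul_nonneg hs.1 ht₁.le) (by ring)
    nlinarith [hs.1, hs.2]
  have hw1u : u (z + s • (t₁ • (q - z))) = u z + s * c₀ := by
    have h1 := hcon (t₁ • (q - z)) (by rw [norm_smul, Real.norm_of_nonneg ht₁.le]; exact ht₁w) s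
      ⟨hs.1, hs.2.trans hr'1⟩
    rw [h1, hc₀, smul_eq_mul]
  have hsm : ‖s • (t₁ • (q - z))‖ < r := by
    rw [norm_smul, Real.norm_of_nonneg hs.1]
    nlinarith [hs.1, hs.2]
  have hcs : ‖-(s * c₀)‖ < r := by
    rw [norm_neg, Real.norm_eq_abs, abs_mul, abs_of_nonneg hs.1]
    nlinarith [hs.1, hs.2]
  have e1 : z + s • (t₁ • (q - z) - c₀ • σ 1) = z + s • (t₁ • (q - z)) + σ (-(s * c₀)) := by
    rw [hσ (-(s * c₀))]; module
  rw [e1]
  refine ⟨?_, ?_⟩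
  · have h1 := (hiff i _ _ hsm hcs).2 (by rw [hi]; exact hw1C)
    rwa [hi] at h1
  · rw [hadd _ _ hsm hcs, hw1u]; ring

/-- **the planar half chart** -/
theorem exists_halfChart_plane {C : Set (ℝ × ℝ)} (hC : Convex ℝ C) (hcl : IsClosed C)
    (hint : (interior C).Nonempty) {a₀ b₀ z : ℝ × ℝ} (hE : segment ℝ a₀ b₀ ⊆ C)
    (hz : z ∈ openSegment ℝ a₀ b₀) (hzf : z ∈ frontier C) {ι : Type*} {M : ι → Set (ℝ × ℝ)}
    {i j : ι} (hi : M i = C) (hj : M j = segment ℝ a₀ b₀) {u : ℝ × ℝ → ℝ}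
    {σ : ℝ →ₗ[ℝ] ℝ × ℝ} {r : ℝ} (hb : FlowBox u M z σ r) (hu : ConicalAt u z)
    {W : Set (ℝ × ℝ)} (hW : W ∈ 𝓝 z) :
    ∃ (e v : ℝ × ℝ) (δ : ℝ), HalfChart C (frontier C) u z e v δ ∧
      (∀ α ∈ Icc (-1 : ℝ) 1, ∀ s ∈ Icc (0 : ℝ) 1, z + α • e + s • v ∈ W) ∧
      ∃ c : ℝ, 0 < c ∧ (e = c • (b₀ - a₀) ∨ e = -(c • (b₀ - a₀))) := by
  have hzC : z ∈ C := hE (openSegment_subset_segment _ _ _ hz)
  obtain ⟨φ, hφ, hφC⟩ := exists_support hC hcl hint hzf
  obtain ⟨lam, hlam0, hlam, hs0⟩ := flow_dir hz hj hb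
  have hφs : φ (σ 1) = 0 := by
    obtain ⟨t₀, t₁, h0, h1, h01, hzt⟩ := hz
    have ha := hφC a₀ (hE (left_mem_segment ℝ _ _))
    have hb' := hφC b₀ (hE (right_mem_segment ℝ _ _))
    have h2 : φ z = t₀ * φ a₀ + t₁ * φ b₀ := by
      rw [← hzt, map_add, map_smul, map_smul, smul_eq_mul, smul_eq_mul]
    have h3 : t₀ * (φ z - φ a₀) + t₁ * (φ z - φ b₀) = 0 := by
      have h4 : (t₀ + t₁) * φ z = φ z := by rw [h01, one_mul]
      linarith
    have h5 : 0 ≤ t₀ * (φ z - φ a₀) := mul_nonneg h0.le (by linarith)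
    have h6 : 0 ≤ t₁ * (φ z - φ b₀) := mul_nonneg h1.le (by linarith)
    have h7 : t₀ * (φ z - φ a₀) = 0 := by linarith
    have h8 : t₁ * (φ z - φ b₀) = 0 := by linarith
    have h9 := (mul_eq_zero.1 h7).resolve_left h0.ne'
    have h10 := (mul_eq_zero.1 h8).resolve_left h1.ne'
    rw [hlam, map_smul, map_sub, smul_eq_mul]
    have : φ b₀ - φ a₀ = 0 := by linarith
    rw [this, mul_zero]
  obtain ⟨q, hq⟩ := hint
  obtain ⟨v, t, c, ht, hv, r', hr'0, hr'1, hv'⟩ :=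
    exists_inward hC hzC (interior_subset hq) hi hb hu
  have hφv : φ v < 0 := by
    have h1 := hφ q hq
    rw [hv, map_sub, map_smul, map_smul, hφs, smul_zero, sub_zero, smul_eq_mul, map_sub]
    exact mul_neg_of_pos_of_neg ht (by linarith)
  obtain ⟨hr, hadd, hiff⟩ := hb
  have hσ : ∀ s, σ s = s • σ 1 := fun s => by
    rw [← map_smul, smul_eq_mul, mul_one]
  obtain ⟨ρ, hρ, hρW⟩ := Metric.nhds_basis_closedBall.mem_iff.1 hW
  obtain ⟨R, hR0, hRr, hRρ, hRr'⟩ : ∃ R > 0, R ≤ r ∧ R ≤ ρ ∧ R ≤ r' :=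
    ⟨min r (min ρ r'), lt_min hr (lt_min hρ hr'0), min_le_left _ _,
      (min_le_right _ _).trans (min_le_left _ _), (min_le_right _ _).trans (min_le_right _ _)⟩
  obtain ⟨d, hd0, hd1, hd⟩ := exists_smallP (K := ‖v‖ + ‖σ 1‖ + 1) (by positivity)
    (R := R / 4) (by positivity)
  have hn2 : 0 ≤ ‖v‖ := norm_nonneg _
  have hn3 : 0 ≤ ‖σ 1‖ := norm_nonneg _
  have b3 : d * ‖v‖ ≤ R / 4 := by nlinarith
  have b4 : d * ‖σ 1‖ ≤ R / 4 := by nlinarith
  have b5 : d ≤ R / 4 := by nlinarith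
  have big : ∀ α ∈ Icc (-2 : ℝ) 2, ∀ s ∈ Icc (0 : ℝ) 2,
      z + α • (d • σ 1) + s • (d • v) ∈ C ∧
      u (z + α • (d • σ 1) + s • (d • v)) = u z + α * d := by
    intro α hα s hs
    have e1 : z + α • (d • σ 1) + s • (d • v) = z + (s * d) • v + σ (α * d) := by
      rw [hσ (α * d)]; module
    have hsd : s * d ∈ Icc (0 : ℝ) r' := ⟨mul_nonneg hs.1 hd0.le, by nlinarith [hs.2, hs.1]⟩
    obtain ⟨m1, u1⟩ := hv' _ hsd
    have n1 : ‖(s * d) • v‖ < r := by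
      rw [norm_smul, Real.norm_of_nonneg hsd.1]
      have : s * d * ‖v‖ = s * (d * ‖v‖) := by ring
      rw [this]
      nlinarith [hs.2, hs.1]
    have n2 : ‖α * d‖ < r := by
      rw [Real.norm_eq_abs, abs_mul, abs_of_pos hd0]
      have : |α| ≤ 2 := abs_le.2 ⟨hα.1, hα.2⟩
      nlinarith
    rw [e1]
    refine ⟨?_, ?_⟩
    · have h1 := (hiff i _ _ n1 n2).2 (by rw [hi]; exact m1)
      rwa [hi] at h1
    · rw [hadd _ _ n1 n2, u1]
  have HP : Pre C u z φ (d • σ 1) (d • v) d :=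
    ⟨hd0, hφ, hφC, smul_ne_zero hd0.ne' hs0, by rw [map_smul, hφs, smul_zero],
      by rw [map_smul, smul_eq_mul]; exact mul_neg_of_pos_of_neg hd0 hφv,
      fun α hα s hs => (big α hα s hs).1, fun α hα s hs => (big α hα s hs).2⟩
  refine ⟨d • σ 1, d • v, d, HP.halfChart hcl, ?_, ?_⟩
  · intro α hα s hs
    apply hρW
    rw [mem_closedBall, dist_eq_norm]
    have e1 : z + α • (d • σ 1) + s • (d • v) - z = α • (d • σ 1) + s • (d • v) := by abel
    rw [e1]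
    refine (norm_add_le _ _).trans ?_
    rw [norm_smul, norm_smul, norm_smul, norm_smul, Real.norm_eq_abs,
      Real.norm_of_nonneg hd0.le, Real.norm_of_nonneg hs.1]
    have h1 : |α| ≤ 1 := abs_le.2 ⟨hα.1, hα.2⟩
    have h2 : |α| * (d * ‖σ 1‖) ≤ 1 * (d * ‖σ 1‖) := by gcongr
    have h3 : s * (d * ‖v‖) ≤ 1 * (d * ‖v‖) := by
      have := hs.2
      gcongr
    linarith
  · refine ⟨d * |lam|, mul_pos hd0 (abs_pos.2 hlam0), ?_⟩
    rcases abs_cases lam with ⟨h1, -⟩ | ⟨h1, -⟩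
    · left
      rw [hlam, h1, smul_smul]
    · right
      rw [hlam, h1, smul_smul]
      module

/-- **[CHART-P]** the half chart of a flat face at a regular point on the edge `[a₀, b₀]`; the
family `M` contains the face and the edge -/
theorem exists_halfChart {A : Set V} (F : PFace A) {a₀ b₀ p : V}
    (hE : segment ℝ a₀ b₀ ⊆ F.ch '' frontier F.C) (hp : p ∈ openSegment ℝ a₀ b₀)
    {ι : Type*} {M : ι → Set V} {i j : ι} (hi : M i = A) (hj : M j = segment ℝ a₀ b₀)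
    {u : V → ℝ} {σ : ℝ →ₗ[ℝ] V} {r : ℝ} (hb : FlowBox u M p σ r) (hu : ConicalAt u p)
    {W : Set V} (hW : W ∈ 𝓝 p) :
    ∃ (e v : V) (δ : ℝ), HalfChart A (F.ch '' frontier F.C) u p e v δ ∧
      (∀ α ∈ Icc (-1 : ℝ) 1, ∀ s ∈ Icc (0 : ℝ) 1, p + α • e + s • v ∈ W) ∧
      ∃ c : ℝ, 0 < c ∧ (e = c • (b₀ - a₀) ∨ e = -(c • (b₀ - a₀))) := by
  have hcl := F.compact.isClosed
  have hfC : frontier F.C ⊆ F.C := hcl.frontier_subset
  obtain ⟨a, ha, rfl⟩ := hE (left_mem_segment ℝ _ _)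
  obtain ⟨b, hb', rfl⟩ := hE (right_mem_segment ℝ _ _)
  -- segments in the chart
  have himg : F.ch '' segment ℝ a b = segment ℝ (F.ch a) (F.ch b) := by
    have h1 := image_segment ℝ F.aff a b
    exact h1
  have himgo : F.ch '' openSegment ℝ a b = openSegment ℝ (F.ch a) (F.ch b) := by
    have h1 := image_openSegment ℝ F.aff a b
    exact h1
  rw [← himgo] at hp
  obtain ⟨z, hz, rfl⟩ := hp
  have hsegf : segment ℝ a b ⊆ frontier F.C := by
    intro x hx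
    have h1 : F.ch x ∈ F.ch '' frontier F.C := hE (himg ▸ mem_image_of_mem _ hx)
    obtain ⟨y, hy, hyx⟩ := h1
    rwa [← F.ch_inj hyx]
  have hzf : z ∈ frontier F.C := hsegf (openSegment_subset_segment _ _ _ hz)
  obtain ⟨σ', r', -, hb2⟩ := H579.FlowBox.pull (i₀ := i) F.inj (hi.trans F.eq) (hfC hzf) hb
  have hMi : (fun w => F.o + F.L w) ⁻¹' M i = F.C := by rw [hi]; exact F.ch_preimage
  have hMj : (fun w => F.o + F.L w) ⁻¹' M j = segment ℝ a b := by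
    rw [hj, ← himg]
    exact preimage_image_eq _ F.ch_inj
  obtain ⟨e, v, δ, H, hHW, c, hc, hec⟩ := exists_halfChart_plane F.convex hcl F.int
    (hsegf.trans hfC) hz hzf (M := fun i => (fun w => F.o + F.L w) ⁻¹' M i) hMi hMj hb2
    (H579.ConicalAt.comp_chart hu) (W := F.ch ⁻¹' W) (F.continuous_ch.continuousAt.preimage_mem_nhds hW)
  have hch : ∀ α s : ℝ, F.ch z + α • F.L e + s • F.L v = F.ch (z + α • e + s • v) := by
    intro α s
    show F.o + F.L z + α • F.L e + s • F.L v = F.o + F.L (z + α • e + s • v)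
    rw [map_add, map_add, map_smul, map_smul]
    abel
  refine ⟨F.L e, F.L v, δ, ⟨H.pos, ?_, ?_, ?_, ?_, ?_⟩, ?_, c, hc, ?_⟩
  · intro α s h
    have h1 : F.L (α • e + s • v) = F.L 0 := by
      rw [map_add, map_smul, map_smul, h, map_zero]
    exact H.lin α s (F.inj h1)
  · intro α hα s hs
    rw [hch]
    exact F.ch_mem (H.mem α hα s hs)
  · intro α hα s hs
    rw [hch]
    exact H.val α hα s hs
  · intro α hα s hs
    rw [hch, F.ch_inj.mem_set_image]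
    exact H.bd α hα s hs
  · obtain ⟨U, hU, hUe⟩ := H.op
    obtain ⟨k, hk⟩ := LinearMap.exists_leftInverse_of_injective F.L (LinearMap.ker_eq_bot.2 F.inj)
    have hkL : ∀ w, k (F.L w) = w := fun w => by
      have := LinearMap.congr_fun hk w
      simpa using this
    have hkc : Continuous k := k.continuous_of_finiteDimensional
    refine ⟨(fun y : V => k (y - F.o)) ⁻¹' U, hU.preimage (by fun_prop), ?_⟩
    ext y
    constructor
    · rintro ⟨hyA, hyU⟩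
      obtain ⟨w, hw, rfl⟩ := F.exists_ch hyA
      have h4 : k (F.ch w - F.o) = w := by
        show k (F.o + F.L w - F.o) = w
        rw [add_sub_cancel_left, hkL]
      have h5 : w ∈ F.C ∩ U := ⟨hw, by rw [mem_preimage, h4] at hyU; exact hyU⟩
      rw [hUe] at h5
      obtain ⟨q, hq, rfl⟩ := h5
      exact ⟨q, hq, hch _ _⟩
    · rintro ⟨q, hq, rfl⟩
      have h5 : z + q.1 • e + q.2 • v ∈ F.C ∩ U := by
        rw [hUe]; exact ⟨q, hq, rfl⟩
      simp only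
      rw [hch]
      refine ⟨F.ch_mem h5.1, ?_⟩
      have h4 : k (F.ch (z + q.1 • e + q.2 • v) - F.o) = z + q.1 • e + q.2 • v := by
        show k (F.o + F.L _ - F.o) = _
        rw [add_sub_cancel_left, hkL]
      rw [mem_preimage, h4]
      exact h5.2
  · intro α hα s hs
    rw [hch]
    exact hHW α hα s hs
  · have e1 : F.ch b - F.ch a = F.L (b - a) := by
      show F.o + F.L b - (F.o + F.L a) = _
      rw [map_sub]; abel
    rw [e1, ← map_smul]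
    rcases hec with h | h
    · left; rw [h]
    · right; rw [h, map_neg]

/-! ### the chart as a conical homeomorphism -/

section hom

variable {E : Type*} [NormedAddCommGroup E] [NormedSpace ℝ E]

/-- the affine map of the chart -/
def hmap (p e v : E) : (ℝ × ℝ) →ᵃ[ℝ] E where
  toFun := fun q => p + q.1 • e + q.2 • v
  linear := (LinearMap.fst ℝ ℝ ℝ).smulRight e + (LinearMap.snd ℝ ℝ ℝ).smulRight v
  map_vadd' := fun q w => by
    show p + (w.1 + q.1) • e + (w.2 + q.2) • v = (w.1 • e + w.2 • v) + (p + q.1 • e + q.2 • v)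
    module

theorem hmap_apply (p e v : E) (q : ℝ × ℝ) : hmap p e v q = p + q.1 • e + q.2 • v := rfl

theorem HalfChart.injective {A B : Set E} {u : E → ℝ} {p e v : E} {δ : ℝ}
    (H : HalfChart A B u p e v δ) : Function.Injective (hmap p e v) := by
  intro q w h
  rw [hmap_apply, hmap_apply] at h
  have h1 : (q.1 - w.1) • e + (q.2 - w.2) • v = 0 := by
    have h2 : (p + q.1 • e + q.2 • v) - (p + w.1 • e + w.2 • v) = 0 := sub_eq_zero.2 h
    rw [← h2]; module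
  obtain ⟨h3, h4⟩ := H.lin _ _ h1
  exact Prod.ext (sub_eq_zero.1 h3) (sub_eq_zero.1 h4)

/-- the closed box -/
def hbox : Set (ℝ × ℝ) := Icc (-1 : ℝ) 1 ×ˢ Icc (0 : ℝ) 1

theorem isCompact_hbox : IsCompact hbox := isCompact_Icc.prod isCompact_Icc

theorem convex_hbox : Convex ℝ hbox := (convex_Icc _ _).prod (convex_Icc _ _)

/-- the chart as a conical homeomorphism of the box -/
noncomputable def HalfChart.hom {A B : Set E} {u : E → ℝ} {p e v : E} {δ : ℝ}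
    (H : HalfChart A B u p e v δ) : ConHomeo hbox (hmap p e v '' hbox) :=
  ConHomeo.ofCompact isCompact_hbox (hmap p e v)
    (Continuous.continuousOn (by
      show Continuous fun q : ℝ × ℝ => p + q.1 • e + q.2 • v
      fun_prop)) H.injective.injOn
    (conicalOn_of_affine (hmap p e v) (_root_.P073.Convex.conicalSet convex_hbox)) rfl

theorem HalfChart.hom_toFun {A B : Set E} {u : E → ℝ} {p e v : E} {δ : ℝ}
    (H : HalfChart A B u p e v δ) : H.hom.toFun = hmap p e v :=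
  ConHomeo.ofCompact_toFun _ _ _ _ _ _

/-- the sides of the level in the chart -/
theorem HalfChart.sign {A B : Set E} {u : E → ℝ} {p e v : E} {δ : ℝ}
    (H : HalfChart A B u p e v δ) {q : ℝ × ℝ} (hq : q ∈ hbox) :
    (u (hmap p e v q) = u p ↔ q.1 = 0) ∧ (u p < u (hmap p e v q) ↔ 0 < q.1) ∧
      (u (hmap p e v q) < u p ↔ q.1 < 0) := by
  have h := H.val q.1 hq.1 q.2 hq.2
  have hp := H.pos
  rw [hmap_apply, h]
  refine ⟨⟨fun h1 => ?_, fun h1 => by rw [h1]; ring⟩, ⟨fun h1 => ?_, fun h1 => ?_⟩,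
    ⟨fun h1 => ?_, fun h1 => ?_⟩⟩
  · have : q.1 * δ = 0 := by linarith
    exact (mul_eq_zero.1 this).resolve_right hp.ne'
  · by_contra h2
    rw [not_lt] at h2
    nlinarith
  · nlinarith
  · by_contra h2
    rw [not_lt] at h2
    nlinarith
  · nlinarith

end hom

end Vale.Agent.P073.H490
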