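import Mathlib.Analysis.MeanInequalitiesPow
import Mathlib.Analysis.MeanInequalities
import Mathlib.Analysis.SpecialFunctions.Pow.Real

/-!
# P073, [PATH-OUT], [DM]: the discrete inequality of Morrey on a square grid

`F : ℤ × ℤ → X` with `p`-energy at most `E` on the edges of a square of the grid with side `2 ^ d`,
`p > 2`. Any two vertices of the square are joined by a path of at most `9 * 2 ^ d` edges of
the grid in the square, of `F`-length at most `C_p (2 ^ d) ^ ((p - 2) / p) E ^ (1 / p)`.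
-/

open Finset

namespace Vale.Agent.P073.H490.DM

variable {X : Type*} [PseudoMetricSpace X]

/-- a step in the direction `o` -/
def st (o : Bool) (a : ℤ × ℤ) : ℤ × ℤ := if o then (a.1 + 1, a.2) else (a.1, a.2 + 1)

/-- the square with lower left corner `(x, y)` and side `K` -/
def sq (x y : ℤ) (K : ℕ) : Set (ℤ × ℤ) := {a | x ≤ a.1 ∧ a.1 ≤ x + K ∧ y ≤ a.2 ∧ a.2 ≤ y + K}

/-- the `p`-energy of `F` on the edges in `S` is at most `E` -/
def En (p : ℝ) (F : ℤ × ℤ → X) (S : Set (ℤ × ℤ)) (E : ℝ) : Prop :=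
  ∀ T : Finset ((ℤ × ℤ) × Bool), (∀ e ∈ T, e.1 ∈ S ∧ st e.2 e.1 ∈ S) →
    ∑ e ∈ T, dist (F e.1) (F (st e.2 e.1)) ^ p ≤ E

/-- `a` and `b` are joined in `S` by a path of at most `N` edges, of `F`-length at most `c` -/
def Pth (F : ℤ × ℤ → X) (S : Set (ℤ × ℤ)) (a b : ℤ × ℤ) (N : ℕ) (c : ℝ) : Prop :=
  ∃ n ≤ N, ∃ u : ℕ → ℤ × ℤ, u 0 = a ∧ u n = b ∧ (∀ i ≤ n, u i ∈ S) ∧
    (∀ i < n, ∃ o, u (i + 1) = st o (u i) ∨ u i = st o (u (i + 1))) ∧
    ∑ i ∈ range n, dist (F (u i)) (F (u (i + 1))) ≤ c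

theorem En.mono {p : ℝ} {F : ℤ × ℤ → X} {S S' : Set (ℤ × ℤ)} {E : ℝ} (H : En p F S E)
    (h : S' ⊆ S) : En p F S' E :=
  fun T hT => H T fun e he => ⟨h (hT e he).1, h (hT e he).2⟩

theorem Pth.mono {F : ℤ × ℤ → X} {S S' : Set (ℤ × ℤ)} {a b : ℤ × ℤ} {N N' : ℕ} {c c' : ℝ}
    (H : Pth F S a b N c) (hS : S ⊆ S') (hN : N ≤ N') (hc : c ≤ c') : Pth F S' a b N' c' := by
  obtain ⟨n, hn, u, h0, h1, h2, h3, h4⟩ := H
  exact ⟨n, hn.trans hN, u, h0, h1, fun i hi => hS (h2 i hi), h3, h4.trans hc⟩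

theorem Pth.refl (F : ℤ × ℤ → X) {S : Set (ℤ × ℤ)} {a : ℤ × ℤ} (ha : a ∈ S) {N : ℕ} {c : ℝ}
    (hc : 0 ≤ c) : Pth F S a a N c :=
  ⟨0, Nat.zero_le _, fun _ => a, rfl, rfl, fun _ _ => ha, fun i hi => absurd hi (Nat.not_lt_zero i),
    by simpa using hc⟩

theorem Pth.symm {F : ℤ × ℤ → X} {S : Set (ℤ × ℤ)} {a b : ℤ × ℤ} {N : ℕ} {c : ℝ}
    (H : Pth F S a b N c) : Pth F S b a N c := by
  obtain ⟨n, hn, u, h0, h1, h2, h3, h4⟩ := H
  refine ⟨n, hn, fun i => u (n - i), by simpa using h1, by simpa using h0,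
    fun i _ => h2 _ (Nat.sub_le _ _), fun i hi => ?_, ?_⟩
  · obtain ⟨o, ho⟩ := h3 (n - (i + 1)) (by omega)
    rw [show n - (i + 1) + 1 = n - i by omega] at ho
    exact ⟨o, ho.symm⟩
  · refine le_trans (le_of_eq ?_) h4
    rw [← sum_range_reflect]
    refine sum_congr rfl fun i hi => ?_
    rw [mem_range] at hi
    rw [dist_comm]
    congr 2
    · show u (n - (n - 1 - i + 1)) = _
      congr 1
      omega
    · show u (n - (n - 1 - i)) = _
      congr 1
      omega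

theorem Pth.trans {F : ℤ × ℤ → X} {S : Set (ℤ × ℤ)} {a b e : ℤ × ℤ} {N N' : ℕ} {c c' : ℝ}
    (H : Pth F S a b N c) (H' : Pth F S b e N' c') : Pth F S a e (N + N') (c + c') := by
  obtain ⟨n, hn, u, h0, h1, h2, h3, h4⟩ := H
  obtain ⟨m, hm, w, g0, g1, g2, g3, g4⟩ := H'
  set q : ℕ → ℤ × ℤ := fun i => if i ≤ n then u i else w (i - n) with hq
  have q1 : ∀ i ≤ n, q i = u i := fun i hi => if_pos hi
  have q2 : ∀ i, q (n + i) = w i := by
    intro i
    by_cases hi : i = 0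
    · subst hi
      rw [add_zero, q1 n le_rfl, h1, g0]
    · simp only [hq]
      rw [if_neg (by omega), show n + i - n = i by omega]
  refine ⟨n + m, by omega, q, by rw [q1 0 (Nat.zero_le _), h0], by rw [q2, g1], fun i hi => ?_,
    fun i hi => ?_, ?_⟩
  · by_cases h : i ≤ n
    · rw [q1 i h]
      exact h2 i h
    · obtain ⟨j, rfl⟩ := Nat.exists_eq_add_of_le (not_le.1 h).le
      rw [q2]
      exact g2 j (by omega)
  · by_cases h : i < n
    · rw [q1 i h.le, q1 (i + 1) h]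
      exact h3 i h
    · obtain ⟨j, rfl⟩ := Nat.exists_eq_add_of_le (not_lt.1 h)
      rw [q2, show n + j + 1 = n + (j + 1) by omega, q2]
      exact g3 j (by omega)
  · rw [sum_range_add]
    refine add_le_add (le_trans (le_of_eq ?_) h4) (le_trans (le_of_eq ?_) g4)
    · refine sum_congr rfl fun i hi => ?_
      rw [mem_range] at hi
      rw [q1 i hi.le, q1 (i + 1) hi]
    · refine sum_congr rfl fun i _ => ?_
      rw [q2, show n + i + 1 = n + (i + 1) by omega, q2]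

/-- the point `t` of the line `i` in the direction `o` -/
def pt (o : Bool) (x y i t : ℤ) : ℤ × ℤ := if o then (x + t, y + i) else (x + i, y + t)

theorem st_pt (o : Bool) (x y i t : ℤ) : st o (pt o x y i t) = pt o x y i (t + 1) := by
  cases o <;> simp [st, pt, add_assoc]

/-- a path along a line -/
theorem Pth.line (F : ℤ × ℤ → X) {S : Set (ℤ × ℤ)} (o : Bool) (x y i : ℤ) (K : ℕ)
    (hS : ∀ l ≤ K, pt o x y i (l : ℕ) ∈ S) {s t : ℕ} (hs : s ≤ K) (ht : t ≤ K) :
    Pth F S (pt o x y i s) (pt o x y i t) K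
      (∑ l ∈ range K, dist (F (pt o x y i l)) (F (pt o x y i (l + 1)))) := by
  wlog hst : s ≤ t generalizing s t
  · exact (this ht hs (not_le.1 hst).le).symm
  refine ⟨t - s, by omega, fun l => pt o x y i ((s + l : ℕ) : ℤ), by simp, ?_, fun l hl => ?_,
    fun l hl => ⟨o, Or.inl ?_⟩, ?_⟩
  · show pt o x y i ((s + (t - s) : ℕ) : ℤ) = _
    rw [show s + (t - s) = t by omega]
  · exact hS _ (by omega)
  · rw [st_pt]
    congr 1
  · have h1 : ∑ l ∈ range (t - s), dist (F (pt o x y i ((s + l : ℕ) : ℤ)))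
        (F (pt o x y i ((s + (l + 1) : ℕ) : ℤ))) =
        ∑ l ∈ Ico s t, dist (F (pt o x y i (l : ℕ))) (F (pt o x y i ((l : ℕ) + 1))) := by
      rw [sum_Ico_eq_sum_range]
      refine sum_congr rfl fun l _ => ?_
      congr 3
    rw [h1]
    refine sum_le_sum_of_subset_of_nonneg (fun l hl => ?_) fun _ _ _ => dist_nonneg
    rw [mem_Ico] at hl
    exact mem_range.2 (by omega)

/-- a good line -/
theorem En.good {p : ℝ} {F : ℤ × ℤ → X} {S : Set (ℤ × ℤ)} {E : ℝ} (H : En p F S E) (o : Bool)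
    (x y : ℤ) (m K : ℕ) (hm : 0 < m) (hS : ∀ i < m, ∀ l ≤ K, pt o x y (i : ℕ) (l : ℕ) ∈ S) :
    ∃ i < m, ∑ l ∈ range K, dist (F (pt o x y (i : ℕ) l)) (F (pt o x y (i : ℕ) (l + 1))) ^ p ≤
      E / m := by
  have hinj : Function.Injective fun a : ℕ × ℕ => ((pt o x y (a.1 : ℕ) (a.2 : ℕ), o) :
      (ℤ × ℤ) × Bool) := by
    rintro ⟨a, b⟩ ⟨a', b'⟩ h
    simp only [Prod.mk.injEq] at h
    obtain ⟨h, -⟩ := h
    cases o
    · simp only [pt, Bool.false_eq_true, if_false, Prod.mk.injEq] at h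
      exact Prod.ext (by omega) (by omega)
    · simp only [pt, if_true, Prod.mk.injEq] at h
      exact Prod.ext (by omega) (by omega)
  have h1 := H ((range m ×ˢ range K).map ⟨_, hinj⟩) (by
    intro e he
    obtain ⟨⟨a, b⟩, hab, rfl⟩ := mem_map.1 he
    rw [mem_product, mem_range, mem_range] at hab
    refine ⟨hS a hab.1 b (le_of_lt hab.2), ?_⟩
    show st o (pt o x y (a : ℕ) (b : ℕ)) ∈ S
    rw [st_pt]
    have := hS a hab.1 (b + 1) hab.2
    push_cast at this
    exact this)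
  rw [sum_map, sum_product] at h1
  by_contra hcon
  push Not at hcon
  have h2 : ∑ _i ∈ range m, E / m < ∑ i ∈ range m, ∑ l ∈ range K,
      dist (F (pt o x y (i : ℕ) l)) (F (pt o x y (i : ℕ) (l + 1))) ^ p :=
    sum_lt_sum_of_nonempty (nonempty_range_iff.2 hm.ne') fun i hi => hcon i (mem_range.1 hi)
  rw [sum_const, card_range, nsmul_eq_mul, mul_div_cancel₀ _ (Nat.cast_ne_zero.2 hm.ne')] at h2
  refine absurd h2 (not_lt.2 (le_trans (le_of_eq ?_) h1))
  refine sum_congr rfl fun i _ => sum_congr rfl fun l _ => ?_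
  show _ = dist (F (pt o x y (i : ℕ) (l : ℕ))) (F (st o (pt o x y (i : ℕ) (l : ℕ)))) ^ p
  rw [st_pt]

/-- the length of a good line -/
theorem len_le {p : ℝ} (hp : 2 < p) {E : ℝ} (hE : 0 ≤ E) (d : ℕ) {a : ℕ → ℝ}
    (ha : ∀ l, 0 ≤ a l) (h : ∑ l ∈ range (2 ^ d), a l ^ p ≤ 2 * E / (2 ^ d : ℕ)) :
    ∑ l ∈ range (2 ^ d), a l ≤ (2 * E) ^ (1 / p) * ((2 : ℝ) ^ ((p - 2) / p)) ^ d := by
  have hp0 : 0 < p := by linarith
  have hK : (0 : ℝ) < 2 ^ d := by positivity
  have h1 := Real.rpow_sum_le_const_mul_sum_rpow (range (2 ^ d)) a (p := p) (by linarith)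
  have h2 : ∀ l, |a l| = a l := fun l => abs_of_nonneg (ha l)
  simp only [h2, card_range, Nat.cast_pow, Nat.cast_ofNat] at h1
  have h3 : (∑ l ∈ range (2 ^ d), a l) ^ p ≤ 2 * E * (2 ^ d : ℝ) ^ (p - 2) := by
    refine h1.trans ?_
    have h4 : ((2 : ℝ) ^ d) ^ (p - 1) * (2 * E / 2 ^ d) = 2 * E * (2 ^ d : ℝ) ^ (p - 2) := by
      have : ((2 : ℝ) ^ d) ^ (p - 1) = (2 ^ d : ℝ) ^ (p - 2) * 2 ^ d := by
        rw [show p - 1 = (p - 2) + 1 by ring, Real.rpow_add hK, Real.rpow_one]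
      rw [this]
      field_simp
    rw [← h4]
    refine mul_le_mul_of_nonneg_left ?_ (by positivity)
    simpa using h
  have h5 : 0 ≤ ∑ l ∈ range (2 ^ d), a l := sum_nonneg fun l _ => ha l
  have h6 : ∑ l ∈ range (2 ^ d), a l = ((∑ l ∈ range (2 ^ d), a l) ^ p) ^ (1 / p) := by
    rw [← Real.rpow_mul h5, mul_one_div_cancel hp0.ne', Real.rpow_one]
  rw [h6]
  refine (Real.rpow_le_rpow (by positivity) h3 (by positivity)).trans (le_of_eq ?_)
  rw [Real.mul_rpow (by positivity) (by positivity)]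
  congr 1
  rw [← Real.rpow_natCast, ← Real.rpow_natCast, ← Real.rpow_mul (by norm_num),
    ← Real.rpow_mul (by norm_num), ← Real.rpow_mul (by norm_num)]
  congr 1
  field_simp

theorem sq_sub {x y x' y' : ℤ} {K K' : ℕ} (h1 : x ≤ x') (h2 : x' + K' ≤ x + K) (h3 : y ≤ y')
    (h4 : y' + K' ≤ y + K) : sq x' y' K' ⊆ sq x y K := by
  rintro a ⟨a1, a2, a3, a4⟩
  exact ⟨by omega, by omega, by omega, by omega⟩

/-- **the induction**: from every vertex to every row -/
theorem to_row {p : ℝ} (hp : 2 < p) {E : ℝ} (hE : 0 ≤ E) (F : ℤ × ℤ → X) {c : ℝ} (hc1 : 1 ≤ c)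
    (hc : 2 * (2 : ℝ) ^ ((p - 2) / p) ≤ c * ((2 : ℝ) ^ ((p - 2) / p) - 1)) (d : ℕ) :
    ∀ x y : ℤ, En p F (sq x y (2 ^ d)) E → ∀ z ∈ sq x y (2 ^ d), ∀ j : ℤ, 0 ≤ j → j ≤ 2 ^ d →
      ∃ i : ℤ, 0 ≤ i ∧ i ≤ 2 ^ d ∧ Pth F (sq x y (2 ^ d)) z (x + i, y + j) (4 * 2 ^ d)
        (c * ((2 * E) ^ (1 / p) * ((2 : ℝ) ^ ((p - 2) / p)) ^ d)) := by
  have hp0 : 0 < p := by linarith
  set r : ℝ := (2 : ℝ) ^ ((p - 2) / p) with hr
  have hr1 : 1 < r := Real.one_lt_rpow (by norm_num) (by apply div_pos <;> linarith)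
  set b : ℝ := (2 * E) ^ (1 / p) with hb
  have hb0 : 0 ≤ b := by positivity
  induction d with
  | zero =>
    intro x y H z hz j hj0 hj1
    simp only [pow_zero] at hj1 hz ⊢
    obtain ⟨z1, z2, z3, z4⟩ := hz
    push_cast at z2 z4
    refine ⟨z.1 - x, by omega, by omega, ?_⟩
    -- one vertical edge
    have h1 : ∀ w : ℤ × ℤ, w ∈ sq x y 1 → st false w ∈ sq x y 1 →
        dist (F w) (F (st false w)) ≤ b := by
      intro w hw hw'
      have h2 := H {(w, false)} (by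
        intro e he
        rw [mem_singleton] at he
        subst he
        exact ⟨by simpa using hw, by simpa using hw'⟩)
      rw [sum_singleton] at h2
      have h3 : dist (F w) (F (st false w)) =
          (dist (F w) (F (st false w)) ^ p) ^ (1 / p) := by
        rw [← Real.rpow_mul dist_nonneg, mul_one_div_cancel hp0.ne', Real.rpow_one]
      rw [h3]
      exact Real.rpow_le_rpow (by positivity) (h2.trans (by linarith)) (by positivity)
    have hcb : b ≤ c * (b * 1) := by nlinarith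
    rcases lt_trichotomy z.2 (y + j) with h | h | h
    · have e1 : (x + (z.1 - x), y + j) = st false z := by
        simp only [st, Bool.false_eq_true, if_false]
        exact Prod.ext (by simp) (by simp only; omega)
      rw [e1]
      have hz' : st false z ∈ sq x y 1 := by
        rw [← e1]
        refine ⟨?_, ?_, ?_, ?_⟩ <;> simp only <;> push_cast <;> omega
      refine ⟨1, by norm_num, fun i => if i = 0 then z else st false z, by simp, by simp,
        fun i _ => ?_, fun i hi => ⟨false, Or.inl ?_⟩, ?_⟩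
      · dsimp only
        split_ifs
        · exact ⟨z1, by push_cast; omega, z3, by push_cast; omega⟩
        · exact hz'
      · have : i = 0 := by omega
        subst this
        simp
      · simpa using (h1 z ⟨z1, by push_cast; omega, z3, by push_cast; omega⟩ hz').trans hcb
    · have e1 : (x + (z.1 - x), y + j) = z := Prod.ext (by simp) (by simp only; omega)
      rw [e1]
      exact Pth.refl F (show z ∈ sq x y 1 from ⟨z1, by push_cast; omega, z3, by push_cast; omega⟩)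
        (by positivity)
    · set w : ℤ × ℤ := (x + (z.1 - x), y + j) with hw
      have e1 : z = st false w := by
        simp only [hw, st, Bool.false_eq_true, if_false]
        exact Prod.ext (by simp) (by simp only; omega)
      have hwS : w ∈ sq x y 1 := by
        refine ⟨?_, ?_, ?_, ?_⟩ <;> simp only [hw] <;> push_cast <;> omega
      have hzS : z ∈ sq x y 1 := ⟨z1, by push_cast; omega, z3, by push_cast; omega⟩
      refine Pth.symm ⟨1, by norm_num, fun i => if i = 0 then w else z, by simp, by simp,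
        fun i _ => ?_, fun i hi => ⟨false, Or.inl ?_⟩, ?_⟩
      · dsimp only
        split_ifs
        · exact hwS
        · exact hzS
      · have : i = 0 := by omega
        subst this
        simpa using e1
      · have h2 := h1 w hwS (by rw [← e1]; exact hzS)
        rw [← e1] at h2
        simpa using h2.trans hcb
  | succ d ih =>
    intro x y H z hz j hj0 hj1
    have hK : (2 : ℤ) ^ (d + 1) = 2 ^ d + 2 ^ d := by ring
    have hK' : ((2 ^ (d + 1) : ℕ) : ℤ) = 2 ^ d + 2 ^ d := by push_cast; ring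
    have hKn : (2 : ℕ) ^ (d + 1) = 2 ^ d + 2 ^ d := by ring
    have hd0 : (0 : ℤ) < 2 ^ d := by positivity
    have hc2 : ((2 ^ d : ℕ) : ℤ) = 2 ^ d := by push_cast; rfl
    obtain ⟨z1, z2, z3, z4⟩ := id hz
    rw [hK'] at z2 z4
    -- the child
    obtain ⟨α, hα, hα0, hα1, hα2⟩ : ∃ α : ℤ, (α = 0 ∨ α = 2 ^ d) ∧ 0 ≤ α ∧ x + α ≤ z.1 ∧
        z.1 ≤ x + α + 2 ^ d := by
      by_cases h : z.1 ≤ x + 2 ^ d
      · exact ⟨0, Or.inl rfl, le_rfl, by omega, by omega⟩
      · exact ⟨2 ^ d, Or.inr rfl, hd0.le, by omega, by omega⟩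
    obtain ⟨β, hβ, hβ0, hβ1, hβ2⟩ : ∃ β : ℤ, (β = 0 ∨ β = 2 ^ d) ∧ 0 ≤ β ∧ y + β ≤ z.2 ∧
        z.2 ≤ y + β + 2 ^ d := by
      by_cases h : z.2 ≤ y + 2 ^ d
      · exact ⟨0, Or.inl rfl, le_rfl, by omega, by omega⟩
      · exact ⟨2 ^ d, Or.inr rfl, hd0.le, by omega, by omega⟩
    have hαK : α + 2 ^ d ≤ 2 ^ d + 2 ^ d := by rcases hα with rfl | rfl <;> omega
    have hβK : β + 2 ^ d ≤ 2 ^ d + 2 ^ d := by rcases hβ with rfl | rfl <;> omega
    have hsub : sq (x + α) (y + β) (2 ^ d) ⊆ sq x y (2 ^ (d + 1)) :=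
      sq_sub (by omega) (by rw [hK', hc2]; omega) (by omega) (by rw [hK', hc2]; omega)
    have H' := H.mono hsub
    -- a good row of the child
    obtain ⟨jr, hjr, hrow⟩ := H'.good true (x + α) (y + β) (2 ^ d) (2 ^ d) (by positivity) (by
      intro i hi l hl
      have h1 : (i : ℤ) < 2 ^ d := by rw [← hc2]; exact_mod_cast hi
      have h2 : (l : ℤ) ≤ 2 ^ d := by rw [← hc2]; exact_mod_cast hl
      refine ⟨?_, ?_, ?_, ?_⟩ <;> simp only [pt, if_true] <;> (try rw [hc2]) <;> omega)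
    have hrow2 : ∑ l ∈ range (2 ^ d), dist (F (pt true (x + α) (y + β) (jr : ℕ) l))
        (F (pt true (x + α) (y + β) (jr : ℕ) (l + 1))) ≤ b * r ^ d :=
      len_le hp hE d (fun _ => dist_nonneg) (hrow.trans (by gcongr; linarith))
    -- a good column
    obtain ⟨ic, hic, hcol⟩ := H.good false (x + α) y (2 ^ d) (2 ^ (d + 1)) (by positivity) (by
      intro i hi l hl
      have h1 : (i : ℤ) < 2 ^ d := by rw [← hc2]; exact_mod_cast hi
      have h2 : (l : ℤ) ≤ 2 ^ d + 2 ^ d := by rw [← hK']; exact_mod_cast hl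
      refine ⟨?_, ?_, ?_, ?_⟩ <;> simp only [pt, Bool.false_eq_true, if_false] <;>
        (try rw [hK']) <;> omega)
    have hcol2 : ∑ l ∈ range (2 ^ (d + 1)), dist (F (pt false (x + α) y (ic : ℕ) l))
        (F (pt false (x + α) y (ic : ℕ) (l + 1))) ≤ b * r ^ (d + 1) := by
      refine len_le hp hE (d + 1) (fun _ => dist_nonneg) (hcol.trans (le_of_eq ?_))
      push_cast
      rw [pow_succ]
      field_simp
    have hic' : (ic : ℤ) < 2 ^ d := by rw [← hc2]; exact_mod_cast hic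
    have hjr' : (jr : ℤ) < 2 ^ d := by rw [← hc2]; exact_mod_cast hjr
    -- first part
    obtain ⟨i, hi0, hi1, hP1⟩ := ih (x + α) (y + β) H' z
      ⟨hα1, by rw [hc2]; exact hα2, hβ1, by rw [hc2]; exact hβ2⟩ (jr : ℕ) (by positivity) hjr'.le
    -- second part: along the row
    have hP2 : Pth F (sq x y (2 ^ (d + 1))) (x + α + i, y + β + jr) (x + α + ic, y + β + jr)
        (2 ^ d) (b * r ^ d) := by
      have h1 := Pth.line F (S := sq x y (2 ^ (d + 1))) true (x + α) (y + β) (jr : ℕ) (2 ^ d) (by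
        intro l hl
        have h2 : (l : ℤ) ≤ 2 ^ d := by rw [← hc2]; exact_mod_cast hl
        refine ⟨?_, ?_, ?_, ?_⟩ <;> simp only [pt, if_true] <;> (try rw [hK']) <;> omega)
        (s := i.toNat) (t := ic) (by zify; rw [Int.toNat_of_nonneg hi0]; exact hi1) hic.le
      rw [Int.toNat_of_nonneg hi0] at h1
      exact h1.mono le_rfl le_rfl hrow2
    -- third part: along the column
    have hP3 : Pth F (sq x y (2 ^ (d + 1))) (x + α + ic, y + β + jr) (x + α + ic, y + j)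
        (2 ^ (d + 1)) (b * r ^ (d + 1)) := by
      have h1 := Pth.line F (S := sq x y (2 ^ (d + 1))) false (x + α) y (ic : ℕ) (2 ^ (d + 1)) (by
        intro l hl
        have h2 : (l : ℤ) ≤ 2 ^ d + 2 ^ d := by rw [← hK']; exact_mod_cast hl
        refine ⟨?_, ?_, ?_, ?_⟩ <;> simp only [pt, Bool.false_eq_true, if_false] <;>
          (try rw [hK']) <;> omega)
        (s := (β + jr).toNat) (t := j.toNat)
        (by zify; rw [Int.toNat_of_nonneg (by omega)]; rw [hK]; omega)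
        (by zify; rw [Int.toNat_of_nonneg hj0]; exact hj1)
      rw [Int.toNat_of_nonneg (by omega), Int.toNat_of_nonneg hj0] at h1
      have e1 : pt false (x + α) y (ic : ℕ) (β + jr) = (x + α + ic, y + β + jr) := by
        simp only [pt, Bool.false_eq_true, if_false]
        exact Prod.ext rfl (by simp only; ring)
      rw [e1] at h1
      exact h1.mono le_rfl le_rfl hcol2
    refine ⟨α + ic, by omega, by rw [hK]; omega, ?_⟩
    have h4 := ((hP1.mono hsub le_rfl le_rfl).trans hP2).trans hP3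
    rw [add_assoc x α] at h4
    refine h4.mono le_rfl (by rw [hKn]; omega) ?_
    have h5 : b * r ^ d * (2 * r) ≤ b * r ^ d * (c * (r - 1)) :=
      mul_le_mul_of_nonneg_left hc (by positivity)
    have h6 : b * r ^ d ≤ b * r ^ d * r := le_mul_of_one_le_right (by positivity) hr1.le
    rw [pow_succ]
    nlinarith

/-- the constant -/
noncomputable def cD (p : ℝ) : ℝ :=
  2 * (2 * (2 : ℝ) ^ ((p - 2) / p) / ((2 : ℝ) ^ ((p - 2) / p) - 1)) + 1

/-- **the discrete inequality of Morrey** -/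
theorem exists_path {p : ℝ} (hp : 2 < p) {E : ℝ} (hE : 0 ≤ E) (F : ℤ × ℤ → X) (x y : ℤ) (d : ℕ)
    (H : En p F (sq x y (2 ^ d)) E) {z z' : ℤ × ℤ} (hz : z ∈ sq x y (2 ^ d))
    (hz' : z' ∈ sq x y (2 ^ d)) :
    Pth F (sq x y (2 ^ d)) z z' (9 * 2 ^ d)
      (cD p * ((2 * E) ^ (1 / p) * ((2 : ℝ) ^ ((p - 2) / p)) ^ d)) := by
  have hp0 : 0 < p := by linarith
  set r : ℝ := (2 : ℝ) ^ ((p - 2) / p) with hr
  have hr1 : 1 < r := Real.one_lt_rpow (by norm_num) (by apply div_pos <;> linarith)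
  set c : ℝ := 2 * r / (r - 1) with hc
  have hc1 : 1 ≤ c := by
    rw [hc, le_div_iff₀ (by linarith)]
    linarith
  have hc2 : 2 * r ≤ c * (r - 1) := by
    rw [hc, div_mul_cancel₀ _ (by linarith)]
  have hcast : ((2 ^ d : ℕ) : ℤ) = 2 ^ d := by push_cast; rfl
  have hrowS : ∀ i < 2 ^ d, ∀ l ≤ 2 ^ d, pt true x y (i : ℕ) (l : ℕ) ∈ sq x y (2 ^ d) := by
    intro i hi l hl
    have h1 : (i : ℤ) < 2 ^ d := by rw [← hcast]; exact_mod_cast hi
    have h2 : (l : ℤ) ≤ 2 ^ d := by rw [← hcast]; exact_mod_cast hl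
    refine ⟨?_, ?_, ?_, ?_⟩ <;> simp only [pt, if_true] <;> (try rw [hcast]) <;> omega
  obtain ⟨j, hj, hrow⟩ := H.good true x y (2 ^ d) (2 ^ d) (by positivity) hrowS
  have hrow2 := len_le hp hE d (fun _ => dist_nonneg) (hrow.trans (by gcongr; linarith))
  have hj' : (j : ℤ) ≤ 2 ^ d := by rw [← hcast]; exact_mod_cast hj.le
  obtain ⟨i, hi0, hi1, hP⟩ := to_row hp hE F hc1 hc2 d x y H z hz (j : ℕ) (by positivity) hj'
  obtain ⟨i', hi0', hi1', hP'⟩ := to_row hp hE F hc1 hc2 d x y H z' hz' (j : ℕ) (by positivity) hj'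
  have hL := Pth.line F (S := sq x y (2 ^ d)) true x y (j : ℕ) (2 ^ d)
    (fun l hl => hrowS j hj l hl) (s := i.toNat) (t := i'.toNat)
    (by zify; rw [Int.toNat_of_nonneg hi0]; exact hi1)
    (by zify; rw [Int.toNat_of_nonneg hi0']; exact hi1')
  rw [Int.toNat_of_nonneg hi0, Int.toNat_of_nonneg hi0'] at hL
  have h1 := (hP.trans (hL.mono le_rfl le_rfl hrow2)).trans hP'.symm
  refine h1.mono le_rfl (by omega) ?_
  rw [cD, ← hr, ← hc]
  have h2 : 0 ≤ (2 * E) ^ (1 / p) * r ^ d := by positivity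
  nlinarith

end Vale.Agent.P073.H490.DM
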