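import Vale.Agent.P073.H304.SpecB
import Vale.Agent.P073.H989.GenRed
import Vale.Agent.P073.SM.Final
import Vale.Agent.P073.SMF.Main

/-!
# P073, block B09, the tail: from conical homeomorphisms with small error to `M1P`

* `m1P_of_con`, `m1PG_of_con`: the smoothing step, every exponent `1 ≤ p`;
* `err_split`, `err_third`: splitting of the error;
* `lipBd_energy`, `lip_energy`: energy of a cell from a bound of the local Lipschitz constant.
-/

open MeasureTheory Set Filter Topology Metric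
open scoped ENNReal ContDiff

namespace Vale.Agent.P073.H490

open Vale.Agent.P073 Vale.Agent.P073.St
open Vale.Agent.P073.SQ (ev)
open Vale.Agent.P073.AB (cl err FinDist)
open Vale.Agent.P073.H304 (LipBd)
open _root_.P073 (ConHomeo ConicalOn)
open _root_.P073.Net (dyc dyo)

variable {p : ℝ} {Ω Λ : Set V} {f : V → V} {F : V → Mat}

/-- `(a + b + c)^p`, in `ℝ≥0∞`, from norms -/
theorem enorm_tri (hp : 1 ≤ p) (a b : V) :
    ENNReal.ofReal (‖a + b‖ ^ p) ≤
      2 ^ (p - 1) * (ENNReal.ofReal (‖a‖ ^ p) + ENNReal.ofReal (‖b‖ ^ p)) := by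
  have hp0 : 0 ≤ p := by linarith
  have h1 : ∀ u : V, ENNReal.ofReal (‖u‖ ^ p) = ‖u‖ₑ ^ p := fun u => by
    rw [← ofReal_norm, ENNReal.ofReal_rpow_of_nonneg (norm_nonneg _) hp0]
  rw [h1, h1, h1]
  calc ‖a + b‖ₑ ^ p ≤ (‖a‖ₑ + ‖b‖ₑ) ^ p := by gcongr; exact enorm_add_le _ _
    _ ≤ 2 ^ (p - 1) * (‖a‖ₑ ^ p + ‖b‖ₑ ^ p) := ENNReal.rpow_add_le_mul_rpow_add_rpow _ _ hp

/-- A conical homeomorphism with small error gives a diffeomorphism with small error. -/
theorem exists_diffeo_of_con (hp : 1 ≤ p) (hΩ : St.IsBoundedDomain Ω) (hΛ : St.IsBoundedDomain Λ)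
    (h : ∀ ε > 0, ∃ g : ConHomeo Ω Λ, (∀ x ∈ Ω, ‖g.toFun x - f x‖ ≤ ε) ∧
      ∀ j, ∫⁻ x in Ω, ENNReal.ofReal (‖fderiv ℝ g.toFun x (ev j) - cl (F x) (ev j)‖ ^ p) ≤
        ENNReal.ofReal ε) {ε : ℝ} (hε : 0 < ε) :
    ∃ g : V → V, St.IsDiffeo Ω Λ g ∧ err p Ω f F g ≤ ENNReal.ofReal ε := by
  have hp0 : 0 ≤ p := by linarith
  have hΩt : volume Ω ≠ ⊤ := PK.volume_ne_top_of_domain hΩ
  set m : ℝ := (volume Ω).toReal with hm
  have hm0 : 0 ≤ m := ENNReal.toReal_nonneg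
  have hmv : volume Ω = ENNReal.ofReal m := (ENNReal.ofReal_toReal hΩt).symm
  have h2p : (0 : ℝ) < 2 ^ (p - 1) := by positivity
  have h2e : (2 : ℝ≥0∞) ^ (p - 1) = ENNReal.ofReal (2 ^ (p - 1)) := by
    rw [← ENNReal.ofReal_rpow_of_pos (by norm_num)]; norm_num
  -- the small number
  obtain ⟨c, hc0, hc1, hcm⟩ : ∃ c > 0, c ≤ 1 ∧
      (2 * c) * m + 3 * (2 ^ (p - 1) * (2 * c)) ≤ ε := by
    refine ⟨min 1 (ε / (2 * m + 6 * 2 ^ (p - 1))), lt_min one_pos (by positivity),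
      min_le_left _ _, ?_⟩
    have h1 : min 1 (ε / (2 * m + 6 * 2 ^ (p - 1))) ≤ ε / (2 * m + 6 * 2 ^ (p - 1)) :=
      min_le_right _ _
    have h2 : (0 : ℝ) < 2 * m + 6 * 2 ^ (p - 1) := by positivity
    rw [le_div_iff₀ h2] at h1
    linarith
  obtain ⟨g, hg1, hg2⟩ := h (c / 2) (by positivity)
  obtain ⟨G, hG, hGs, hclose, -, -, hint⟩ :=
    _root_.P073.SMF.specSmooth _root_.P073.SM.specSM p Ω Λ g (fun _ => c / 2) c hp hΩ hΛ
    continuousOn_const (fun x hx => by positivity) hc0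
    Empty inferInstance (fun i => i.elim) (fun i => i.elim) (fun i => i.elim) (fun i => i.elim)
    (fun i => i.elim) (fun K _ _ => Set.toFinite _) (fun i => i.elim)
    Empty inferInstance (fun i => i.elim) (fun i => i.elim) (fun i => i.elim) (fun i => i.elim)
    (fun i => i.elim) (fun i => i.elim) (fun K _ _ => Set.toFinite _) (fun i => i.elim)
  refine ⟨G, hG, ?_⟩
  unfold err
  have hA : ∫⁻ x in Ω, ENNReal.ofReal (‖G x - f x‖ ^ p) ≤ ENNReal.ofReal (2 * c * m) := by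
    calc ∫⁻ x in Ω, ENNReal.ofReal (‖G x - f x‖ ^ p)
        ≤ ∫⁻ x in Ω, ENNReal.ofReal c := by
          refine setLIntegral_mono' hΩ.1.measurableSet fun x hx => ?_
          refine ENNReal.ofReal_le_ofReal ?_
          have h1 : ‖G x - f x‖ ≤ c := by
            have e1 : G x - f x = (G x - g.toFun x) + (g.toFun x - f x) := by abel
            rw [e1]
            refine (norm_add_le _ _).trans ?_
            linarith [hclose x hx, hg1 x hx]
          calc ‖G x - f x‖ ^ p ≤ c ^ p := by gcongr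
            _ ≤ c ^ (1 : ℝ) := Real.rpow_le_rpow_of_exponent_ge hc0 hc1 hp
            _ = c := Real.rpow_one c
      _ = ENNReal.ofReal (c * m) := by
          rw [setLIntegral_const, hmv, ← ENNReal.ofReal_mul hc0.le]
      _ ≤ ENNReal.ofReal (2 * c * m) := ENNReal.ofReal_le_ofReal (by nlinarith)
  have hB : ∀ j, ∫⁻ x in Ω, ENNReal.ofReal (‖fderiv ℝ G x (ev j) - cl (F x) (ev j)‖ ^ p) ≤
      ENNReal.ofReal (2 ^ (p - 1) * (2 * c)) := by
    intro j
    have h1 := hint j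
    have h2 := hg2 j
    calc ∫⁻ x in Ω, ENNReal.ofReal (‖fderiv ℝ G x (ev j) - cl (F x) (ev j)‖ ^ p)
        ≤ ∫⁻ x in Ω, 2 ^ (p - 1) *
            (ENNReal.ofReal (‖fderiv ℝ G x (ev j) - fderiv ℝ g.toFun x (ev j)‖ ^ p) +
            ENNReal.ofReal (‖fderiv ℝ g.toFun x (ev j) - cl (F x) (ev j)‖ ^ p)) := by
          refine lintegral_mono fun x => ?_
          have e1 : fderiv ℝ G x (ev j) - cl (F x) (ev j) =
            (fderiv ℝ G x (ev j) - fderiv ℝ g.toFun x (ev j)) +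
              (fderiv ℝ g.toFun x (ev j) - cl (F x) (ev j)) := by abel
          show ENNReal.ofReal (‖fderiv ℝ G x (ev j) - cl (F x) (ev j)‖ ^ p) ≤ _
          rw [e1]
          exact enorm_tri hp _ _
      _ = 2 ^ (p - 1) *
            ((∫⁻ x in Ω, ENNReal.ofReal (‖fderiv ℝ G x (ev j) - fderiv ℝ g.toFun x (ev j)‖ ^ p)) +
            ∫⁻ x in Ω, ENNReal.ofReal
              (‖fderiv ℝ g.toFun x (ev j) - cl (F x) (ev j)‖ ^ p)) := by
          have hm1 : Measurable fun x => ENNReal.ofReal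
              (‖fderiv ℝ G x (ev j) - fderiv ℝ g.toFun x (ev j)‖ ^ p) :=
            ENNReal.measurable_ofReal.comp ((((measurable_fderiv_apply_const ℝ G (ev j)).sub
              (measurable_fderiv_apply_const ℝ g.toFun (ev j))).norm).pow_const p)
          rw [lintegral_const_mul' _ _ (by rw [h2e]; exact ENNReal.ofReal_ne_top),
            lintegral_add_left hm1]
      _ ≤ 2 ^ (p - 1) * (ENNReal.ofReal c + ENNReal.ofReal c) := by
          gcongr
          · exact h1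
          · exact h2.trans (ENNReal.ofReal_le_ofReal (by linarith : c / 2 ≤ c))
      _ = ENNReal.ofReal (2 ^ (p - 1) * (2 * c)) := by
          rw [h2e, ← ENNReal.ofReal_add hc0.le hc0.le, ← ENNReal.ofReal_mul h2p.le]
          congr 1
          ring
  calc (∫⁻ x in Ω, ENNReal.ofReal (‖G x - f x‖ ^ p)) +
        ∑ j, ∫⁻ x in Ω, ENNReal.ofReal (‖fderiv ℝ G x (ev j) - cl (F x) (ev j)‖ ^ p)
      ≤ ENNReal.ofReal (2 * c * m) + ∑ _j : Fin 3, ENNReal.ofReal (2 ^ (p - 1) * (2 * c)) :=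
        add_le_add hA (Finset.sum_le_sum fun j _ => hB j)
    _ = ENNReal.ofReal ((2 * c) * m + 3 * (2 ^ (p - 1) * (2 * c))) := by
        rw [Finset.sum_const, Finset.card_univ, Fintype.card_fin, nsmul_eq_mul,
          ENNReal.ofReal_add (by positivity) (by positivity),
          ENNReal.ofReal_mul (p := 3) (by norm_num)]
        norm_num
    _ ≤ ENNReal.ofReal ε := ENNReal.ofReal_le_ofReal hcm

/-- **[FIN-B]** every exponent `1 ≤ p` -/
theorem m1P_of_con (hp : 1 ≤ p)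
    (h : ∀ (Ω Λ : Set V) (f : V → V) (F : V → Mat), St.IsBoundedDomain Ω → St.IsBoundedDomain Λ →
      St.IsHomeo Ω Λ f → St.IsSobolev p Ω f F → FinDist Ω F →
      ∀ ε > 0, ∃ g : ConHomeo Ω Λ, (∀ x ∈ Ω, ‖g.toFun x - f x‖ ≤ ε) ∧
        ∀ j, ∫⁻ x in Ω, ENNReal.ofReal (‖fderiv ℝ g.toFun x (ev j) - cl (F x) (ev j)‖ ^ p) ≤
          ENNReal.ofReal ε) : H235.M1P p :=
  fun Ω Λ f F hΩ hΛ hf hF hD _ hε =>
    exists_diffeo_of_con hp hΩ hΛ (h Ω Λ f F hΩ hΛ hf hF hD) hε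

/-- **[FIN-B]** with generic derivatives -/
theorem m1P_of_conG (hp : 1 ≤ p)
    (h : ∀ (Ω Λ : Set V) (f : V → V) (F : V → Mat), St.IsBoundedDomain Ω → St.IsBoundedDomain Λ →
      St.IsHomeo Ω Λ f → St.IsSobolev p Ω f F → FinDist Ω F → H989.Generic Ω F →
      ∀ ε > 0, ∃ g : ConHomeo Ω Λ, (∀ x ∈ Ω, ‖g.toFun x - f x‖ ≤ ε) ∧
        ∀ j, ∫⁻ x in Ω, ENNReal.ofReal (‖fderiv ℝ g.toFun x (ev j) - cl (F x) (ev j)‖ ^ p) ≤
          ENNReal.ofReal ε) : H235.M1P p :=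
  H989.m1P_of_generic hp fun Ω Λ f F hΩ hΛ hf hF hD hG _ hε =>
    exists_diffeo_of_con hp hΩ hΛ (h Ω Λ f F hΩ hΛ hf hF hD hG) hε

/-! ### splitting of the error -/

theorem setLIntegral_tri (hp : 1 ≤ p) {S : Set V} {a b c : V → V}
    (hm : AEMeasurable (fun x => ENNReal.ofReal (‖b x - c x‖ ^ p)) (volume.restrict S)) :
    ∫⁻ x in S, ENNReal.ofReal (‖a x - c x‖ ^ p) ≤
      2 ^ (p - 1) * ((∫⁻ x in S, ENNReal.ofReal (‖a x - b x‖ ^ p)) +
        ∫⁻ x in S, ENNReal.ofReal (‖b x - c x‖ ^ p)) := by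
  have h2e : (2 : ℝ≥0∞) ^ (p - 1) = ENNReal.ofReal (2 ^ (p - 1)) := by
    rw [← ENNReal.ofReal_rpow_of_pos (by norm_num)]; norm_num
  rw [← lintegral_add_right' _ hm, ← lintegral_const_mul' _ _ (by
    rw [h2e]; exact ENNReal.ofReal_ne_top)]
  refine lintegral_mono fun x => ?_
  have e1 : a x - c x = (a x - b x) + (b x - c x) := by abel
  show ENNReal.ofReal (‖a x - c x‖ ^ p) ≤ _
  rw [e1]
  exact enorm_tri hp _ _

/-- measurability of the integrand of the right side -/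
theorem aemeas_cl (hF : St.IsSobolev p Ω f F) {S : Set V} (hS : S ⊆ Ω) (w a : V) :
    AEMeasurable (fun x => ENNReal.ofReal (‖a - cl (F x) w‖ ^ p)) (volume.restrict S) := by
  have h1 : AEStronglyMeasurable (fun x => cl (F x)) (volume.restrict S) :=
    (PK.IsSob.aesm hF).mono_measure (Measure.restrict_mono hS le_rfl)
  have h2 : AEStronglyMeasurable (fun x => cl (F x) w) (volume.restrict S) :=
    (ContinuousLinearMap.apply ℝ V w).continuous.comp_aestronglyMeasurable h1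
  exact ENNReal.measurable_ofReal.comp_aemeasurable
    (((aemeasurable_const.sub h2.aemeasurable).norm).pow_const p)

/-- **[FIN-B] (2)** the error of a map is the error on a good set, plus the energies of both maps
off the good set -/
theorem err_split (hp : 1 ≤ p) (hF : St.IsSobolev p Ω f F) (hΩ : IsOpen Ω) {S : Set V}
    (hS : MeasurableSet S) (hSΩ : S ⊆ Ω) (g : V → V) (j : Fin 3) :
    ∫⁻ x in Ω, ENNReal.ofReal (‖fderiv ℝ g x (ev j) - cl (F x) (ev j)‖ ^ p) ≤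
      (∫⁻ x in S, ENNReal.ofReal (‖fderiv ℝ g x (ev j) - cl (F x) (ev j)‖ ^ p)) +
      2 ^ (p - 1) * ((∫⁻ x in Ω \ S, ENNReal.ofReal (‖fderiv ℝ g x (ev j)‖ ^ p)) +
        ∫⁻ x in Ω \ S, ENNReal.ofReal (‖cl (F x) (ev j)‖ ^ p)) := by
  have e1 : Ω = S ∪ (Ω \ S) := (Set.union_sdiff_cancel hSΩ).symm
  have h1 := setLIntegral_tri hp (S := Ω \ S) (a := fun x => fderiv ℝ g x (ev j))
    (b := fun _ => 0) (c := fun x => cl (F x) (ev j)) (aemeas_cl hF sdiff_subset (ev j) 0)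
  simp only [sub_zero, zero_sub, norm_neg] at h1
  conv_lhs => rw [e1]
  rw [lintegral_union (hΩ.measurableSet.diff hS) disjoint_sdiff_right]
  gcongr

/-- **[FIN-B] (2')** a third linear map -/
theorem err_third (hp : 1 ≤ p) (hF : St.IsSobolev p Ω f F) {S : Set V} (hSΩ : S ⊆ Ω)
    (g : V → V) (L : V →L[ℝ] V) (j : Fin 3) :
    ∫⁻ x in S, ENNReal.ofReal (‖fderiv ℝ g x (ev j) - cl (F x) (ev j)‖ ^ p) ≤
      2 ^ (p - 1) * ((∫⁻ x in S, ENNReal.ofReal (‖fderiv ℝ g x (ev j) - L (ev j)‖ ^ p)) +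
        ∫⁻ x in S, ENNReal.ofReal (‖L (ev j) - cl (F x) (ev j)‖ ^ p)) :=
  setLIntegral_tri hp (S := S) (a := fun x => fderiv ℝ g x (ev j)) (b := fun _ => L (ev j))
    (c := fun x => cl (F x) (ev j)) (aemeas_cl hF hSΩ (ev j) (L (ev j)))

/-- the integrand `‖L (ev j) - cl (F x) (ev j)‖ ^ p` against `‖cl (F x) - L‖ₑ ^ p` -/
theorem ofReal_ev_le (hp0 : 0 ≤ p) (L T : V →L[ℝ] V) (j : Fin 3) :
    ENNReal.ofReal (‖L (ev j) - T (ev j)‖ ^ p) ≤ ‖T - L‖ₑ ^ p := by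
  have hev : ‖ev j‖ ≤ 1 := by
    rw [pi_norm_le_iff_of_nonneg one_pos.le]
    intro k
    by_cases h : k = j
    · subst h; simp [ev]
    · simp [ev, Pi.single_eq_of_ne h]
  rw [← ENNReal.ofReal_rpow_of_nonneg (norm_nonneg _) hp0, ofReal_norm]
  gcongr
  rw [← ofReal_norm, ← ofReal_norm, ← sub_apply, ← norm_neg (T - L)]
  refine ENNReal.ofReal_le_ofReal ?_
  rw [neg_sub]
  exact (ContinuousLinearMap.le_opNorm _ _).trans
    (mul_le_of_le_one_right (norm_nonneg _) hev)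

theorem ofReal_ev_le' (hp0 : 0 ≤ p) (T : V →L[ℝ] V) (j : Fin 3) :
    ENNReal.ofReal (‖T (ev j)‖ ^ p) ≤ ‖T‖ₑ ^ p := by
  have h := ofReal_ev_le hp0 0 T j
  simpa using h

/-! ### energy from local Lipschitz bounds -/

/-- the gradient against a local Lipschitz bound at an interior point -/
theorem norm_fderiv_le_of_lip {g : V → V} {Q : Set V} {x : V} {K : ℝ} (hK : 0 ≤ K)
    (hx : x ∈ interior Q) (h : ∀ᶠ y in 𝓝[Q] x, ‖g y - g x‖ ≤ K * ‖y - x‖) :
    ‖fderiv ℝ g x‖ ≤ K := by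
  have hn : 𝓝[Q] x = 𝓝 x := nhdsWithin_eq_nhds.2 (mem_interior_iff_mem_nhds.1 hx)
  rw [hn] at h
  exact norm_fderiv_le_of_lip' ℝ hK h

/-- **[FIN-B] (3)** `304`'s bounds control the energy; `Q` has a null frontier -/
theorem lipBd_energy (hp0 : 0 ≤ p) {g : V → V} {Q : Set V} {G : V → ℝ} (hG : LipBd g Q G)
    (hQ : MeasurableSet Q) (hf : volume (frontier Q) = 0) (j : Fin 3) :
    ∫⁻ x in Q, ENNReal.ofReal (‖fderiv ℝ g x (ev j)‖ ^ p) ≤
      ∫⁻ x in Q, ENNReal.ofReal (G x ^ p) := by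
  have h1 : ∀ᵐ x ∂(volume : Measure V), x ∉ frontier Q := measure_eq_zero_iff_ae_notMem.1 hf
  refine lintegral_mono_ae ?_
  rw [ae_restrict_iff' hQ]
  filter_upwards [h1] with x hx hxQ
  have hxi : x ∈ interior Q := by
    by_contra h
    exact hx ⟨subset_closure hxQ, h⟩
  have h2 := norm_fderiv_le_of_lip (hG.nonneg x hxQ) hxi (hG.lip x hxQ)
  have hev : ‖ev j‖ ≤ 1 := by
    rw [pi_norm_le_iff_of_nonneg one_pos.le]
    intro k
    by_cases h : k = j
    · subst h; simp [ev]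
    · simp [ev, Pi.single_eq_of_ne h]
  have h3 : ‖fderiv ℝ g x (ev j)‖ ≤ G x :=
    ((fderiv ℝ g x).le_opNorm _).trans
      ((mul_le_of_le_one_right (norm_nonneg _) hev).trans h2)
  gcongr

theorem lip_energy (hp0 : 0 ≤ p) {g : V → V} {Q : Set V} {K : ℝ} (hK : 0 ≤ K)
    (hlip : ∀ x ∈ Q, ∀ᶠ y in 𝓝[Q] x, ‖g y - g x‖ ≤ K * ‖y - x‖)
    (hQ : MeasurableSet Q) (hf : volume (frontier Q) = 0) (j : Fin 3) :
    ∫⁻ x in Q, ENNReal.ofReal (‖fderiv ℝ g x (ev j)‖ ^ p) ≤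
      ENNReal.ofReal (K ^ p) * volume Q := by
  have h := lipBd_energy hp0 (g := g) (Q := Q) (G := fun _ => K)
    ⟨upperSemicontinuousOn_const, fun _ _ => hK,
      (bddAbove_singleton (a := K)).mono (by rintro _ ⟨x, -, rfl⟩; rfl), hlip⟩ hQ hf j
  rwa [setLIntegral_const] at h

theorem volume_frontier_dyc (v : V) (m : ℕ) (z : Fin 3 → ℤ) :
    (volume : Measure V) (frontier (dyc v m z)) = 0 := by
  have hc : Convex ℝ (dyc v m z) := by
    have : dyc v m z = Icc (fun k => v k + z k / 2 ^ m) (fun k => v k + (z k + 1) / 2 ^ m) := by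
      ext x
      simp only [dyc, mem_ofPred_eq, mem_Icc, Pi.le_def, ← forall_and]
    rw [this]
    exact convex_Icc _ _
  exact hc.addHaar_frontier _

/-- the integral over `Ω` as a sum over the cubes of a partition -/
theorem lintegral_part {v : V} {I : Set AB.Idx} (hI : AB.Part Ω v I) (H : V → ℝ≥0∞) :
    ∫⁻ x in Ω, H x ≤ ∑' q : I, ∫⁻ x in dyc v q.1.1 q.1.2, H x := by
  calc ∫⁻ x in Ω, H x ≤ ∫⁻ x in ⋃ q : I, dyc v q.1.1 q.1.2, H x := by
        refine lintegral_mono_set fun x hx => ?_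
        obtain ⟨q, hq, hxq⟩ := hI.cover x hx
        exact mem_iUnion.2 ⟨⟨q, hq⟩, hxq⟩
    _ ≤ _ := lintegral_iUnion_le _ _

end Vale.Agent.P073.H490
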