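import Vale.Agent.P073.H696.BSpec
import Vale.Agent.P073.H193.Refine
import Vale.Agent.P073.H333.NetInA
import Vale.Agent.P073.H582.E2a

/-!
# P073, block B09, [I2]: the partition `part2` of Round 2 (part A: the partition)
-/

open Set Metric Topology Filter MeasureTheory
open scoped ENNReal

namespace Vale.Agent.P073.H490

open Vale.Agent.P073
open Vale.Agent.P073.St (V)
open Vale.Agent.P073.AB (Idx Part)
open Vale.Agent.P073.AB.P86
open Vale.Agent.P073.H696 (part2)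
open Vale.Agent.P073.H193 (exists_sub finite_sub dyo_sub)
open _root_.P073.Net (dyc dyo)
open _root_.P073.Net.NC (fine_sub fine_sub' dyc_sub)

variable {Ω : Set V} {v : V} {I₁ S C : Set Idx} {ng : Idx → ℕ}

/-- admissible data for `part2` -/
structure Adm2 (v : V) (I₁ S C : Set Idx) (ng : Idx → ℕ) : Prop where
  sub : S ⊆ I₁
  gen : ∀ q ∈ S, q.1 ≤ ng q
  big : ∀ c ∈ C, ∃ q ∈ S, dyc v c.1 c.2 ⊆ dyc v q.1 q.2 ∧ c.1 ≤ ng q
  disj : ∀ c ∈ C, ∀ c' ∈ C, c ≠ c' → Disjoint (dyc v c.1 c.2) (dyc v c'.1 c'.2)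

/-- the three kinds of cubes of `part2` -/
theorem Adm2.cases (H : Adm2 v I₁ S C ng) {r : Idx} (hr : r ∈ part2 v I₁ S C ng) :
    r ∈ I₁ \ S ∨ ∃ q ∈ S, dyc v r.1 r.2 ⊆ dyc v q.1 q.2 ∧ ((r ∈ C ∧ r.1 ≤ ng q) ∨
      (r.1 = ng q ∧ ∀ c ∈ C, ¬ dyc v r.1 r.2 ⊆ dyc v c.1 c.2)) := by
  rcases hr with (h | h) | ⟨q, hq, h1, h2, h3⟩
  · exact Or.inl h
  · obtain ⟨q, hq, h1, h2⟩ := H.big r h
    exact Or.inr ⟨q, hq, h1, Or.inl ⟨h, h2⟩⟩
  · exact Or.inr ⟨q, hq, h2, Or.inr ⟨h1, h3⟩⟩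

/-- **(PART)** -/
theorem Adm2.part (H : Adm2 v I₁ S C ng) (hI : Part Ω v I₁) :
    Part Ω v (part2 v I₁ S C ng) := by
  refine ⟨?_, ?_, ?_, ?_⟩
  · intro r hr
    rcases H.cases hr with h | ⟨q, hq, h, -⟩
    · exact hI.sub r h.1
    · exact h.trans (hI.sub q (H.sub hq))
  · intro x hx
    obtain ⟨q, hq, hxq⟩ := hI.cover x hx
    by_cases hqS : q ∈ S
    · obtain ⟨z, hz, hzq⟩ := exists_sub (H.gen q hqS) hxq
      by_cases hb : ∃ c ∈ C, dyc v (ng q) z ⊆ dyc v c.1 c.2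
      · obtain ⟨c, hc, hzc⟩ := hb
        exact ⟨c, Or.inl (Or.inr hc), hzc hz⟩
      · push Not at hb
        exact ⟨(ng q, z), Or.inr ⟨q, hqS, rfl, hzq, hb⟩, hz⟩
    · exact ⟨q, Or.inl (Or.inl ⟨hq, hqS⟩), hxq⟩
  · intro r hr r' hr' hne
    rw [Set.disjoint_left]
    intro x hx hx'
    apply hne
    rcases H.cases hr with h | ⟨q, hq, h, h0⟩ <;>
      rcases H.cases hr' with h' | ⟨q', hq', h', h0'⟩
    · exact eq_of_mem hI h.1 h'.1 hx hx'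
    · have := eq_of_mem hI h.1 (H.sub hq') hx (h' hx')
      exact absurd (this ▸ hq') h.2
    · have := eq_of_mem hI (H.sub hq) h'.1 (dyo_sub h hx) hx'
      exact absurd (this ▸ hq) h'.2
    · have hqq := eq_of_mem hI (H.sub hq) (H.sub hq') (dyo_sub h hx) (h' hx')
      subst hqq
      rcases h0 with ⟨hb, hle⟩ | ⟨heq, hno⟩ <;> rcases h0' with ⟨hb', hle'⟩ | ⟨heq', hno'⟩
      · by_contra hc
        exact Set.disjoint_left.1 (H.disj r hb r' hb' hc) (dyo_sub_dyc hx) hx'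
      · exact absurd (dyc_sub (fine_sub (by rw [heq']; exact hle) hx hx')) (hno' r hb)
      · exact absurd (dyc_sub (fine_sub' (by rw [heq]; exact hle') hx hx')) (hno r' hb')
      · have hg : r.1 = r'.1 := by rw [heq, heq']
        have h1 : dyc v r'.1 r'.2 ⊆ dyc v r.1 r.2 := dyc_sub (fine_sub hg.le hx hx')
        refine Prod.ext hg ?_
        rw [← hg] at h1
        exact (eq_of_sub_same h1).symm
  · intro K hK hKc
    have h1 := hI.fin K hK hKc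
    refine ((h1.biUnion (t := fun q => {r : Idx | r.1 ≤ ng q ∧ dyc v r.1 r.2 ⊆ dyc v q.1 q.2})
      (fun q _ => finite_sub v q (ng q))).union h1).subset ?_
    rintro r ⟨hr, y, hy, hyK⟩
    rcases H.cases hr with h | ⟨q, hq, h, h0⟩
    · exact Or.inr ⟨h.1, y, hy, hyK⟩
    · refine Or.inl (mem_biUnion (x := q) ⟨H.sub hq, y, h hy, hyK⟩ ⟨?_, h⟩)
      rcases h0 with ⟨-, h0⟩ | ⟨h0, -⟩
      · exact h0
      · exact h0.le

/-- `582`'s structure -/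
theorem Adm2.ref (H : Adm2 v I₁ S C ng) : H582.Ref v I₁ S (part2 v I₁ S C ng) where
  sub := H.sub
  keep := fun _ hq hqS => Or.inl (Or.inl ⟨hq, hqS⟩)
  fine := fun r hr hn => by
    rcases H.cases hr with h | ⟨q, hq, h, -⟩
    · exact absurd h hn
    · exact ⟨q, hq, h⟩

theorem mem_of_C {c : Idx} (hc : c ∈ C) : c ∈ part2 v I₁ S C ng := Or.inl (Or.inr hc)

/-- a cube of `C` is not in `I₁ \ S` -/
theorem Adm2.notMem_of_C (H : Adm2 v I₁ S C ng) (hI : Part Ω v I₁) {c : Idx} (hc : c ∈ C) :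
    c ∉ I₁ \ S := by
  rintro ⟨h1, h2⟩
  obtain ⟨q, hq, h3, -⟩ := H.big c hc
  exact h2 (eq_of_sub hI h1 (H.sub hq) h3 ▸ hq)

/-- the cubes of `part2` inside a solid cube: cubes of `C`, or fine cubes -/
theorem Adm2.inside (H : Adm2 v I₁ S C ng) (hI : Part Ω v I₁) {q r : Idx} (hq : q ∈ S)
    (hr : r ∈ part2 v I₁ S C ng) (hrq : dyc v r.1 r.2 ⊆ dyc v q.1 q.2) :
    (r ∈ C ∧ r.1 ≤ ng q) ∨ (r.1 = ng q ∧ ∀ c ∈ C, ¬ dyc v r.1 r.2 ⊆ dyc v c.1 c.2) := by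
  rcases H.cases hr with h | ⟨q', hq', h, h0⟩
  · exact absurd (eq_of_sub hI h.1 (H.sub hq) hrq ▸ hq) h.2
  · have h1 : q = q' := by
      refine eq_of_mem hI (H.sub hq) (H.sub hq') (x := cen v r.1 r.2) ?_ ?_
      · exact dyo_sub hrq (cen_mem v r.1 r.2)
      · exact h (dyo_sub_dyc (cen_mem v r.1 r.2))
    rw [h1]
    exact h0

/-- a cube of `part2` which contains a point of an open solid cube is inside the solid cube -/
theorem Adm2.sub_of_mem (H : Adm2 v I₁ S C ng) (hI : Part Ω v I₁) {q r : Idx} (hq : q ∈ S)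
    (hr : r ∈ part2 v I₁ S C ng) {x : V} (hx : x ∈ dyo v q.1 q.2) (hxr : x ∈ dyc v r.1 r.2) :
    dyc v r.1 r.2 ⊆ dyc v q.1 q.2 := by
  rcases H.cases hr with h | ⟨q', hq', h, -⟩
  · exact absurd (eq_of_mem hI (H.sub hq) h.1 hx hxr ▸ hq) h.2
  · rw [eq_of_mem hI (H.sub hq) (H.sub hq') hx (h hxr)]
    exact h

/-- **existence of `ng`**, above any threshold -/
theorem exists_ng (hS : S ⊆ I₁) (hC : ∀ c ∈ C, ∃ q ∈ S, dyc v c.1 c.2 ⊆ dyc v q.1 q.2)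
    (hd : ∀ c ∈ C, ∀ c' ∈ C, c ≠ c' → Disjoint (dyc v c.1 c.2) (dyc v c'.1 c'.2))
    (hf : ∀ q ∈ S, {c | c ∈ C ∧ dyc v c.1 c.2 ⊆ dyc v q.1 q.2}.Finite) (N : Idx → ℕ) :
    ∃ ng : Idx → ℕ, (∀ q, N q ≤ ng q) ∧ Adm2 v I₁ S C ng ∧
      ∀ q ∈ S, ∀ c ∈ C, dyc v c.1 c.2 ⊆ dyc v q.1 q.2 → c.1 < ng q := by
  classical
  have key : ∀ q : Idx, ∃ n : ℕ, N q ≤ n ∧ q.1 ≤ n ∧
      (q ∈ S → ∀ c ∈ C, dyc v c.1 c.2 ⊆ dyc v q.1 q.2 → c.1 < n) := by
    intro q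
    by_cases hq : q ∈ S
    · obtain ⟨b, hb⟩ := ((hf q hq).image fun c => c.1).bddAbove
      refine ⟨max (N q) (max q.1 (b + 1)), le_max_left _ _,
        (le_max_left _ _).trans (le_max_right _ _), fun _ c hc hcq => ?_⟩
      have h1 : c.1 ≤ b := hb (mem_image_of_mem _ ⟨hc, hcq⟩)
      have h2 : b + 1 ≤ max (N q) (max q.1 (b + 1)) := (le_max_right _ _).trans (le_max_right _ _)
      omega
    · exact ⟨max (N q) q.1, le_max_left _ _, le_max_right _ _, fun h => absurd h hq⟩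
  choose ng h1 h2 h3 using key
  refine ⟨ng, h1, ⟨hS, fun q _ => h2 q, fun c hc => ?_, hd⟩, h3⟩
  obtain ⟨q, hq, hcq⟩ := hC c hc
  exact ⟨q, hq, hcq, (h3 q hq c hc hcq).le⟩

/-- a threshold which dominates the generations of the touching cubes -/
theorem exists_thr (hI : Part Ω v I₁) : ∃ N : Idx → ℕ, ∀ q ∈ I₁, ∀ q' ∈ I₁,
    (dyc v q.1 q.2 ∩ dyc v q'.1 q'.2).Nonempty → q'.1 ≤ N q := by
  classical
  have key : ∀ q : Idx, ∃ n : ℕ, q ∈ I₁ → ∀ q' ∈ I₁,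
      (dyc v q.1 q.2 ∩ dyc v q'.1 q'.2).Nonempty → q'.1 ≤ n := by
    intro q
    by_cases hq : q ∈ I₁
    · have h := hI.fin _ (hI.sub q hq) (isCompact_dyc v q.1 q.2)
      obtain ⟨b, hb⟩ := (h.image fun c => c.1).bddAbove
      exact ⟨b, fun _ q' hq' hne => hb (mem_image_of_mem _ ⟨hq', by rwa [inter_comm]⟩)⟩
    · exact ⟨0, fun h => absurd h hq⟩
  choose N hN using key
  exact ⟨N, hN⟩

/-- fine cubes have small images: threshold for a continuous map and a locally bounded below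
gauge -/
theorem exists_osc_thr {Λ : Set V} (hΩ : IsOpen Ω) (h : _root_.P073.ConHomeo Ω Λ) {δs : V → ℝ}
    (hδ : H726.LBOn Ω δs) (q : Idx) (hq : dyc v q.1 q.2 ⊆ Ω) : ∃ N : ℕ, ∀ r : Idx, N ≤ r.1 →
      dyc v r.1 r.2 ⊆ dyc v q.1 q.2 → ∀ a ∈ dyc v r.1 r.2, ∀ b ∈ dyc v r.1 r.2,
      ‖h.toFun a - h.toFun b‖ ≤ δs a := by
  have hc := isCompact_dyc v q.1 q.2
  -- lower bound of the gauge
  obtain ⟨c, hc0, hcl⟩ : ∃ c > 0, ∀ a ∈ dyc v q.1 q.2, c ≤ δs a := by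
    refine hc.induction_on (p := fun T => ∃ c > 0, ∀ a ∈ T, c ≤ δs a) ?_ ?_ ?_ ?_
    · exact ⟨1, one_pos, fun a ha => absurd ha (notMem_empty a)⟩
    · rintro s t hst ⟨c, h0, h1⟩
      exact ⟨c, h0, fun a ha => h1 a (hst ha)⟩
    · rintro s t ⟨c, h0, h1⟩ ⟨c', h0', h1'⟩
      exact ⟨min c c', lt_min h0 h0', fun a ha => ha.elim
        (fun h => (min_le_left _ _).trans (h1 a h)) fun h => (min_le_right _ _).trans (h1' a h)⟩
    · intro a ha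
      obtain ⟨c, h0, h1⟩ := hδ a (hq ha)
      refine ⟨{w | w ∈ Ω → c ≤ δs w} ∩ Ω, ?_, c, h0, fun w hw => hw.1 hw.2⟩
      exact mem_nhdsWithin_of_mem_nhds (inter_mem h1 (hΩ.mem_nhds (hq ha)))
  have hu := hc.uniformContinuousOn_of_continuous (h.cont.mono hq)
  rw [Metric.uniformContinuousOn_iff] at hu
  obtain ⟨d, hd, hd1⟩ := hu c hc0
  obtain ⟨N, hN⟩ := exists_pow_lt_of_lt_one hd (show (1/2:ℝ) < 1 by norm_num)
  refine ⟨N, fun r hr hrq a ha b hb => ?_⟩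
  have h1 : dist a b < d := by
    refine (_root_.P073.Net.NC.dist_le ha hb).trans_lt (lt_of_le_of_lt ?_ hN)
    rw [div_pow, one_pow]
    exact one_div_le_one_div_of_le (by positivity) (pow_le_pow_right₀ (by norm_num) hr)
  have h2 := hd1 a (hrq ha) b (hrq hb) h1
  rw [dist_eq_norm] at h2
  exact h2.le.trans (hcl a (hrq ha))

end Vale.Agent.P073.H490
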