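import Vale.Agent.P073.H490.I2b
import Vale.Agent.P073.H819.Mod

/-!
# P073, block B09, [IN]: the input of `K3C` in Round 2

* `in_part`: the input of `K3C` for the mesh of a partition, arbitrary `η`, `c₀`, `w`;
* `exists_fine_thr`: fine cubes have small images, relative to the sizes of the tiles;
* `specIn`.
-/

open Set Metric Topology Filter MeasureTheory Matrix
open scoped ENNReal

namespace Vale.Agent.P073.H490

open Vale.Agent.P073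
open Vale.Agent.P073.St (V Mat)
open Vale.Agent.P073.AB (Idx Part cl)
open Vale.Agent.P073.AB.P86
open Vale.Agent.P073.H696
open Vale.Agent.P073.H73 (ctr)
open Vale.Agent.P073.H304 (Nb mid In)
open Vale.Agent.P073.H194 (partMesh)
open Vale.Agent.P073.H851 (M3)
open _root_.P073 (ConHomeo)
open _root_.P073.Net (dyc dyo IsTile SizeFn)

/-- the protected cells of the mesh of a partition: the cubes in `C` -/
def cellsP {Ω : Set V} (v : V) (M : H73.Mesh Ω) (C : Set Idx) : Set M.ι :=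
  {i | ∃ c ∈ C, M.Q i = dyc v c.1 c.2}

/-- the drawn cells of the mesh -/
def cellsZ {Ω : Set V} (v : V) (M : H73.Mesh Ω) (C : Set Idx) (h : V → V) (w : V) (J₀ : Set Idx)
    (η : ℝ) : Set M.ι :=
  {i | i ∉ cellsP v M C ∧ h '' M.Q i ⊆ Nb w J₀ η}

/-- the input of `K3C` for the mesh of a partition -/
theorem in_part {Ω Λ : Set V} {v w : V} {ρ : V → ℝ} {η δ c₀ : ℝ} {h : V → V} {J₀ J I : Set Idx}
    (hΩ : IsOpen Ω) (hI : Part Ω v I) {C : Set Idx} (hC : C ⊆ I)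
    (tile : ∀ t ∈ J, IsTile ρ w t.1 t.2) (sub : J₀ ⊆ J)
    (nbr : ∀ t ∈ J₀, ∀ t' : Idx, IsTile ρ w t'.1 t'.2 →
      (dyc w t.1 t.2 ∩ dyc w t'.1 t'.2).Nonempty → t' ∈ J ∨ t'.1 = t.1)
    (prot : ∀ c ∈ C, ∃ t ∈ J, ∃ s : V, (∀ i, s i = 1 ∨ s i = -1) ∧ ∀ x ∈ dyc v c.1 c.2, ∀ i,
      h x i = ctr w t.1 t.2 i + (1 - η) / 2 / 2 ^ t.1 / (1 / 2 / 2 ^ c.1) * s i *
        (x i - ctr v c.1 c.2 i))
    (surj : ∀ t ∈ J, ∃ c ∈ C, h '' dyc v c.1 c.2 = mid w η t)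
    (small : ∀ r ∈ I, r ∉ C → ∀ t ∈ J₀, (h '' dyc v r.1 r.2 ∩ Nb w {t} c₀).Nonempty →
      ∀ x ∈ dyc v r.1 r.2, ∀ y ∈ dyc v r.1 r.2, ‖h x - h y‖ ≤ δ / 2 ^ t.1) :
    In (Λ := Λ) η δ c₀ v w ρ (partMesh hΩ hI) h J₀ J (cellsP v (partMesh hΩ hI) C)
      (cellsZ v (partMesh hΩ hI) C h w J₀ η) where
  tile := tile
  sub := sub
  nbr := nbr
  prot := by
    rintro i ⟨c, hc, hi⟩
    obtain ⟨t, ht, s, hs, h1⟩ := prot c hc
    refine ⟨t, ht, ctr v c.1 c.2, 1 / 2 / 2 ^ c.1, s, by positivity, hs, ?_, ?_⟩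
    · rw [hi, dyc_ball]
    · rw [hi]; exact h1
  surj := fun t ht => by
    obtain ⟨c, hc, h1⟩ := surj t ht
    exact ⟨⟨c, hC hc⟩, ⟨c, hc, rfl⟩, h1⟩
  cube := fun i _ _ => ⟨i.1.1, i.1.2, rfl⟩
  small := fun i hi t ht hne => small i.1 i.2 (fun hc => hi ⟨i.1, hc, rfl⟩) t ht hne
  face := fun k _ => ⟨k.1, rfl⟩
  drawn := fun _ hi => hi

/-- fine cubes have small images, relative to the sizes of the tiles -/
theorem exists_fine_thr {Ω Λ : Set V} {v w : V} (hΩ : IsOpen Ω) (h : ConHomeo Ω Λ) {ρ : V → ℝ}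
    (hρ : SizeFn Λ ρ) {δ c₀ : ℝ} (hδ : 0 < δ) (hc₀ : c₀ ≤ 1) (q : Idx)
    (hq : dyc v q.1 q.2 ⊆ Ω) : ∃ N : ℕ, ∀ r : Idx, N ≤ r.1 → dyc v r.1 r.2 ⊆ dyc v q.1 q.2 →
      ∀ t : Idx, IsTile ρ w t.1 t.2 → (h.toFun '' dyc v r.1 r.2 ∩ Nb w {t} c₀).Nonempty →
      ∀ x ∈ dyc v r.1 r.2, ∀ y ∈ dyc v r.1 r.2, ‖h.toFun x - h.toFun y‖ ≤ δ / 2 ^ t.1 := by
  have hρc : Continuous ρ := _root_.P073.Net.NC.cont hρ
  have hg : H726.LBOn Ω fun a => δ / 12 * ρ (h.toFun a) := by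
    intro x hx
    have hpos := hρ.pos _ (h.mapsTo hx)
    refine ⟨δ / 12 * (ρ (h.toFun x) / 2), by positivity, ?_⟩
    have hc : ContinuousAt (fun a => ρ (h.toFun a)) x :=
      hρc.continuousAt.comp (h.cont.continuousAt (hΩ.mem_nhds hx))
    filter_upwards [hc.eventually_mem (Ioi_mem_nhds (half_lt_self hpos))] with a ha _
    have ha' : ρ (h.toFun x) / 2 < ρ (h.toFun a) := ha
    gcongr
  obtain ⟨N, hN⟩ := exists_osc_thr hΩ h hg q hq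
  refine ⟨N, fun r hr hrq t ht hne x hx y hy => ?_⟩
  obtain ⟨_, ⟨x₀, hx₀, rfl⟩, t', ht', x', hx', hxx⟩ := hne
  rw [mem_singleton_iff] at ht'
  subst ht'
  have h1 := hN r hr hrq x₀ hx₀ x hx
  have h2 := hN r hr hrq x₀ hx₀ y hy
  have h3 := _root_.P073.Net.NC.upper hρ ht ((isCompact_dyc w t'.1 t'.2).isClosed.frontier_subset hx')
  have h4 := hρ.lip (h.toFun x₀) x'
  have h5 : (0:ℝ) < 1 / 2 ^ t'.1 := by positivity
  have e1 : (4:ℝ) / 2 ^ t'.1 = 4 * (1 / 2 ^ t'.1) := by ring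
  have e2 : c₀ / (2:ℝ) ^ t'.1 = c₀ * (1 / 2 ^ t'.1) := by ring
  have e3 : δ / (2:ℝ) ^ t'.1 = δ * (1 / 2 ^ t'.1) := by ring
  rw [e1] at h3
  rw [e2] at hxx
  rw [e3]
  have h6 : ρ (h.toFun x₀) ≤ 5 * (1 / 2 ^ t'.1) := by nlinarith
  have h7 : ‖h.toFun x - h.toFun y‖ ≤ ‖h.toFun x₀ - h.toFun y‖ + ‖h.toFun x₀ - h.toFun x‖ := by
    have := norm_sub_le (h.toFun x₀ - h.toFun y) (h.toFun x₀ - h.toFun x)
    have e : (h.toFun x₀ - h.toFun y) - (h.toFun x₀ - h.toFun x) = h.toFun x - h.toFun y := by abel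
    rwa [e] at this
  nlinarith

section R2

variable {p Cu : ℝ} {Lc : M3 → ℝ} {δ : ℝ} {j : ℕ} {ε : ℝ} {Ω Λ : Set V} {f : V → V} {F : V → Mat}
  {v : V} (X : R2 p Cu Lc δ j ε Ω Λ f F v)
include X

/-- the cubes of `I₁ \ S` -/
theorem r2_small_out {q : Idx} (hq : q ∈ X.I₁ \ X.S) {t : Idx} (ht : t ∈ X.J₀)
    (hne : (X.hh.toFun '' dyc v q.1 q.2 ∩ Nb 0 {t} (1 / 64)).Nonempty) :
    ∀ x ∈ dyc v q.1 q.2, ∀ y ∈ dyc v q.1 q.2, ‖X.hh.toFun x - X.hh.toFun y‖ ≤ δ / 2 ^ t.1 := by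
  obtain ⟨_, ⟨a, ha, rfl⟩, hN⟩ := hne
  have hsub := X.st.part.sub q hq.1
  have hN' : X.Tt.toFun (X.h₁.toFun a) ∈ Nb 0 {t} (2 * (1 / 64)) := by
    obtain ⟨t', ht', x', hx', hxx⟩ := hN
    refine ⟨t', ht', x', hx', hxx.trans ?_⟩
    gcongr
    norm_num
  have key : ∀ x ∈ dyc v q.1 q.2, ‖X.hh.toFun a - X.hh.toFun x‖ ≤ δ / 2 / 2 ^ t.1 := fun x hx =>
    X.mod a (hsub ha) _ (X.h₁.mapsTo (hsub ha)) _ (X.h₁.mapsTo (hsub hx))
      (X.st.close a (hsub ha)).2 (X.st.small q hq a ha x hx) t ht hN'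
  intro x hx y hy
  have h1 := key x hx
  have h2 := key y hy
  have h3 := norm_sub_le (X.hh.toFun a - X.hh.toFun y) (X.hh.toFun a - X.hh.toFun x)
  have e : (X.hh.toFun a - X.hh.toFun y) - (X.hh.toFun a - X.hh.toFun x) =
    X.hh.toFun x - X.hh.toFun y := by abel
  rw [e] at h3
  have e2 : δ / (2:ℝ) ^ t.1 = δ / 2 / 2 ^ t.1 + δ / 2 / 2 ^ t.1 := by ring
  linarith

/-- **[IN]** -/
theorem specIn : X.SpecIn := by
  classical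
  have hΩ0 : IsOpen Ω := X.hΩ.1
  have key : ∀ q : Idx, ∃ N : ℕ, q ∈ X.S → ∀ r : Idx, N ≤ r.1 →
      dyc v r.1 r.2 ⊆ dyc v q.1 q.2 → ∀ t : Idx, IsTile X.ρ 0 t.1 t.2 →
      (X.hh.toFun '' dyc v r.1 r.2 ∩ Nb 0 {t} (1 / 64)).Nonempty →
      ∀ x ∈ dyc v r.1 r.2, ∀ y ∈ dyc v r.1 r.2,
        ‖X.hh.toFun x - X.hh.toFun y‖ ≤ δ / 2 ^ t.1 := by
    intro q
    by_cases hq : q ∈ X.S
    · obtain ⟨N, hN⟩ := exists_fine_thr (w := 0) hΩ0 X.hh X.tg.size X.hδ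
        (c₀ := 1 / 64) (by norm_num) q (X.st.part.sub q (X.st.sub hq))
      exact ⟨N, fun _ => hN⟩
    · exact ⟨0, fun h => absurd h hq⟩
  choose N hN using key
  refine ⟨N, fun ng hng hΩ hI => ?_⟩
  refine in_part hΩ hI (fun c hc => mem_of_C hc) X.tg.tile X.tg.sub ?_ ?_ ?_ ?_
  · rintro t ht t' ht' ⟨u, hu, hu'⟩
    refine Or.inl (X.tg.nbr t ht t' ht' ⟨u, hu', u, hu, ?_⟩)
    rw [sub_self, norm_zero]
    positivity
  · rintro c ⟨t, ht, rfl⟩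
    obtain ⟨s, hs, h⟩ := r2_diag X ht
    exact ⟨t, ht, s, hs, h⟩
  · intro t ht
    exact ⟨_, ⟨t, ht, rfl⟩, r2_image X ht⟩
  · intro r hr hrC t ht hne
    rcases hr with (h | h) | ⟨q, hq, h1, h2, -⟩
    · exact r2_small_out X h ht hne
    · exact absurd h hrC
    · exact hN q hq r (by rw [h1]; exact hng q hq) h2 t (X.tg.tile t (X.tg.sub ht)) hne

end R2

end Vale.Agent.P073.H490
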