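import Vale.Agent.P073.H490.I2b

/-!
# P073, block B09, [LIP]: the Lipschitz constants of `Tt ∘ h₁` on the kept sets
-/

open Set Metric Topology Filter MeasureTheory Matrix
open scoped ENNReal

namespace Vale.Agent.P073.H490

open Vale.Agent.P073
open Vale.Agent.P073.St (V Mat)
open Vale.Agent.P073.AB (Idx Part cl)
open Vale.Agent.P073.AB.P86
open Vale.Agent.P073.H696
open Vale.Agent.P073.H851 (M3 LocLip seg_lip_of_locLip)
open _root_.P073 (ConHomeo)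
open _root_.P073.Net (dyc dyo IsTile SizeFn)

theorem convex_dyc (v : V) (n : ℕ) (z : Fin 3 → ℤ) : Convex ℝ (dyc v n z) := by
  rw [dyc_ball]; exact convex_closedBall _ _

section R2

variable {p Cu : ℝ} {Lc : M3 → ℝ} {δ : ℝ} {j : ℕ} {ε : ℝ} {Ω Λ : Set V} {f : V → V} {F : V → Mat}
  {v : V} (X : R2 p Cu Lc δ j ε Ω Λ f F v)
include X

theorem r2_aff_lip (k : Idx) (x y : V) : ‖X.a k x - X.a k y‖ ≤ ‖cl (F (X.x k))‖ * ‖x - y‖ := by
  show ‖(f (X.x k) + (cl (F (X.x k))) (x - X.x k)) - (f (X.x k) + (cl (F (X.x k))) (y - X.x k))‖ ≤ _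
  have e : (f (X.x k) + (cl (F (X.x k))) (x - X.x k)) - (f (X.x k) + (cl (F (X.x k))) (y - X.x k)) =
      (cl (F (X.x k))) (x - y) := by
    rw [add_sub_add_left_eq_sub, ← map_sub, sub_sub_sub_cancel_right]
  rw [e]
  exact (cl (F (X.x k))).le_opNorm _

/-- `Tt` is locally Lipschitz at the image of a point off the core -/
theorem r2_locLip0 {k : Idx} (hk : k ∈ X.K) {x : V} (hx : x ∈ X.Dp k) (hc : x ∉ X.core k) :
    LocLip X.Tt.toFun (X.a k x) Cu := by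
  have hxΩ := r2_Dp_Ω X hk hx
  rw [← r2_kept X hk hx]
  refine X.tg.lip0 _ (X.h₁.mapsTo hxΩ) fun hcore => hc ?_
  obtain ⟨k', hk', hint⟩ := r2_core X hxΩ hcore
  have hD := interior_subset hint
  have he : k' = k := r2_uniq X hk' hk (r2_Dp_dyo X hk' (r2_D_Dp X hk' hD))
    (dyo_sub_dyc (r2_Dp_dyo X hk hx))
  subst he
  exact ⟨hD, by rw [← r2_kept X hk hx]; exact hcore⟩

theorem r2_locLip {k : Idx} (hk : k ∈ X.K) {x : V} (hx : x ∈ X.Dp k) :
    LocLip X.Tt.toFun (X.a k x) (Cu * Lc (Mx F X.x k)) := by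
  have hCu := X.hCu
  have hLc := X.hLc (Mx F X.x k)
  by_cases hc : x ∈ X.core k
  · have h := X.tg.lip ⟨k, hk⟩ x hc.1
    have e : X.a k x = Mx F X.x k *ᵥ x + bx f F X.x k := am_eq f F X.x k x
    rw [e]
    refine LocLip.mono h ?_
    show Lc (Mx F X.x k) ≤ Cu * Lc (Mx F X.x k)
    nlinarith
  · exact (r2_locLip0 X hk hx hc).mono (by nlinarith)

/-- Lipschitz constants on convex subsets of `Dp` -/
theorem r2_lip_convex {k : Idx} (hk : k ∈ X.K) {Q : Set V} (hQc : Convex ℝ Q) (hQ : Q ⊆ X.Dp k)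
    {B : ℝ} (hB0 : 0 ≤ B) (hB : ∀ x ∈ Q, LocLip X.Tt.toFun (X.a k x) B) :
    ∀ x ∈ Q, ∀ y ∈ Q, ‖X.hh.toFun x - X.hh.toFun y‖ ≤ B * ‖cl (F (X.x k))‖ * ‖x - y‖ := by
  intro x hx y hy
  show ‖X.Tt.toFun (X.h₁.toFun x) - X.Tt.toFun (X.h₁.toFun y)‖ ≤ _
  rw [r2_kept X hk (hQ hx), r2_kept X hk (hQ hy)]
  refine seg_lip_of_locLip (f := fun x => X.Tt.toFun (X.a k x)) fun x' hx' => ?_
  have hx'' := hQc.segment_subset hx hy hx'
  exact LocLip.comp (g := X.a k) (hB x' hx'') ⟨1, one_pos, fun u _ u' _ => r2_aff_lip X k u u'⟩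
    hB0 (norm_nonneg _)

/-- **[LIP]** -/
theorem specLip : X.SpecLip := by
  have hCu : 0 ≤ Cu := le_trans zero_le_one X.hCu
  refine ⟨fun k hk q hq x hx y hy => ?_, fun k hk q hq hd x hx y hy => ?_⟩
  · have hLc : 0 ≤ Lc (Mx F X.x k) := le_trans zero_le_one (X.hLc _)
    refine (r2_lip_convex X hk (convex_dyc v q.1 q.2) hq (mul_nonneg hCu hLc)
      (fun x hx => r2_locLip X hk (hq hx)) x hx y hy).trans ?_
    have h0 := norm_nonneg (cl (F (X.x k)))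
    gcongr
    linarith
  · exact r2_lip_convex X hk (convex_dyc v q.1 q.2) hq hCu
      (fun x hx => r2_locLip0 X hk (hq hx) fun hc => Set.disjoint_left.1 hd hx hc) x hx y hy

end R2

end Vale.Agent.P073.H490
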