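import Vale.Agent.P073.H304.St1Sol

/-!
# P073, block B09, [ST1]: the field `small`

Input: the clause `OscOut` on the oscillation of the cells in the output of Round 1, and, for the
passive cubes in the zones, oscillation of `h`, lengths of `h` on the edges, and lengths of `h` on
segments in the faces (`SegQ`).
-/

open Set Metric Topology Filter MeasureTheory
open scoped ENNReal

namespace Vale.Agent.P073.H490

open Vale.Agent.P073
open Vale.Agent.P073.St (V Mat)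
open Vale.Agent.P073.SQ (ev)
open Vale.Agent.P073.H73 (Mesh MinEdge segP onSeg ctr)
open Vale.Agent.P073.AB Vale.Agent.P073.AB.P86
open Vale.Agent.P073.H803 (DyM tinyT)
open Vale.Agent.P073.H304
open Vale.Agent.P073.H696 (am blk blkS solid deep)
open _root_.P073.Net (dyc dyo len var)
open _root_.P073 (ConHomeo)

/-- every point of a minimal square of the cube `q` is joined with the boundary of the square by a
segment of `h`-length at most `β` -/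
def SegQ (v : V) (I₁ : Set Idx) (h : V → V) (q : Idx) (β : ℝ) : Prop :=
  ∀ s : Idx × Fin 3, MinSq v I₁ s → squ v s ⊆ dyc v q.1 q.2 → ∀ a ∈ squ v s,
    ∃ b ∈ intrinsicFrontier ℝ (squ v s), len (onSeg h (a, b)) (Icc 0 1) ≤ ENNReal.ofReal β

theorem nL_pos (L : V ≃L[ℝ] V) : 0 < nL L := by
  rw [norm_pos_iff]
  intro h
  have h1 : L (ev 0) = 0 := by
    have : (L : V →L[ℝ] V) (ev 0) = 0 := by rw [h]; rfl
    exact this
  have h2 : ev 0 = 0 := by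
    have := congrArg L.symm h1
    simpa using this
  have h3 := S293.ev_norm 0
  rw [h2, norm_zero] at h3
  exact zero_ne_one h3

variable {Ω Λ : Set V} {J : ℝ → ℕ} {Mg Δ : ℝ → ℝ} {v : V} {M : Mesh Ω} {h : ConHomeo Ω Λ}
  {p D : ℝ} {𝓑 : Blocks Λ J Δ v M h.toFun} {ε : M.κ → ℝ} {h₁ : ConHomeo Ω Λ}
  {g : ∀ k, ConHomeo Ω (af (𝓑.L k) (𝓑.b k) ⁻¹' Λ)}
  {f : V → V} {F : V → Mat} {K : Set Idx} {x : Idx → V} {n N' : Idx → ℕ} {c₀ : Idx → ℝ}
  {I₁ U : Set Idx} {ek : 𝓑.K → Idx}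

/-- a passive cube is not a protected cell -/
theorem notMem_P (L : Link 𝓑 f F K x n N' c₀ I₁ U ek) {q : Idx}
    (hq : q ∈ I₁ \ solid v K n I₁) {k : 𝓑.K} {i : M.ι} (hi : M.Q i = dyc v q.1 q.2) :
    i ∉ 𝓑.P k := by
  intro hP
  obtain ⟨z, hz, hQ⟩ := (𝓑.inp k).prot i hP
  obtain ⟨y, hy⟩ := dyc_nonempty v q.1 q.2
  refine hq.2 ⟨hq.1, ek k, L.mem k, y, hy, ?_⟩
  have h1 : z ∈ blk (ek k) (n (ek k)) := by rw [← L.B_eq]; exact hz
  refine mem_iUnion₂.2 ⟨z, h1, ?_⟩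
  rw [← hi, hQ] at hy
  rw [← L.n_eq, dyc_eq_closedBall]
  refine closedBall_subset_closedBall ?_ hy
  have h3 : (0:ℝ) < 1 / 2 ^ J (𝓑.c₀ k) := by positivity
  gcongr
  linarith

/-- smallness of a passive cube in the coordinates of the block -/
theorem small_of (L : Link 𝓑 f F K x n N' c₀ I₁ U ek) {q : Idx}
    (hq : q ∈ I₁ \ solid v K n I₁) {k : 𝓑.K} {i : M.ι} (hi : M.Q i = dyc v q.1 q.2) {β : ℝ}
    (hβ : 0 ≤ β) (h1 : ∀ a ∈ dyc v q.1 q.2, ∀ b ∈ dyc v q.1 q.2, ‖h.toFun a - h.toFun b‖ ≤ β)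
    (h2 : ∑' e : {e : Idx × Fin 3 // MinEdge v I₁ e ∧ edge v e ⊆ dyc v q.1 q.2},
      elen h.toFun v e.1 ≤ ENNReal.ofReal β) :
    Small M (afi (𝓑.L k) (𝓑.b k) ∘ h.toFun) i (4 * nL (𝓑.L k).symm * β) := by
  have hn : 0 ≤ nL (𝓑.L k).symm := norm_nonneg _
  refine L.dy.small (L.mem_U hq) hi (fun a ha b hb => ?_) ?_
  · refine (afi_lip _ _ _ _).trans ?_
    have := h1 a ha b hb
    nlinarith [norm_nonneg (h.toFun a - h.toFun b), mul_le_mul_of_nonneg_left this hn,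
      mul_nonneg hn hβ]
  · calc 2 * ∑' e : {e : Idx × Fin 3 // MinEdge v I₁ e ∧ edge v e ⊆ dyc v q.1 q.2},
          len (onSeg (afi (𝓑.L k) (𝓑.b k) ∘ h.toFun) (segP v e.1)) (Icc 0 1)
        ≤ 2 * ∑' e : {e : Idx × Fin 3 // MinEdge v I₁ e ∧ edge v e ⊆ dyc v q.1 q.2},
          ENNReal.ofReal (2 * nL (𝓑.L k).symm) * elen h.toFun v e.1 := by
          gcongr with e
          exact elen_afi_le _ _ _ _ _
      _ ≤ 2 * (ENNReal.ofReal (2 * nL (𝓑.L k).symm) * ENNReal.ofReal β) := by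
          rw [ENNReal.tsum_mul_left]
          gcongr
      _ = ENNReal.ofReal (4 * nL (𝓑.L k).symm * β) := by
          rw [← ENNReal.ofReal_mul (by positivity), show (2 : ℝ≥0∞) = ENNReal.ofReal 2 by simp,
            ← ENNReal.ofReal_mul (by norm_num)]
          congr 1
          ring

/-- the segments of a passive cube in the coordinates of the block -/
theorem seg_of (L : Link 𝓑 f F K x n N' c₀ I₁ U ek) {q : Idx} {k : 𝓑.K} {i : M.ι}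
    (hi : M.Q i = dyc v q.1 q.2) {β : ℝ} (hβ : 0 ≤ β) (h1 : SegQ v I₁ h.toFun q β) :
    Seg M (afi (𝓑.L k) (𝓑.b k) ∘ h.toFun) i (4 * nL (𝓑.L k).symm * β) := by
  intro κ hκ a ha
  obtain ⟨s, hs, hF, -⟩ := L.dy.face κ
  rw [hF] at ha ⊢
  rw [hF, hi] at hκ
  obtain ⟨b, hb, hlen⟩ := h1 s hs hκ a ha
  refine ⟨b, hb, (len_comp_le (A := afi (𝓑.L k) (𝓑.b k)) (q := onSeg h.toFun (a, b))
    (norm_nonneg _) (afi_lip _ _) _).trans ?_⟩
  have hn : 0 ≤ nL (𝓑.L k).symm := norm_nonneg _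
  calc ENNReal.ofReal (2 * nL (𝓑.L k).symm) * len (onSeg h.toFun (a, b)) (Icc 0 1)
      ≤ ENNReal.ofReal (2 * nL (𝓑.L k).symm) * ENNReal.ofReal β := by gcongr
    _ = ENNReal.ofReal (2 * nL (𝓑.L k).symm * β) := by rw [← ENNReal.ofReal_mul (by positivity)]
    _ ≤ ENNReal.ofReal (4 * nL (𝓑.L k).symm * β) := by
        apply ENNReal.ofReal_le_ofReal
        nlinarith [mul_nonneg hn hβ]

/-- **field `small`** -/
theorem st1_small (L : Link 𝓑 f F K x n N' c₀ I₁ U ek) (H : R1Out p D Mg 𝓑 ε h₁ g)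
    {δs : V → ℝ}
    (hoff : ∀ q ∈ I₁ \ solid v K n I₁, (∀ k, ¬ Zn 𝓑 k q) → ∀ a ∈ dyc v q.1 q.2,
      ∀ b ∈ dyc v q.1 q.2, ‖h.toFun a - h.toFun b‖ ≤ δs a)
    {β : 𝓑.K → ℝ} (hβ : ∀ k, 0 < β k)
    (hb1 : ∀ k, ∀ q ∈ I₁ \ solid v K n I₁, dyc v q.1 q.2 ⊆ dyc v (ek k).1 (ek k).2 →
      ∀ a ∈ dyc v q.1 q.2, ∀ b ∈ dyc v q.1 q.2, ‖h.toFun a - h.toFun b‖ ≤ β k)
    (hb2 : ∀ k, ∀ q ∈ I₁ \ solid v K n I₁, dyc v q.1 q.2 ⊆ dyc v (ek k).1 (ek k).2 →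
      (∀ e, MinEdge v I₁ e → edge v e ⊆ dyc v q.1 q.2 → e.1.1 ≤ N' (ek k)) →
      ∑' e : {e : Idx × Fin 3 // MinEdge v I₁ e ∧ edge v e ⊆ dyc v q.1 q.2},
        elen h.toFun v e.1 ≤ ENNReal.ofReal (β k))
    (hseg : ∀ k, ∀ q ∈ I₁ \ solid v K n I₁, dyc v q.1 q.2 ⊆ dyc v (ek k).1 (ek k).2 →
      Zn 𝓑 k q → SegQ v I₁ h.toFun q (β k))
    (hZ : ∀ k, ∀ q ∈ I₁ \ solid v K n I₁, ∀ i ∈ 𝓑.Z k, M.Q i ≠ dyc v q.1 q.2)
    (hδ : ∀ k, ∀ q ∈ I₁ \ solid v K n I₁, Zn 𝓑 k q → ∀ a ∈ dyc v q.1 q.2,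
      nL (𝓑.L k) * (D * (4 * nL (𝓑.L k).symm * β k)) ≤ δs a) :
    ∀ q ∈ I₁ \ solid v K n I₁, ∀ a ∈ dyc v q.1 q.2, ∀ b ∈ dyc v q.1 q.2,
      ‖h₁.toFun a - h₁.toFun b‖ ≤ δs a := by
  intro q hq a ha b hb
  by_cases hz : ∀ k, ¬ Zn 𝓑 k q
  · rw [eq_of_not_Zn L H hq.1 hz ha, eq_of_not_Zn L H hq.1 hz hb]
    exact hoff q hq hz a ha b hb
  · push Not at hz
    obtain ⟨k, hk⟩ := hz
    have hqU := L.mem_U hq
    rw [eq_of_Zn L H hqU hk ha, eq_of_Zn L H hqU hk hb]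
    refine le_trans ?_ (hδ k q hq hk a ha)
    refine (af_lip _ _ _ _).trans ?_
    obtain ⟨i, hi⟩ := L.dy.tile q hqU
    have hqk := (L.zone k q hqU hk).1
    have hself : ∀ e, MinEdge v I₁ e → edge v e ⊆ dyc v q.1 q.2 → e.1.1 ≤ N' (ek k) := by
      obtain ⟨q', -, hi', -, hgen⟩ := L.nbd k q hq hk i (notMem_P L hq hi)
        (fun hiZ => hZ k q hq i hiZ hi) ⟨a, ha, a, by rw [hi]; exact ha, by
          rw [sub_self, norm_zero]
          have := 𝓑.pos k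
          positivity⟩
      intro e he hes
      exact hgen e he (by rw [← hi', hi]; exact hes)
    have hB : 0 < 4 * nL (𝓑.L k).symm * β k :=
      mul_pos (mul_pos (by norm_num) (nL_pos _)) (hβ k)
    refine mul_le_mul_of_nonneg_left ?_ (norm_nonneg _)
    refine H.osc1 k i (notMem_P L hq hi) D (Or.inl le_rfl) _ hB
      (small_of L hq hi (hβ k).le (hb1 k q hq hqk) (hb2 k q hq hqk hself))
      (fun _ => ⟨seg_of L hi (hβ k).le (hseg k q hq hqk hk), ?_⟩)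
      a (by rw [hi]; exact ha) b (by rw [hi]; exact hb)
    rintro i' hP' hZ' t ht - ⟨y, hy, y', hy', hd⟩
    rw [hi] at hy
    obtain ⟨q', hq', hi', hqk', hgen⟩ := L.nbd k q hq hk i' hP' hZ' ⟨y, hy, y', hy', by
      rw [← ht.1]; exact hd⟩
    exact small_of L hq' hi' (hβ k).le (hb1 k q' hq' hqk') (hb2 k q' hq' hqk' hgen)

end Vale.Agent.P073.H490
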