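import Vale.Agent.P073.H803.RD
import Vale.Agent.P073.H726.VarSlope
import Vale.Agent.P073.H582.E2a
import Vale.Agent.P073.H490.St1Small

/-!
# P073, block B09, [ST1]: [OSC0], the oscillation of `h` on the passive cubes

`exists_osc0`: the choice of the functions `r` (sizes of the cubes), `rσ` (distance of `h` and `f`),
`δ₁` (tolerances on the edges), such that the oscillation of `h` on the passive cubes and the total
length of their edges are as small as desired.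
-/

open Set Metric Topology Filter MeasureTheory
open scoped ENNReal

namespace Vale.Agent.P073.H490

open Vale.Agent.P073
open Vale.Agent.P073.St (V Mat)
open Vale.Agent.P073.SQ (ev)
open Vale.Agent.P073.H73 (Mesh MinEdge segP onSeg ctr)
open Vale.Agent.P073.AB Vale.Agent.P073.AB.P86
open Vale.Agent.P073.H194 (Gen)
open Vale.Agent.P073.H803 (RD BlkG outI bS)
open Vale.Agent.P073.H696 (Boxes HF am blk blkS solid deep part1 Dom IsNear)
open Vale.Agent.P073.H726 (LBOn)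
open _root_.P073.Net (dyc dyo len)
open _root_.P073 (ConHomeo)

/-! ### Edges of a cube -/

/-- an edge of the same generation in the closed cube is an edge of the cube -/
theorem edgeOf_of_sub {v : V} {e : Idx × Fin 3} {q : Idx} (hg : e.1.1 = q.1)
    (hs : edge v e ⊆ dyc v q.1 q.2) : EdgeOf e q := by
  have h3 := hs (left_mem_segment ℝ _ _)
  have h4 := hs (right_mem_segment ℝ _ _)
  have hp : (0:ℝ) < 2 ^ q.1 := by positivity
  have h5 : ∀ j, (q.2 j : ℝ) ≤ e.1.2 j ∧ (e.1.2 j : ℝ) ≤ q.2 j + 1 := by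
    intro j
    have h := h3 j
    simp only [pt, hg] at h
    obtain ⟨a, b⟩ := h
    rw [add_le_add_iff_left, div_le_div_iff_of_pos_right hp] at a b
    exact ⟨a, b⟩
  have h6 : (e.1.2 e.2 : ℝ) + 1 ≤ q.2 e.2 + 1 := by
    have h := (h4 e.2).2
    simp only [pt, Pi.add_apply, Pi.smul_apply, ev, Pi.single_eq_same, smul_eq_mul, mul_one,
      hg] at h
    have h7 : v e.2 + (e.1.2 e.2 : ℝ) / 2 ^ q.1 + 1 / 2 ^ q.1 =
        v e.2 + ((e.1.2 e.2 : ℝ) + 1) / 2 ^ q.1 := by ring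
    rw [h7, add_le_add_iff_left, div_le_div_iff_of_pos_right hp] at h
    exact h
  refine ⟨hg, ?_, fun j _ => ?_⟩
  · have h7 := (h5 e.2).1
    have h8 : q.2 e.2 ≤ e.1.2 e.2 := by exact_mod_cast h7
    have h9 : e.1.2 e.2 + 1 ≤ q.2 e.2 + 1 := by exact_mod_cast h6
    omega
  · have h7 : q.2 j ≤ e.1.2 j := by exact_mod_cast (h5 j).1
    have h8 : e.1.2 j ≤ q.2 j + 1 := by exact_mod_cast (h5 j).2
    omega

open scoped Classical in
/-- the edges of a cube -/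
theorem tsum_edgeOf_le (q : Idx) (c : ℝ≥0∞) (f : Idx × Fin 3 → ℝ≥0∞) {A : Idx × Fin 3 → Prop}
    (hA : ∀ e, A e → EdgeOf e q) (hf : ∀ e, A e → f e ≤ c) :
    ∑' e : {e // A e}, f e.1 ≤ 24 * c := by
  set φ : {e // A e} → Fin 3 × (Fin 3 → Bool) := fun e =>
    (e.1.2, fun j => decide (e.1.1.2 j = q.2 j + 1)) with hφ
  have hinj : Function.Injective φ := by
    rintro ⟨⟨⟨m, z⟩, i⟩, h⟩ ⟨⟨⟨m', z'⟩, i'⟩, h'⟩ heq
    have e1 : i = i' := congrArg Prod.fst heq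
    subst e1
    have e2 := congrArg Prod.snd heq
    simp only [hφ] at e2
    obtain ⟨a1, a2, a3⟩ := hA _ h
    obtain ⟨b1, b2, b3⟩ := hA _ h'
    simp only at a1 a2 a3 b1 b2 b3
    have e3 : z = z' := by
      funext j
      by_cases hj : j = i
      · subst hj
        rw [a2, b2]
      · have e4 := congrFun e2 j
        simp only [decide_eq_decide] at e4
        have c1 := a3 j hj
        have c2 := b3 j hj
        by_cases h5 : z j = q.2 j + 1
        · rw [h5, e4.1 h5]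
        · have h6 : ¬ z' j = q.2 j + 1 := fun h => h5 (e4.2 h)
          rw [c1.resolve_right h5, c2.resolve_right h6]
    subst e3
    have e4 : m = m' := a1.trans b1.symm
    subst e4
    rfl
  calc ∑' e : {e // A e}, f e.1 ≤ ∑' e : {e // A e}, (fun _ => c) (φ e) :=
        ENNReal.tsum_le_tsum fun e => hf e.1 e.2
    _ ≤ ∑' _x : Fin 3 × (Fin 3 → Bool), c :=
        ENNReal.tsum_comp_le_tsum_of_injective hinj fun _ => c
    _ = 24 * c := by
        rw [tsum_fintype, Finset.sum_const, Finset.card_univ, nsmul_eq_mul]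
        congr 1

/-! ### Functions -/

/-- a positive function below given numbers on the boxes -/
theorem exists_boxfun {Ω : Set V} {v : V} {K : Set Idx} (hΩ : IsOpen Ω)
    (hfin : ∀ C ⊆ Ω, IsCompact C → {k ∈ K | (dyc v k.1 k.2 ∩ C).Nonempty}.Finite)
    {γ : Idx → ℝ} (hγ : ∀ k ∈ K, 0 < γ k) :
    ∃ b : V → ℝ, LBOn Ω b ∧ ∀ k ∈ K, ∀ y ∈ dyc v k.1 k.2, b y ≤ γ k := by
  set T : V → Set ℝ := fun y => insert 1 (γ '' {k | k ∈ K ∧ y ∈ dyc v k.1 k.2}) with hT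
  have hbdd : ∀ y, BddBelow (T y) := by
    intro y
    refine ⟨0, ?_⟩
    rintro _ (rfl | ⟨k, ⟨hk, -⟩, rfl⟩)
    · exact zero_le_one
    · exact (hγ k hk).le
  refine ⟨fun y => sInf (T y), ?_, fun k hk y hy => csInf_le (hbdd y) (Or.inr ⟨k, ⟨hk, hy⟩, rfl⟩)⟩
  intro x hx
  obtain ⟨ρ, hρ, hb⟩ := Metric.nhds_basis_closedBall.mem_iff.1 (hΩ.mem_nhds hx)
  obtain ⟨c, hc, h⟩ := H803.exists_le_finite (hfin _ hb (isCompact_closedBall x ρ)) γ
    fun k hk => hγ k hk.1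
  refine ⟨min 1 c, lt_min one_pos hc, ?_⟩
  filter_upwards [closedBall_mem_nhds x hρ] with w hw _
  refine le_csInf ⟨1, Or.inl rfl⟩ ?_
  rintro _ (rfl | ⟨k, ⟨hk, hwk⟩, rfl⟩)
  · exact min_le_left _ _
  · exact (min_le_right _ _).trans (h k ⟨hk, w, hwk, hw⟩)

/-- modulus of continuity -/
theorem exists_modf {Ω : Set V} (hΩ : IsOpen Ω) {f : V → V} (hf : ContinuousOn f Ω)
    {s : V → ℝ} (hs1 : ∀ x y, s x ≤ s y + ‖x - y‖) (hs0 : ∀ x ∈ Ω, 0 < s x) :
    ∃ r : V → ℝ, LBOn Ω r ∧ ∀ y ∈ Ω, ∀ t, 0 < t → t ≤ r y → ∀ b ∈ Ω, ‖y - b‖ ≤ t →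
      ‖f y - f b‖ ≤ s y / 4 := by
  set P : V → ℝ → Prop := fun y ρ => ∀ b ∈ Ω, ‖y - b‖ ≤ ρ → ‖f y - f b‖ ≤ s y / 4 with hP
  set T : V → Set ℝ := fun y => {ρ | 0 ≤ ρ ∧ ρ ≤ 1 ∧ P y ρ} with hT
  have hbdd : ∀ y, BddAbove (T y) := fun y => ⟨1, fun ρ hρ => hρ.2.1⟩
  refine ⟨fun y => sSup (T y) / 2, ?_, ?_⟩
  · intro x hx
    have hsx := hs0 x hx
    have h1 : ∀ᶠ b in 𝓝 x, b ∈ Ω → ‖f b - f x‖ ≤ s x / 32 := by
      have h2 := (hf.continuousAt (hΩ.mem_nhds hx)).eventually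
        (closedBall_mem_nhds (f x) (show 0 < s x / 32 by positivity))
      filter_upwards [h2] with b hb _
      rw [← dist_eq_norm]
      exact hb
    obtain ⟨ρ, hρ, hb⟩ := Metric.nhds_basis_ball.mem_iff.1 h1
    set t := min (min (ρ / 2) (s x / 2)) 1 with ht
    have ht0 : 0 < t := lt_min (lt_min (by positivity) (by positivity)) one_pos
    have ht1 : t ≤ ρ / 2 := (min_le_left _ _).trans (min_le_left _ _)
    have ht2 : t ≤ s x / 2 := (min_le_left _ _).trans (min_le_right _ _)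
    refine ⟨t / 2, by positivity, ?_⟩
    filter_upwards [ball_mem_nhds x ht0] with w hw hwΩ
    have hwx : ‖w - x‖ < t := by rwa [mem_ball, dist_eq_norm] at hw
    have hT' : t ∈ T w := by
      refine ⟨ht0.le, min_le_right _ _, fun b hbΩ hwb => ?_⟩
      have h3 : ‖f w - f x‖ ≤ s x / 32 := hb (by
        rw [mem_ball, dist_eq_norm]; linarith) hwΩ
      have h4 : ‖f b - f x‖ ≤ s x / 32 := hb (by
        rw [mem_ball, dist_eq_norm]
        have := norm_sub_le_norm_sub_add_norm_sub b w x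
        rw [norm_sub_rev b w] at this
        linarith) hbΩ
      have h5 := norm_sub_le_norm_sub_add_norm_sub (f w) (f x) (f b)
      rw [norm_sub_rev (f x)] at h5
      have h6 := hs1 x w
      rw [norm_sub_rev] at h6
      linarith
    have := le_csSup (hbdd w) hT'
    show t / 2 ≤ sSup (T w) / 2
    linarith
  · intro y hy t ht htr b hb hyb
    have h1 : t < sSup (T y) := by
      have h2 : t ≤ sSup (T y) / 2 := htr
      linarith
    have hne : (T y).Nonempty := by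
      by_contra hcon
      rw [not_nonempty_iff_eq_empty] at hcon
      rw [hcon, Real.sSup_empty] at h1
      linarith
    obtain ⟨ρ, hρ, htρ⟩ := exists_lt_of_lt_csSup hne h1
    exact hρ.2.2 b hb (hyb.trans htρ.le)

/-! ### The lengths of the edges -/

/-- from the energy of an edge to its length -/
theorem eInt_le_of_pow {p : ℝ} (hp : 3 ≤ p) {v : V} {e : Idx × Fin 3} {Ω : Set V} {F : V → Mat}
    (he : edge v e ⊆ Ω) {a : ℝ} (ha : 0 ≤ a)
    (h : ENNReal.ofReal ((1 / 2 ^ e.1.1) ^ 2) * eInt v e (HF p Ω F) ≤ ENNReal.ofReal (a ^ p)) :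
    eInt v e (fun y => ‖cl (F y)‖ₑ) ≤ ENNReal.ofReal a := by
  have hp0 : 0 < p := by linarith
  have hr : (0:ℝ) < 1 / 2 ^ e.1.1 := by positivity
  have hr1 : (1:ℝ) / 2 ^ e.1.1 ≤ 1 := by
    rw [div_le_one (by positivity)]
    exact one_le_pow₀ (by norm_num)
  have h1 : eInt v e (fun y => ‖cl (F y)‖ₑ ^ p) = eInt v e (HF p Ω F) := by
    refine H194.eInt_congr fun t ht => ?_
    have h2 : pt v e.1.1 e.1.2 + t • ((1 / 2 ^ e.1.1 : ℝ) • ev e.2) ∈ Ω := by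
      refine he ?_
      unfold edge
      rw [segment_eq_image']
      exact ⟨t, ht, by simp⟩
    unfold HF
    rw [indicator_of_mem h2]
  rw [← ENNReal.rpow_le_rpow_iff hp0]
  refine (H194.eInt_rpow_le (by linarith) v e _).trans ?_
  rw [h1]
  have e1 : ENNReal.ofReal ((1 / 2 ^ e.1.1) ^ (p - 1)) ≤
      ENNReal.ofReal ((1 / 2 ^ e.1.1) ^ 2) := by
    refine ENNReal.ofReal_le_ofReal ?_
    have e0 : (1 / 2 ^ e.1.1 : ℝ) ^ (p - 1) ≤ (1 / 2 ^ e.1.1 : ℝ) ^ (2:ℝ) :=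
      Real.rpow_le_rpow_of_exponent_ge hr hr1 (by linarith)
    rwa [Real.rpow_two] at e0
  calc ENNReal.ofReal ((1 / 2 ^ e.1.1) ^ (p - 1)) * eInt v e (HF p Ω F)
      ≤ ENNReal.ofReal ((1 / 2 ^ e.1.1) ^ 2) * eInt v e (HF p Ω F) := by gcongr
    _ ≤ _ := h
    _ = ENNReal.ofReal a ^ p := (ENNReal.ofReal_rpow_of_nonneg ha hp0.le).symm

variable {Ω Λ : Set V} {f : V → V} {F : V → Mat} {v : V} {K : Set Idx} {x : Idx → V}
  {p ε M₀ : ℝ} {c : ℝ≥0∞} {τ' φ κ μ : V → ℝ} {s : V → ℕ} {nn : ℕ → ℕ}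

/-- **[OSC0]** -/
theorem exists_osc0 (hp : 3 ≤ p) (hΩ : St.IsBoundedDomain Ω) (hf : St.IsHomeo Ω Λ f)
    (B : Boxes p ε M₀ c τ' φ κ μ s Ω Λ f F v nn K x)
    (hgen : ∀ k ∈ K, ∀ ω : ℝ≥0∞, ω ≠ 0 → ∃ l₀ : ℕ, ∀ l ≥ l₀, ∀ e : Idx × Fin 3, e.1.1 = nn l →
      edge v e ⊆ dyc v k.1 k.2 →
      ENNReal.ofReal ((1 / 2 ^ e.1.1) ^ 2) * eInt v e (HF p Ω F) ≤ ω)
    {β : Idx → ℝ} (hβ : ∀ k ∈ K, 0 < β k) {β₀ : V → ℝ} (hβ₀ : LBOn Ω β₀) :
    ∃ (r rσ : V → ℝ) (δ₁ : Idx × Fin 3 → ℝ), LBOn Ω r ∧ LBOn Ω rσ ∧ (∀ e, 0 < δ₁ e) ∧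
    ∀ {D : ℝ} {J : ℝ → ℕ} {Δ Mg : ℝ → ℝ} {I : Set Idx} {n N N' : Idx → ℕ} {k₁ : V → ℕ}
      {c₀ τ r₁ rσ₁ : V → ℝ} {δ εs : Idx × Fin 3 → ℝ} {εD : ℝ≥0∞} {tolD : Idx → ℝ≥0∞},
      Dom Ω v (HF p Ω F) K n N r₁ εD tolD I N' → (∀ y, r₁ y ≤ r y) →
      (∀ k ∈ K, N' k ∈ Set.range nn) →
      ∀ X : RD p D J Δ Mg Ω Λ f F v I K x n N N' k₁ c₀ τ rσ₁ δ εs,
      (∀ y ∈ Ω, rσ₁ y ≤ rσ y) → (∀ e, δ e ≤ δ₁ e) →
      (∀ q ∈ part1 v K n (fun k => k₁ (x k)) I \
          solid v K n (part1 v K n (fun k => k₁ (x k)) I),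
        ∀ a ∈ dyc v q.1 q.2, ∀ b ∈ dyc v q.1 q.2, ‖X.h.toFun a - X.h.toFun b‖ ≤ β₀ a) ∧
      ∀ k ∈ K, ∀ q ∈ part1 v K n (fun k => k₁ (x k)) I \
          solid v K n (part1 v K n (fun k => k₁ (x k)) I), dyc v q.1 q.2 ⊆ dyc v k.1 k.2 →
        (∀ a ∈ dyc v q.1 q.2, ∀ b ∈ dyc v q.1 q.2, ‖X.h.toFun a - X.h.toFun b‖ ≤ β k) ∧
        ((∀ e, MinEdge v (part1 v K n (fun k => k₁ (x k)) I) e →
            edge v e ⊆ dyc v q.1 q.2 → e.1.1 ≤ N' k) →
          2 * ∑' e : {e : Idx × Fin 3 // MinEdge v (part1 v K n (fun k => k₁ (x k)) I) e ∧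
            edge v e ⊆ dyc v q.1 q.2}, len (onSeg X.h.toFun (segP v e.1)) (Icc 0 1) ≤
              ENNReal.ofReal (β k)) := by
  classical
  have hΩo : IsOpen Ω := hΩ.1
  -- the functions
  obtain ⟨bb, hbb, hbbk⟩ := exists_boxfun hΩo B.fin hβ
  have hne : Ωᶜ.Nonempty := by
    by_contra hcon
    rw [not_nonempty_iff_eq_empty, compl_empty_iff] at hcon
    obtain ⟨R, hR0, hR⟩ := AB.norm_bound_of_domain hΩ
    have h1 := hR ((R + 1) • ev 0) (by rw [hcon]; trivial)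
    rw [norm_smul, S293.ev_norm, mul_one, Real.norm_of_nonneg (by linarith)] at h1
    linarith
  obtain ⟨S, hS1, hS2, hS3, hS4, -⟩ := H726.exists_lower hΩo hne (hβ₀.min hbb)
    fun y hy => (hβ₀.min hbb).pos hy
  have hSc : Continuous S := by
    refine (LipschitzWith.of_le_add_mul 1 fun a b => ?_).continuous
    rw [NNReal.coe_one, one_mul, dist_eq_norm]
    exact hS1 a b
  obtain ⟨r₀, hr₀, hr₀'⟩ := exists_modf hΩo (by obtain ⟨_, _, h, _⟩ := hf; exact h) hS1 hS2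
  have hω : ∀ k ∈ K, ENNReal.ofReal ((β k / 200) ^ p) ≠ 0 := fun k hk =>
    (ENNReal.ofReal_pos.2 (Real.rpow_pos_of_pos (by have := hβ k hk; positivity) p)).ne'
  have hl : ∀ k : Idx, ∃ l₀ : ℕ, k ∈ K → ∀ l ≥ l₀, ∀ e : Idx × Fin 3, e.1.1 = nn l →
      edge v e ⊆ dyc v k.1 k.2 → ENNReal.ofReal ((1 / 2 ^ e.1.1) ^ 2) * eInt v e (HF p Ω F) ≤
        ENNReal.ofReal ((β k / 200) ^ p) := by
    intro k
    by_cases hk : k ∈ K
    · obtain ⟨l₀, h⟩ := hgen k hk _ (hω k hk)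
      exact ⟨l₀, fun _ => h⟩
    · exact ⟨0, fun h => absurd h hk⟩
  choose l₀ hl₀ using hl
  obtain ⟨bn, hbn, hbnk⟩ := exists_boxfun hΩo B.fin (γ := fun k => 1 / 2 ^ nn (l₀ k))
    fun k _ => by positivity
  have hSL : LBOn Ω S := LBOn.of_continuous hΩo hSc hS2
  refine ⟨fun y => min (r₀ y) (min (S y) (bn y)), fun y => S y / 8,
    fun e => if pt v e.1.1 e.1.2 ∈ Ω then S (pt v e.1.1 e.1.2) / 200 else 1,
    hr₀.min (hSL.min hbn), ?_, ?_, ?_⟩
  · exact LBOn.of_continuous hΩo (hSc.div_const 8) fun y hy => by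
      have := hS2 y hy
      positivity
  · intro e
    show 0 < (if pt v e.1.1 e.1.2 ∈ Ω then S (pt v e.1.1 e.1.2) / 200 else 1)
    split_ifs with h
    · have := hS2 _ h
      positivity
    · exact one_pos
  intro D J Δ Mg I n N N' k₁ c₀ τ r₁ rσ₁ δ εs εD tolD Dm hr hnn X hrσ hδ
  -- passive cubes
  have hpass : ∀ q ∈ part1 v K n (fun k => k₁ (x k)) I \
      solid v K n (part1 v K n (fun k => k₁ (x k)) I), q ∈ I ∧
      ∀ k ∈ K, Disjoint (dyc v q.1 q.2) (blkS v k (n k)) := by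
    rintro q ⟨hq, hqs⟩
    have h1 : ∀ k ∈ K, Disjoint (dyc v q.1 q.2) (blkS v k (n k)) := by
      intro k hk
      by_contra hcon
      rw [not_disjoint_iff_nonempty_inter] at hcon
      exact hqs ⟨hq, k, hk, hcon⟩
    refine ⟨?_, h1⟩
    rcases hq with hq | ⟨k, hk, -, z, hz, hsub⟩
    · exact hq.1
    · exfalso
      obtain ⟨y, hy⟩ := H304.dyc_nonempty v q.1 q.2
      exact Set.disjoint_left.1 (h1 k hk) hy (mem_iUnion₂.2 ⟨z, hz, hsub hy⟩)
  have hrq : ∀ q ∈ part1 v K n (fun k => k₁ (x k)) I \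
      solid v K n (part1 v K n (fun k => k₁ (x k)) I), ∀ y ∈ dyc v q.1 q.2,
      1 / 2 ^ q.1 ≤ min (r₀ y) (min (S y) (bn y)) := by
    intro q hq y hy
    obtain ⟨h1, h2⟩ := hpass q hq
    refine (Dm.small q h1 (fun k hk hn => ?_) y hy).trans (hr y)
    obtain ⟨u, hu, hu'⟩ := hn.2
    exact Set.disjoint_left.1 (h2 k hk) hu hu'
  have hosc : ∀ q ∈ part1 v K n (fun k => k₁ (x k)) I \
      solid v K n (part1 v K n (fun k => k₁ (x k)) I), ∀ a ∈ dyc v q.1 q.2,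
      ∀ b ∈ dyc v q.1 q.2, ‖X.h.toFun a - X.h.toFun b‖ ≤ S a := by
    intro q hq a ha b hb
    obtain ⟨h1, h2⟩ := hpass q hq
    have hsubΩ := Dm.part.sub q h1
    have hoff : ∀ y ∈ dyc v q.1 q.2, ‖X.h.toFun y - f y‖ ≤ S y / 8 := by
      intro y hy
      refine (X.NB.off y (hsubΩ hy) fun k hk z hz hyz => ?_).trans
        (((X.σ0 y (hsubΩ hy)).2).trans (hrσ y (hsubΩ hy)))
      exact Set.disjoint_left.1 (h2 k hk) hy (mem_iUnion₂.2 ⟨z, hz, interior_subset hyz⟩)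
    have hra := hrq q hq a ha
    have hab : ‖a - b‖ ≤ 1 / 2 ^ q.1 := _root_.P073.Net.NC.dist_le ha hb
    have h3 := hr₀' a (hsubΩ ha) (1 / 2 ^ q.1) (by positivity) (hra.trans (min_le_left _ _)) b
      (hsubΩ hb) hab
    have h4 : 1 / 2 ^ q.1 ≤ S a := hra.trans ((min_le_right _ _).trans (min_le_left _ _))
    have h5 := hS1 b a
    rw [norm_sub_rev] at h5
    have h6 := hoff a ha
    have h7 := hoff b hb
    have h8 := norm_sub_le_norm_sub_add_norm_sub (X.h.toFun a) (f a) (X.h.toFun b)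
    have h9 := norm_sub_le_norm_sub_add_norm_sub (f a) (f b) (X.h.toFun b)
    rw [norm_sub_rev (f b)] at h9
    have h10 := hS2 a (hsubΩ ha)
    linarith
  refine ⟨fun q hq a ha b hb => (hosc q hq a ha b hb).trans ?_, ?_⟩
  · exact (hS3 a (Dm.part.sub q (hpass q hq).1 ha)).trans (min_le_left _ _)
  intro k hk q hq hqk
  have hSβ : ∀ y ∈ dyc v k.1 k.2, S y ≤ β k := fun y hy =>
    (hS3 y ((B.pt k hk).2.1 hy)).trans ((min_le_right _ _).trans (hbbk k hk y hy))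
  refine ⟨fun a ha b hb => (hosc q hq a ha b hb).trans (hSβ a (hqk ha)), fun hmin => ?_⟩
  obtain ⟨hqI, hqd⟩ := hpass q hq
  have hβk := hβ k hk
  -- the generation
  have hqN : q.1 = N' k := by
    rcases Dm.out k hk q hqI hqk with h | h
    · exfalso
      obtain ⟨u, hu, hu'⟩ := h.2
      exact Set.disjoint_left.1 (hqd k hk) hu hu'
    · exact h.1
  obtain ⟨l, hl⟩ := hnn k hk
  have hll : l₀ k ≤ l := by
    obtain ⟨y, hy⟩ := H304.dyc_nonempty v q.1 q.2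
    have h1 : 1 / 2 ^ q.1 ≤ (1:ℝ) / 2 ^ nn (l₀ k) :=
      ((hrq q hq y hy).trans ((min_le_right _ _).trans (min_le_right _ _))).trans
        (hbnk k hk y (hqk hy))
    have h2 := H803.pow_le_of_div h1
    rw [hqN, ← hl] at h2
    exact B.mono.le_iff_le.1 h2
  have hqo : q ∈ outI v K n (fun k => blk k (n k)) I := by
    refine ⟨hqI, fun k' hk' z hz hsub => ?_⟩
    obtain ⟨y, hy⟩ := H304.dyc_nonempty v q.1 q.2
    exact Set.disjoint_left.1 (hqd k' hk') hy (mem_iUnion₂.2 ⟨z, hz, hsub hy⟩)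
  -- the edges
  have hE : ∀ e, (MinEdge v (part1 v K n (fun k => k₁ (x k)) I) e ∧
      edge v e ⊆ dyc v q.1 q.2) → EdgeOf e q := by
    rintro e ⟨he, hes⟩
    refine edgeOf_of_sub (le_antisymm ?_ (H582.gen_le_of_edge_dyc hes)) hes
    rw [hqN]
    exact hmin e he hes
  have hlen : ∀ e, (MinEdge v (part1 v K n (fun k => k₁ (x k)) I) e ∧
      edge v e ⊆ dyc v q.1 q.2) → len (onSeg X.h.toFun (segP v e)) (Icc 0 1) ≤
        ENNReal.ofReal (β k / 50) := by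
    intro e he
    have he' := hE e he
    have hek : edge v e ⊆ dyc v k.1 k.2 := he.2.trans hqk
    have hkΩ := (B.pt k hk).2.1
    refine (H803.len_out B X.NB X.G hqo he').trans ?_
    have h1 : eInt v e (fun y => ‖cl (F y)‖ₑ) ≤ ENNReal.ofReal (β k / 200) := by
      refine eInt_le_of_pow hp (hek.trans hkΩ) (by positivity) ?_
      refine hl₀ k hk l hll e ?_ hek
      rw [hl, ← hqN]
      exact he'.1
    have h2 : δ e ≤ β k / 200 := by
      have hpe : pt v e.1.1 e.1.2 ∈ dyc v k.1 k.2 := hek (left_mem_segment ℝ _ _)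
      have h5 := hδ e
      simp only [if_pos (hkΩ hpe)] at h5
      have := hSβ _ hpe
      linarith
    calc 2 * (ENNReal.ofReal (δ e) + eInt v e (fun y => ‖cl (F y)‖ₑ))
        ≤ 2 * (ENNReal.ofReal (β k / 200) + ENNReal.ofReal (β k / 200)) := by gcongr
      _ = ENNReal.ofReal (β k / 50) := by
          rw [← ENNReal.ofReal_add (by positivity) (by positivity),
            show (2 : ℝ≥0∞) = ENNReal.ofReal 2 by simp, ← ENNReal.ofReal_mul (by norm_num)]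
          congr 1
          ring
  calc 2 * ∑' e : {e : Idx × Fin 3 // MinEdge v (part1 v K n (fun k => k₁ (x k)) I) e ∧
        edge v e ⊆ dyc v q.1 q.2}, len (onSeg X.h.toFun (segP v e.1)) (Icc 0 1)
      ≤ 2 * (24 * ENNReal.ofReal (β k / 50)) := by
        gcongr
        exact tsum_edgeOf_le q _ (fun e => len (onSeg X.h.toFun (segP v e)) (Icc 0 1))
          (A := fun e => MinEdge v (part1 v K n (fun k => k₁ (x k)) I) e ∧
            edge v e ⊆ dyc v q.1 q.2) hE hlen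
    _ = ENNReal.ofReal (48 * (β k / 50)) := by
        rw [← mul_assoc, ENNReal.ofReal_mul (by norm_num)]
        congr 1
        norm_num
    _ ≤ _ := by
        refine ENNReal.ofReal_le_ofReal ?_
        linarith

end Vale.Agent.P073.H490
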