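import Vale.Agent.P073.H490.LipR2
import Vale.Agent.P073.H490.I2c
import Vale.Agent.P073.H490.FinB
import Vale.Agent.P073.H490.OutX
import Vale.Agent.P073.ConicalStrata2

/-!
# P073, block B09, [R2ASM] (a): closeness, and the derivative on the good set
-/

open Set Metric Topology Filter MeasureTheory Matrix
open scoped ENNReal ContDiff

namespace Vale.Agent.P073.H490

open Vale.Agent.P073
open Vale.Agent.P073.St (V Mat)
open Vale.Agent.P073.AB (Idx Part cl)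
open Vale.Agent.P073.AB.P86
open Vale.Agent.P073.H696
open Vale.Agent.P073.H73 (ctr Mesh)
open Vale.Agent.P073.H304 (Nb mid In Out LipBd)
open Vale.Agent.P073.H194 (partMesh)
open Vale.Agent.P073.H851 (M3 LocLip)
open _root_.P073 (ConHomeo)
open _root_.P073.Net (dyc dyo IsTile SizeFn)

/-- a conical homeomorphism is differentiable almost everywhere -/
theorem ae_diff {Ω Λ : Set V} (hΩ : IsOpen Ω) (H : ConHomeo Ω Λ) :
    ∀ᵐ x ∂(volume : Measure V), x ∈ Ω → DifferentiableAt ℝ H.toFun x := by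
  have hnull := _root_.P073.measure_singular_eq_zero (volume : Measure V) hΩ H.conical H.cont
  rw [measure_eq_zero_iff_ae_notMem] at hnull
  filter_upwards [hnull] with x hx hxΩ
  have htop : _root_.P073.linSpace H.toFun x = ⊤ := by
    by_contra h
    exact hx ⟨hxΩ, h⟩
  have h1 : ContDiffAt ℝ ∞ H.toFun x :=
    _root_.P073.contDiffAt_of_top (H.conical.conicalAt hΩ hxΩ) htop
  exact h1.differentiableAt (by simp)

/-- near a point of `Λ` which is in no tile of `J` there are no tiles of `J` -/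
theorem eventually_notMem_tiles {Λ : Set V} {ρ : V → ℝ} {w : V} (hρ : SizeFn Λ ρ)
    (hΛ : IsOpen Λ) {J : Set Idx} (hJ : ∀ t ∈ J, IsTile ρ w t.1 t.2) {u : V} (hu : u ∈ Λ)
    (h : ∀ t ∈ J, u ∉ dyc w t.1 t.2) : ∀ᶠ u' in 𝓝 u, ∀ t ∈ J, u' ∉ dyc w t.1 t.2 := by
  obtain ⟨r, hr, hball⟩ := Metric.isOpen_iff.1 hΛ u hu
  have hK : closedBall u (r / 2) ⊆ Λ := (closedBall_subset_ball (by linarith)).trans hball
  have hf := _root_.P073.Net.NC.finite hρ w hK (isCompact_closedBall u (r / 2))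
  have h2 : ⋂ t ∈ {t : Idx | IsTile ρ w t.1 t.2 ∧
      (dyc w t.1 t.2 ∩ closedBall u (r / 2)).Nonempty} ∩ J, (dyc w t.1 t.2)ᶜ ∈ 𝓝 u := by
    refine (Filter.biInter_mem (hf.subset inter_subset_left)).2 fun t ht => ?_
    exact (isCompact_dyc w t.1 t.2).isClosed.isOpen_compl.mem_nhds (h t ht.2)
  filter_upwards [h2, closedBall_mem_nhds u (half_pos hr)] with u' h1 h3 t ht hm
  exact (mem_iInter₂.1 h1) t ⟨⟨hJ t ht, u', hm, h3⟩, ht⟩ hm

/-- a tile is in `Λ` -/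
theorem tile_sub {Λ : Set V} {ρ : V → ℝ} {w : V} (hρ : SizeFn Λ ρ) {t : Idx}
    (ht : IsTile ρ w t.1 t.2) : dyc w t.1 t.2 ⊆ Λ := by
  intro x hx
  by_contra h
  have h1 := ht.1 x hx
  have h2 := hρ.off x h
  have h3 : (0:ℝ) < 1 / 2 ^ t.1 := by positivity
  linarith

section R2

variable {p Cu : ℝ} {Lc : M3 → ℝ} {δ : ℝ} {j : ℕ} {ε : ℝ} {Ω Λ : Set V} {f : V → V} {F : V → Mat}
  {v : V} (X : R2 p Cu Lc δ j ε Ω Λ f F v)
include X

/-- the tiles are small -/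
theorem r2_tile_le {t : Idx} (ht : IsTile X.ρ 0 t.1 t.2) : (1:ℝ) / 2 ^ t.1 ≤ ε := by
  have hx := dyo_sub_dyc (cen_mem 0 t.1 t.2)
  have hxΛ := tile_sub X.tg.size ht hx
  have h1 := X.tg.fine t ht _ (X.Tt.mapsTo_inv hxΛ) (by rwa [X.Tt.right_inv hxΛ])
  exact h1.trans (X.szε _)

/-- a point with image near the boundaries of the tiles of `J₀` is in `Act` -/
theorem r2_tile_J {y : V} (hy : y ∈ Λ) {c : ℝ} (hc : c ≤ 1 / 32)
    (h : X.Tt.toFun y ∈ Nb 0 X.J₀ c) : ∃ t ∈ X.J, X.Tt.toFun y ∈ dyc 0 t.1 t.2 := by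
  obtain ⟨t, ht, x', hx', hxx⟩ := h
  obtain ⟨m, z, htile, hmem⟩ := _root_.P073.Net.NC.exists_tile X.tg.size 0 (X.Tt.mapsTo hy)
  refine ⟨(m, z), X.tg.nbr t ht (m, z) htile ⟨_, hmem, x', ?_, hxx.trans ?_⟩, hmem⟩
  · exact (isCompact_dyc 0 t.1 t.2).isClosed.frontier_subset hx'
  · gcongr

theorem r2_Act {y : V} (hy : y ∈ Λ) {c : ℝ} (hc : c ≤ 1 / 32)
    (h : X.Tt.toFun y ∈ Nb 0 X.J₀ c) : y ∈ X.Act := by
  obtain ⟨t, ht, hm⟩ := r2_tile_J X hy hc h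
  exact X.tg.act y hy t ht hm

variable {D D' c₀ : ℝ} {M : Mesh Ω} {P Z : Set M.ι} {Y : Set M.κ} {εk : M.κ → ℝ}
  {g : ConHomeo Ω Λ}

/-- **closeness** -/
theorem r2_close (hD : 0 ≤ D)
    (O : OutX p D D' (1 / 2 ^ j) c₀ 0 X.ρ M X.hh.toFun X.J₀ X.J P Z Y εk g) :
    ∀ y ∈ Ω, ‖g.toFun y - f y‖ ≤ (D + 2) * ε := by
  intro y hy
  have h1 : ‖g.toFun y - X.hh.toFun y‖ ≤ D * ε := by
    by_cases h : X.hh.toFun y ∈ Nb 0 X.J₀ c₀
    · obtain ⟨t, ht, x', hx', hxx⟩ := h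
      have h2 := O.close y hy t ht ⟨t, rfl, x', hx', hxx⟩
      refine h2.trans ?_
      have h3 := r2_tile_le X (X.tg.tile t (X.tg.sub ht))
      have e : D / (2:ℝ) ^ t.1 = D * (1 / 2 ^ t.1) := by ring
      rw [e]
      gcongr
    · rw [O.off y hy h, sub_self, norm_zero]
      exact mul_nonneg hD X.hε.1.le
  have h2 : ‖X.hh.toFun y - X.h₁.toFun y‖ ≤ ε := X.tg.close _ (X.h₁.mapsTo hy)
  have h3 := (X.st.close y hy).1
  have h4 := norm_add_le (g.toFun y - X.hh.toFun y) (X.hh.toFun y - X.h₁.toFun y)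
  rw [sub_add_sub_cancel] at h4
  have h5 := norm_add_le (g.toFun y - X.h₁.toFun y) (X.h₁.toFun y - f y)
  rw [sub_add_sub_cancel] at h5
  linarith

theorem r2_D_int {k : Idx} (hk : k ∈ X.K) : X.D k ⊆ interior (X.Dp k) := by
  have hc0 := r2_c0 X hk
  intro x hx
  obtain ⟨z, hz, hxz⟩ := mem_iUnion₂.1 hx
  have h1 : x ∈ ball (ctr v (X.n k) z) ((1 - 2 * (2 * X.c₀ k)) / 2 / 2 ^ X.n k) := by
    refine closedBall_subset_ball ?_ hxz
    gcongr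
    linarith
  refine mem_interior.2 ⟨_, ?_, isOpen_ball, h1⟩
  exact ball_subset_closedBall.trans (subset_iUnion₂ (s := fun z (_ : z ∈ blk k (X.n k)) =>
    closedBall (ctr v (X.n k) z) ((1 - 2 * (2 * X.c₀ k)) / 2 / 2 ^ X.n k)) z hz)

/-- off `Act` the new map agrees with `Tt ∘ a k` -/
theorem r2_near (hc₀ : c₀ ≤ 1 / 64)
    (O : OutX p D D' (1 / 2 ^ j) c₀ 0 X.ρ M X.hh.toFun X.J₀ X.J P Z Y εk g)
    {k : Idx} (hk : k ∈ X.K) {x : V} (hx : x ∈ X.D k) (hA : X.a k x ∉ X.Act) :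
    ∀ᶠ x' in 𝓝 x, x' ∈ X.Dp k ∧ g.toFun x' = X.Tt.toFun (X.a k x') := by
  have hxD := r2_D_Dp X hk hx
  have hxΩ := r2_Dp_Ω X hk hxD
  have hy : X.a k x ∈ Λ := by rw [← r2_kept X hk hxD]; exact X.h₁.mapsTo hxΩ
  have h1 : ∀ t ∈ X.J, X.hh.toFun x ∉ dyc 0 t.1 t.2 := by
    intro t ht hm
    refine hA (X.tg.act _ hy t ht ?_)
    rw [← r2_kept X hk hxD]
    exact hm
  have h2 := eventually_notMem_tiles X.tg.size X.hΛ.1 X.tg.tile (X.hh.mapsTo hxΩ) h1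
  have hΩ : IsOpen Ω := X.hΩ.1
  have hcont : ContinuousAt X.hh.toFun x := X.hh.cont.continuousAt (hΩ.mem_nhds hxΩ)
  filter_upwards [hcont.eventually h2, hΩ.mem_nhds hxΩ,
    mem_interior_iff_mem_nhds.1 (r2_D_int X hk hx)] with x' h3 h4 h5
  refine ⟨h5, ?_⟩
  rw [O.off x' h4, ← r2_kept X hk h5]
  · rfl
  · intro hN
    obtain ⟨t, ht, hm⟩ := r2_tile_J X (X.h₁.mapsTo h4) (c := c₀) (by linarith) hN
    exact h3 t ht hm

/-- the derivative off `Act` -/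
theorem r2_fderiv (hc₀ : c₀ ≤ 1 / 64)
    (O : OutX p D D' (1 / 2 ^ j) c₀ 0 X.ρ M X.hh.toFun X.J₀ X.J P Z Y εk g)
    {k : Idx} (hk : k ∈ X.K) {x : V} (hx : x ∈ X.D k) (hA : X.a k x ∉ X.Act)
    (hd : DifferentiableAt ℝ g.toFun x) :
    ‖fderiv ℝ g.toFun x - cl (F (X.x k))‖ ≤ ε * ‖cl (F (X.x k))‖ := by
  have hxD := r2_D_Dp X hk hx
  have hy : X.a k x ∈ Λ := by
    rw [← r2_kept X hk hxD]; exact X.h₁.mapsTo (r2_Dp_Ω X hk hxD)
  have h1 : HasFDerivAt (X.a k) (cl (F (X.x k))) x := by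
    show HasFDerivAt (fun y => f (X.x k) + (cl (F (X.x k))) (y - X.x k)) (cl (F (X.x k))) x
    have h2 := ((cl (F (X.x k))).hasFDerivAt (x := x - X.x k)).comp x
      ((hasFDerivAt_id x).sub_const (X.x k))
    exact (h2.const_add (f (X.x k)))
  have h2 : HasFDerivAt (fun y => g.toFun y - X.a k y) (fderiv ℝ g.toFun x - cl (F (X.x k))) x :=
    hd.hasFDerivAt.sub h1
  refine h2.le_of_lip' (mul_nonneg X.hε.1.le (norm_nonneg _)) ?_
  have hnear := r2_near X hc₀ O hk hx hA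
  have hself := hnear.self_of_nhds.2
  filter_upwards [hnear, (r2_cont X k).continuousAt.eventually (X.tg.off _ hy hA)] with y h3 h4
  rw [h3.2, hself]
  have e : X.Tt.toFun (X.a k y) - X.a k y - (X.Tt.toFun (X.a k x) - X.a k x) =
      (X.Tt.toFun (X.a k y) - X.Tt.toFun (X.a k x)) - (X.a k y - X.a k x) := by abel
  rw [e]
  refine h4.trans ?_
  rw [mul_assoc]
  exact mul_le_mul_of_nonneg_left (r2_aff_lip X k y x) X.hε.1.le

/-- the good set -/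
def good (g : V → V) : Set V :=
  {x | DifferentiableAt ℝ g x} ∩ ⋃ k ∈ X.K, (X.Dp k ∩
    {x | ‖fderiv ℝ g x - cl (F (X.x k))‖ ≤ ε * ‖cl (F (X.x k))‖})

theorem good_meas (g : V → V) : MeasurableSet (good X g) := by
  refine (measurableSet_of_differentiableAt ℝ g).inter ?_
  refine MeasurableSet.biUnion (to_countable _) fun k _ => ?_
  refine (isCompact_deep v X.n _ k).isClosed.measurableSet.inter ?_
  exact measurableSet_le ((measurable_fderiv ℝ g).sub_const _).norm measurable_const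

theorem good_sub (g : V → V) : good X g ⊆ Ω := by
  rintro x ⟨-, hx⟩
  obtain ⟨k, hk, h1, -⟩ := mem_iUnion₂.1 hx
  exact r2_Dp_Ω X hk h1

theorem good_near {g : V → V} {x : V} (hx : x ∈ good X g) : ∃ k ∈ X.K,
    x ∈ deep v X.n (2 * X.c₀ k) k ∧ ∀ i, ‖fderiv ℝ g x (SQ.ev i) - cl (F (X.x k)) (SQ.ev i)‖ ≤
      ε * ‖cl (F (X.x k))‖ := by
  obtain ⟨-, hx⟩ := hx
  obtain ⟨k, hk, h1, h2⟩ := mem_iUnion₂.1 hx
  refine ⟨k, hk, h1, fun i => ?_⟩
  have h3 : ‖SQ.ev i‖ ≤ 1 := by unfold SQ.ev; rw [Pi.norm_single]; simp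
  rw [← _root_.sub_apply]
  refine ((fderiv ℝ g x - cl (F (X.x k))).le_opNorm _).trans ?_
  have h4 := norm_nonneg (fderiv ℝ g x - cl (F (X.x k)))
  have h2' : ‖fderiv ℝ g x - cl (F (X.x k))‖ ≤ ε * ‖cl (F (X.x k))‖ := h2
  nlinarith

theorem good_ae (hc₀ : c₀ ≤ 1 / 64)
    (O : OutX p D D' (1 / 2 ^ j) c₀ 0 X.ρ M X.hh.toFun X.J₀ X.J P Z Y εk g) :
    ∀ᵐ x ∂(volume : Measure V), ∀ k ∈ X.K, x ∈ X.D k → X.a k x ∉ X.Act → x ∈ good X g.toFun := by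
  filter_upwards [ae_diff X.hΩ.1 g] with x hx k hk hxD hA
  have hxp := r2_D_Dp X hk hxD
  have hd := hx (r2_Dp_Ω X hk hxp)
  exact ⟨hd, mem_iUnion₂.2 ⟨k, hk, hxp, r2_fderiv X hc₀ O hk hxD hA hd⟩⟩

end R2

end Vale.Agent.P073.H490
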