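import Vale.Agent.P073.H490.R2a
import Vale.Agent.P073.H582.E2e
import Vale.Agent.P073.H803.Mrg

/-!
# P073, block B09, [R2ASM] (b): the energy of the cells of Round 2
-/

open Set Metric Topology Filter MeasureTheory Matrix
open scoped ENNReal ContDiff

namespace Vale.Agent.P073.H490

open Vale.Agent.P073
open Vale.Agent.P073.St (V Mat)
open Vale.Agent.P073.AB (Idx Part cl)
open Vale.Agent.P073.AB.P86
open Vale.Agent.P073.H696
open Vale.Agent.P073.H73 (ctr Mesh)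
open Vale.Agent.P073.H304 (Nb mid In Out LipBd)
open Vale.Agent.P073.H194 (partMesh)
open Vale.Agent.P073.H803 (meshsum tinyT)
open Vale.Agent.P073.H851 (M3 LocLip)
open _root_.P073 (ConHomeo)
open _root_.P073.Net (dyc dyo IsTile SizeFn)

/-! ### energies -/

/-- the energy density -/
noncomputable def en (p : ℝ) (g : V → V) (x : V) : ℝ≥0∞ := ENNReal.ofReal (‖fderiv ℝ g x‖ ^ p)

theorem en_lipBd {p : ℝ} (hp0 : 0 ≤ p) {g : V → V} {Q : Set V} {G : V → ℝ} (hG : LipBd g Q G)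
    (hQ : MeasurableSet Q) (hf : volume (frontier Q) = 0) :
    ∫⁻ x in Q, en p g x ≤ ∫⁻ x in Q, ENNReal.ofReal (G x ^ p) := by
  have h1 : ∀ᵐ x ∂(volume : Measure V), x ∉ frontier Q := measure_eq_zero_iff_ae_notMem.1 hf
  refine lintegral_mono_ae ?_
  rw [ae_restrict_iff' hQ]
  filter_upwards [h1] with x hx hxQ
  have hxi : x ∈ interior Q := by
    by_contra h
    exact hx ⟨subset_closure hxQ, h⟩
  have h2 := norm_fderiv_le_of_lip (hG.nonneg x hxQ) hxi (hG.lip x hxQ)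
  unfold en
  gcongr

/-- energy of a Lipschitz map on a measurable subset -/
theorem en_lip {p : ℝ} (hp0 : 0 ≤ p) {g : V → V} {Q S : Set V} {K : ℝ} (hK : 0 ≤ K)
    (hlip : ∀ x ∈ Q, ∀ y ∈ Q, ‖g x - g y‖ ≤ K * ‖x - y‖) (hf : volume (frontier Q) = 0)
    (hS : MeasurableSet S) (hSQ : S ⊆ Q) :
    ∫⁻ x in S, en p g x ≤ ENNReal.ofReal (K ^ p) * volume S := by
  have h1 : ∀ᵐ x ∂(volume : Measure V), x ∉ frontier Q := measure_eq_zero_iff_ae_notMem.1 hf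
  rw [← setLIntegral_const]
  refine lintegral_mono_ae ?_
  rw [ae_restrict_iff' hS]
  filter_upwards [h1] with x hx hxS
  have hxQ := hSQ hxS
  have hxi : x ∈ interior Q := by
    by_contra h
    exact hx ⟨subset_closure hxQ, h⟩
  have h2 : ‖fderiv ℝ g x‖ ≤ K := by
    refine norm_fderiv_le_of_lip hK hxi ?_
    filter_upwards [self_mem_nhdsWithin] with y hy
    exact hlip y hy x hxQ
  unfold en
  gcongr

theorem meas_dyc (v : V) (r : Idx) : MeasurableSet (dyc v r.1 r.2) :=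
  (isCompact_dyc v r.1 r.2).isClosed.measurableSet

theorem eq_of_dyc_eq {Ω : Set V} {v : V} {I : Set Idx} (hI : Part Ω v I) {r c : Idx} (hr : r ∈ I)
    (hc : c ∈ I) (h : dyc v r.1 r.2 = dyc v c.1 c.2) : r = c :=
  eq_of_sub hI hr hc (by rw [h])

section R2

variable {p Cu : ℝ} {Lc : M3 → ℝ} {δ : ℝ} {j : ℕ} {ε : ℝ} {Ω Λ : Set V} {f : V → V} {F : V → Mat}
  {v : V} (X : R2 p Cu Lc δ j ε Ω Λ f F v)

/-- The output of `K3C` in Round 2, with the tolerances. `c₀`: the zone of `K3C`; `YS`: the sharp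
faces (off the solid cubes). -/
structure Res (D D' c₀ : ℝ) (YS : Set (Idx × Fin 3)) (ng : Idx → ℕ) (τ : Idx → ℝ)
    (g : ConHomeo Ω Λ) : Prop where
  geo : X.Geo ng
  D0 : 0 < D
  DD : D ≤ D'
  c64 : c₀ ≤ 1 / 64
  offS : ∀ q ∈ X.S, ∀ s ∈ YS, Disjoint (dyc v q.1 q.2) (AB.squ v s)
  ex : ∃ (hΩ : IsOpen Ω) (hI : Part Ω v (X.I₂ ng)) (εk : (partMesh hΩ hI).κ → ℝ)
    (εs : Idx × Fin 3 → ℝ) (Y : Set (partMesh hΩ hI).κ), (∀ k, 0 ≤ εk k) ∧
    (∀ k s, (partMesh hΩ hI).F k = AB.squ v s → 2 * εk k ≤ εs s) ∧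
    (∀ r ∈ X.I₂ ng, tinyT v (X.I₂ ng) p εs r ≤ ENNReal.ofReal (τ r)) ∧
    (∀ k ∈ Y, ∃ s ∈ YS, (partMesh hΩ hI).F k = AB.squ v s) ∧
    OutX p D D' (1 / 2 ^ j) c₀ 0 X.ρ (partMesh hΩ hI) X.hh.toFun X.J₀ X.J X.P X.Z Y εk g

variable {X} {D D' c₀ : ℝ} {YS : Set (Idx × Fin 3)} {ng : Idx → ℕ} {τ : Idx → ℝ}
  {g : ConHomeo Ω Λ}

/-- constant of the drawn cells -/
noncomputable def c1 (p D : ℝ) : ℝ := 2 ^ (p - 1) * D

/-- drawn cells -/
theorem Res.drawn (H : Res X D D' c₀ YS ng τ g) (hp : 1 ≤ p) {r : Idx} (hr : r ∈ X.I₂ ng)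
    (hrC : r ∉ X.C) (hN : ∀ y ∈ dyc v r.1 r.2, X.hh.toFun y ∈ Nb 0 X.J₀ (1 / 2 ^ j)) {C : ℝ}
    (hC : D' ≤ C ∨ (D ≤ C ∧ ∀ s ∈ YS, Disjoint (dyc v r.1 r.2) (AB.squ v s))) :
    ∫⁻ x in dyc v r.1 r.2, en p g.toFun x ≤
      ENNReal.ofReal (c1 p C) * (meshsum p v (X.I₂ ng) X.ℓ r + ENNReal.ofReal (τ r)) := by
  obtain ⟨hΩ, hI, εk, εs, Y, h0, h1, h2, hY, O⟩ := H.ex
  have hi : (⟨r, hr⟩ : (partMesh hΩ hI).ι) ∈ (X.Z : Set (partMesh hΩ hI).ι) := by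
    refine ⟨?_, ?_⟩
    · rintro ⟨c, hc, he⟩
      have : r = c := eq_of_dyc_eq hI hr (mem_of_C hc) he
      exact hrC (this ▸ hc)
    · rintro _ ⟨y, hy, rfl⟩
      exact hN y hy
  have hC0 : 0 ≤ C := by
    rcases hC with h | ⟨h, -⟩
    · exact H.D0.le.trans (H.DD.trans h)
    · exact H.D0.le.trans h
  have hcst : H304.Cst (partMesh hΩ hI) Y D D' (dyc v r.1 r.2) C := by
    rcases hC with h | ⟨h, h3⟩
    · exact Or.inl h
    · refine Or.inr ⟨h, fun k hk => ?_⟩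
      obtain ⟨s, hs, hks⟩ := hY k hk
      rw [hks]
      exact (h3 s hs).symm
  obtain ⟨G, hG, hE⟩ := O.drawn (H803.dyM_part hΩ hI) hp h0 h1 hi (q := r) rfl hC0 hcst
  refine (en_lipBd (by linarith) hG (meas_dyc v r) (volume_frontier_dyc v _ _)).trans ?_
  refine (hE X.ℓ fun e _ _ => le_rfl).trans ?_
  unfold c1
  gcongr
  exact h2 r hr

/-- the Lipschitz constants of `Tt ∘ h₁` are positive -/
theorem r2_norm_pos (X : R2 p Cu Lc δ j ε Ω Λ f F v) {k : Idx} (hk : k ∈ X.K) :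
    0 < ‖cl (F (X.x k))‖ := by
  rw [norm_pos_iff]
  intro h
  have h1 := (X.box k hk).2.2.2.2.1
  rw [h] at h1
  apply h1
  rw [show ((0 : V →L[ℝ] V).det) = LinearMap.det ((0 : V →L[ℝ] V) : V →ₗ[ℝ] V) from rfl]
  rw [ContinuousLinearMap.toLinearMap_zero]
  rw [LinearMap.det_zero' (Pi.basisFun ℝ (Fin 3))]

/-- protected cells -/
theorem Res.prot (H : Res X D D' c₀ YS ng τ g) {t : Idx} (ht : t ∈ X.J) {k : Idx} (hκ : (X.κ t).1 = k) :
    ∀ x ∈ dyc v (X.nt t) (X.w t), ∀ y ∈ dyc v (X.nt t) (X.w t),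
      ‖g.toFun x - g.toFun y‖ ≤
        D * (Cu * Lc (Mx F X.x k) * (1 + ‖cl (F (X.x k))‖)) * ‖x - y‖ := by
  obtain ⟨hΩ, hI, εk, εs, Y, h0, h1, h2, hY, O⟩ := H.ex
  intro x hx y hy
  subst hκ
  have hc : ((X.nt t, X.w t) : Idx) ∈ X.C := ⟨t, ht, rfl⟩
  have h3 := O.prot ⟨(X.nt t, X.w t), mem_of_C hc⟩ ⟨_, hc, rfl⟩ x hx y hy
  have h4 := (specLip X).1 (X.κ t).1 (X.κ t).2 (X.nt t, X.w t) (r2_cell_Dp X ht) x hx y hy
  refine h3.trans ?_
  rw [mul_assoc]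
  exact mul_le_mul_of_nonneg_left h4 H.D0.le

/-- passive cells -/
theorem Res.pass (H : Res X D D' c₀ YS ng τ g) {r : Idx} (hr : r ∈ X.I₂ ng) (hrC : r ∉ X.C)
    (hrY : ∀ s ∈ YS, Disjoint (dyc v r.1 r.2) (AB.squ v s)) {K : ℝ} (hK : 0 < K) (hlip : ∀ r' ∈ X.I₂ ng, (dyc v r.1 r.2 ∩ dyc v r'.1 r'.2).Nonempty →
      ∀ x ∈ dyc v r'.1 r'.2, ∀ y ∈ dyc v r'.1 r'.2,
        ‖X.hh.toFun x - X.hh.toFun y‖ ≤ K * ‖x - y‖) :
    ∀ x ∈ dyc v r.1 r.2, ∀ y ∈ dyc v r.1 r.2, ‖g.toFun x - g.toFun y‖ ≤ D * K * ‖x - y‖ := by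
  obtain ⟨hΩ, hI, εk, εs, Y, h0, h1, h2, hY, O⟩ := H.ex
  have hcst : H304.Cst (partMesh hΩ hI) Y D D' (dyc v r.1 r.2) D := by
    refine Or.inr ⟨le_rfl, fun k hk => ?_⟩
    obtain ⟨s, hs, hks⟩ := hY k hk
    rw [hks]
    exact (hrY s hs).symm
  refine O.lip ?_ ⟨r, hr⟩ ?_ K hK (fun i' hne => hlip i'.1 i'.2 hne) D hcst
  · rintro t ht t' ht' ⟨u, hu, hu'⟩
    refine X.tg.nbr t ht t' ht' ⟨u, hu', u, hu, ?_⟩
    rw [sub_self, norm_zero]
    positivity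
  · rintro ⟨c, hc, he⟩
    have : r = c := eq_of_dyc_eq hI hr (mem_of_C hc) he
    exact hrC (this ▸ hc)

/-! ### the two kinds of cells in the solid cubes -/

/-- the neighbourhood of the cores, as in `Tgt.costC` -/
def CN (X : R2 p Cu Lc δ j ε Ω Λ f F v) (k : Idx) : Set V :=
  {x | x ∈ deep v X.n (3 * X.c₀ k) k ∧ Mx F X.x k *ᵥ x + bx f F X.x k ∈ X.CoreN}

/-- the points with image in `Act`, as in `Tgt.cost` -/
def AS (X : R2 p Cu Lc δ j ε Ω Λ f F v) (k : Idx) : Set V :=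
  {x | x ∈ deep v X.n (3 * X.c₀ k) k ∧ Mx F X.x k *ᵥ x + bx f F X.x k ∈ X.Act}

theorem coreN_eq (X : R2 p Cu Lc δ j ε Ω Λ f F v) (k : Idx) : X.coreN k = CN X k := by
  ext x
  show x ∈ X.D k ∧ am f F (X.x k) x ∈ X.CoreN ↔ _
  rw [am_eq]
  rfl

/-- constant of all cells -/
noncomputable def c2 (p Cu D : ℝ) : ℝ := (D * Cu) ^ p + c1 p D * (24 * 4 ^ p * Cu ^ p)

theorem c1_nonneg (hD : 0 ≤ D) : 0 ≤ c1 p D := by unfold c1; positivity

theorem c2_le1 (hCu : 0 ≤ Cu) (hD : 0 ≤ D) : (D * Cu) ^ p ≤ c2 p Cu D := by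
  unfold c2
  have := c1_nonneg (p := p) hD
  have h2 : 0 ≤ Cu ^ p := Real.rpow_nonneg hCu p
  have h4 : (0:ℝ) < 4 ^ p := by positivity
  have : 0 ≤ c1 p D * (24 * 4 ^ p * Cu ^ p) := by positivity
  linarith

theorem c2_le2 (hCu : 0 ≤ Cu) (hD : 0 ≤ D) : c1 p D * (24 * 4 ^ p * Cu ^ p) ≤ c2 p Cu D := by
  unfold c2
  have : 0 ≤ (D * Cu) ^ p := Real.rpow_nonneg (mul_nonneg hD hCu) p
  linarith

theorem c2_nonneg (hCu : 0 ≤ Cu) (hD : 0 ≤ D) : 0 ≤ c2 p Cu D :=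
  (Real.rpow_nonneg (mul_nonneg hD hCu) p).trans (c2_le1 hCu hD)

/-- energy of a cell with Lipschitz constant `D * (Cu * L)` -/
theorem lip_c2 (hCu : 0 ≤ Cu) (hD : 0 ≤ D) {L : ℝ} (hL : 0 ≤ L) (m : ℝ≥0∞) :
    ENNReal.ofReal ((D * (Cu * L)) ^ p) * m ≤
      ENNReal.ofReal (c2 p Cu D) * (ENNReal.ofReal (L ^ p) * m) := by
  have e : (D * (Cu * L)) ^ p = (D * Cu) ^ p * L ^ p := by
    rw [← mul_assoc, Real.mul_rpow (mul_nonneg hD hCu) hL]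
  rw [e, ENNReal.ofReal_mul (Real.rpow_nonneg (mul_nonneg hD hCu) p), mul_assoc]
  gcongr
  exact c2_le1 hCu hD

/-- energy of a drawn cell on which `Tt ∘ h₁` has the Lipschitz constant `Cu * L` -/
theorem mesh_c2 (hCu : 0 ≤ Cu) (hD : 0 ≤ D) {L : ℝ} (hL : 0 ≤ L) {m S : ℝ≥0∞}
    (h : S ≤ ENNReal.ofReal (24 * 4 ^ p * (Cu * L) ^ p) * m) :
    ENNReal.ofReal (c1 p D) * S ≤ ENNReal.ofReal (c2 p Cu D) * (ENNReal.ofReal (L ^ p) * m) := by
  have hc1 := c1_nonneg (p := p) hD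
  calc ENNReal.ofReal (c1 p D) * S
      ≤ ENNReal.ofReal (c1 p D) * (ENNReal.ofReal (24 * 4 ^ p * (Cu * L) ^ p) * m) := by gcongr
    _ = ENNReal.ofReal (c1 p D * (24 * 4 ^ p * Cu ^ p)) * (ENNReal.ofReal (L ^ p) * m) := by
        have h4 : (0:ℝ) < 4 ^ p := by positivity
        have h2 : 0 ≤ Cu ^ p := Real.rpow_nonneg hCu p
        have e : c1 p D * (24 * 4 ^ p * (Cu * L) ^ p) =
            c1 p D * (24 * 4 ^ p * Cu ^ p) * L ^ p := by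
          rw [Real.mul_rpow hCu hL]; ring
        rw [← mul_assoc, ← ENNReal.ofReal_mul hc1, e, ENNReal.ofReal_mul (by positivity), mul_assoc]
    _ ≤ _ := by
        gcongr
        exact c2_le2 hCu hD

/-- **cells near the cores** -/
theorem Res.core_type (H : Res X D D' c₀ YS ng τ g) (hp : 1 ≤ p) {r r' k : Idx}
    (hr : r ∈ X.I₂ ng) (hrY : ∀ s ∈ YS, Disjoint (dyc v r.1 r.2) (AB.squ v s)) (hk : k ∈ X.K) (hr' : r' ∈ X.I₂ ng) (hne : (dyc v r.1 r.2 ∩ dyc v r'.1 r'.2).Nonempty)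
    (hc : (dyc v r'.1 r'.2 ∩ X.core k).Nonempty) :
    dyc v r.1 r.2 ⊆ CN X k ∧ ∫⁻ x in dyc v r.1 r.2, en p g.toFun x ≤
      ENNReal.ofReal (c2 p Cu D) * (X.W ⟨k, hk⟩ * volume (dyc v r.1 r.2)) +
        ENNReal.ofReal (c1 p D) * ENNReal.ofReal (τ r) := by
  have hp0 : 0 ≤ p := by linarith
  have hCu0 : 0 ≤ Cu := zero_le_one.trans X.hCu
  have hD0 := H.D0.le
  have hsub := H.geo.core r hr r' hr' hne k hk hc
  have hrD : dyc v r.1 r.2 ⊆ X.D k := fun x hx => (hsub hx).1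
  have hrDp := hrD.trans (r2_D_Dp X hk)
  refine ⟨(coreN_eq X k) ▸ hsub, ?_⟩
  set L : ℝ := Lc (Mx F X.x k) * (1 + ‖cl (F (X.x k))‖) with hL
  have hLc : 1 ≤ Lc (Mx F X.x k) := X.hLc _
  have hn0 := norm_nonneg (cl (F (X.x k)))
  have hL0 : 0 < L := by positivity
  have hW : ENNReal.ofReal (L ^ p) ≤ X.W ⟨k, hk⟩ := X.hW ⟨k, hk⟩
  have eL : Cu * Lc (Mx F X.x k) * (1 + ‖cl (F (X.x k))‖) = Cu * L := by rw [hL]; ring
  have hCu1 : 0 < Cu := lt_of_lt_of_le one_pos X.hCu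
  have hlip := (specLip X).1
  by_cases hrC : r ∈ X.C
  · obtain ⟨t, ht, rfl⟩ := hrC
    have hx := dyo_sub_dyc (ctr_mem_dyo v (X.nt t) (X.w t))
    have hκ := r2_cell_box X ht hx hk (dyo_sub_dyc (r2_Dp_dyo X hk (hrDp hx)))
    have h1 := H.prot ht hκ
    rw [eL] at h1
    have h2 := en_lip hp0 (by positivity) h1 (volume_frontier_dyc v _ _) (meas_dyc v (X.nt t, X.w t))
      Subset.rfl
    refine h2.trans ((lip_c2 hCu0 hD0 hL0.le _).trans ?_)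
    refine le_trans ?_ le_self_add
    gcongr
  · by_cases hN : ∀ y ∈ dyc v r.1 r.2, X.hh.toFun y ∈ Nb 0 X.J₀ (1 / 2 ^ j)
    · refine (H.drawn hp hr hrC hN (Or.inr ⟨le_rfl, hrY⟩)).trans ?_
      rw [mul_add]
      gcongr ?_ + _
      have h1 : meshsum p v (X.I₂ ng) X.ℓ r ≤
          ENNReal.ofReal (24 * 4 ^ p * (Cu * L) ^ p) * volume (dyc v r.1 r.2) :=
        H582.specLipSum hp Ω v (X.I₂ ng) X.hh.toFun (Cu * L) r X.hΩ.1 H.geo.part hr (by positivity)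
          (fun x hx y hy => by
            rw [← eL]
            exact hlip k hk r hrDp x hx y hy)
      refine (mesh_c2 hCu0 hD0 hL0.le h1).trans ?_
      gcongr
    · push Not at hN
      obtain ⟨k', hk', hall⟩ := H.geo.pas r hr hN
      have hx := dyo_sub_dyc (ctr_mem_dyo v r.1 r.2)
      have hself : dyc v r.1 r.2 ⊆ X.Dp k' := hall r hr ⟨_, hx, hx⟩
      have hkk : k' = k := r2_uniq X hk' hk (r2_Dp_dyo X hk' (hself hx))
        (dyo_sub_dyc (r2_Dp_dyo X hk (hrDp hx)))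
      subst hkk
      have h1 := H.pass hr hrC hrY (K := Cu * L) (by positivity) fun r'' hr'' hne'' x hx y hy => by
        rw [← eL]
        exact hlip k' hk r'' (hall r'' hr'' hne'') x hx y hy
      have h2 := en_lip hp0 (by positivity) h1 (volume_frontier_dyc v _ _) (meas_dyc v r)
        Subset.rfl
      refine h2.trans ((lip_c2 hCu0 hD0 hL0.le _).trans ?_)
      refine le_trans ?_ le_self_add
      gcongr

/-- **cells far from the cores** -/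
theorem Res.far_type (H : Res X D D' c₀ YS ng τ g) (hp : 1 ≤ p) {r q k : Idx}
    (hr : r ∈ X.I₂ ng) (hrY : ∀ s ∈ YS, Disjoint (dyc v r.1 r.2) (AB.squ v s))
    (hrq : dyc v r.1 r.2 ⊆ dyc v q.1 q.2) (hk : k ∈ X.K)
    (hqk : dyc v q.1 q.2 ⊆ dyc v k.1 k.2) (hno : ∀ r' ∈ X.I₂ ng,
      (dyc v r.1 r.2 ∩ dyc v r'.1 r'.2).Nonempty → ¬ (dyc v r'.1 r'.2 ∩ X.core k).Nonempty) :
    ((∫⁻ x in dyc v r.1 r.2, en p g.toFun x ≤
      ENNReal.ofReal (c1 p D) * (meshsum p v (X.I₂ ng) X.ℓ r + ENNReal.ofReal (τ r))) ∧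
      ∀ y ∈ dyc v r.1 r.2, X.hh.toFun y ∈ Nb 0 X.J₀ (1 / 2 ^ j)) ∨
    ((∀ x ∈ dyc v r.1 r.2, ∀ y ∈ dyc v r.1 r.2,
      ‖g.toFun x - g.toFun y‖ ≤ D * (Cu * ‖cl (F (X.x k))‖) * ‖x - y‖) ∧
      dyc v r.1 r.2 ⊆ X.Dp k) := by
  have hx := dyo_sub_dyc (ctr_mem_dyo v r.1 r.2)
  have hrC : r ∉ X.C := by
    rintro ⟨t, ht, rfl⟩
    have hκ := r2_cell_box X ht hx hk (hqk (hrq hx))
    exact hno _ hr ⟨_, hx, hx⟩ ⟨_, hx, r2_cell_core X ht hκ hx⟩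
  by_cases hN : ∀ y ∈ dyc v r.1 r.2, X.hh.toFun y ∈ Nb 0 X.J₀ (1 / 2 ^ j)
  · exact Or.inl ⟨H.drawn hp hr hrC hN (Or.inr ⟨le_rfl, hrY⟩), hN⟩
  · right
    push Not at hN
    obtain ⟨k', hk', hall⟩ := H.geo.pas r hr hN
    have hself : dyc v r.1 r.2 ⊆ X.Dp k' := hall r hr ⟨_, hx, hx⟩
    have hkk : k' = k := r2_uniq X hk' hk (r2_Dp_dyo X hk' (hself hx)) (hqk (hrq hx))
    subst hkk
    have hn0 := r2_norm_pos X hk
    have hCu1 : 0 < Cu := lt_of_lt_of_le one_pos X.hCu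
    refine ⟨H.pass hr hrC hrY (K := Cu * ‖cl (F (X.x k'))‖) (by positivity) fun r'' hr'' hne'' x hx y
      hy => ?_, hself⟩
    refine (specLip X).2 k' hk r'' (hall r'' hr'' hne'') ?_ x hx y hy
    rw [Set.disjoint_left]
    intro u hu hu'
    exact hno r'' hr'' hne'' ⟨u, hu, hu'⟩

theorem Res.good_ae (H : Res X D D' c₀ YS ng τ g) :
    ∀ᵐ x ∂(volume : Measure V), ∀ k ∈ X.K, x ∈ X.D k → X.a k x ∉ X.Act → x ∈ good X g.toFun := by
  obtain ⟨hΩ, hI, εk, εs, Y, h0, h1, h2, hY, O⟩ := H.ex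
  exact H490.good_ae X H.c64 O

/-- **cells in a solid cube which is in the kept set** -/
theorem Res.cell_in (H : Res X D D' c₀ YS ng τ g) (hp : 1 ≤ p) {r q k : Idx}
    (hr : r ∈ X.I₂ ng) (hq : q ∈ X.S)
    (hrq : dyc v r.1 r.2 ⊆ dyc v q.1 q.2) (hk : k ∈ X.K)
    (hqk : dyc v q.1 q.2 ⊆ dyc v k.1 k.2) (hqD : dyc v q.1 q.2 ⊆ X.D k) :
    ∫⁻ x in dyc v r.1 r.2 \ good X g.toFun, en p g.toFun x ≤
      ENNReal.ofReal (c2 p Cu D) * (X.W ⟨k, hk⟩ * volume (dyc v r.1 r.2 ∩ CN X k) +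
        ‖cl (F (X.x k))‖ₑ ^ p * volume (dyc v r.1 r.2 ∩ AS X k)) +
        ENNReal.ofReal (c1 p D) * ENNReal.ofReal (τ r) := by
  have hp0 : 0 ≤ p := by linarith
  have hrY : ∀ s ∈ YS, Disjoint (dyc v r.1 r.2) (AB.squ v s) := fun s hs =>
    (H.offS q hq s hs).mono_left hrq
  have hCu0 : 0 ≤ Cu := zero_le_one.trans X.hCu
  have hD0 := H.D0.le
  have hn0 := norm_nonneg (cl (F (X.x k)))
  by_cases hcore : ∃ r' ∈ X.I₂ ng, (dyc v r.1 r.2 ∩ dyc v r'.1 r'.2).Nonempty ∧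
      (dyc v r'.1 r'.2 ∩ X.core k).Nonempty
  · obtain ⟨r', hr', hne, hc⟩ := hcore
    obtain ⟨hsub, h1⟩ := H.core_type hp hr hrY hk hr' hne hc
    refine (lintegral_mono_set sdiff_subset).trans (h1.trans ?_)
    rw [inter_eq_left.2 hsub]
    gcongr
    exact le_self_add
  · push Not at hcore
    have hno : ∀ r' ∈ X.I₂ ng, (dyc v r.1 r.2 ∩ dyc v r'.1 r'.2).Nonempty →
        ¬ (dyc v r'.1 r'.2 ∩ X.core k).Nonempty := fun r' hr' hne =>
      Set.not_nonempty_iff_eq_empty.2 (hcore r' hr' hne)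
    have hx := dyo_sub_dyc (ctr_mem_dyo v r.1 r.2)
    have hrD := hrq.trans hqD
    have hrDp := hrD.trans (r2_D_Dp X hk)
    have hdisj : Disjoint (dyc v r.1 r.2) (X.core k) := by
      rw [Set.disjoint_left]
      intro u hu hu'
      exact hno r hr ⟨_, hx, hx⟩ ⟨u, hu, hu'⟩
    have eA : ENNReal.ofReal (‖cl (F (X.x k))‖ ^ p) = ‖cl (F (X.x k))‖ₑ ^ p := by
      rw [← ENNReal.ofReal_rpow_of_nonneg hn0 hp0, ofReal_norm]
    rcases H.far_type hp hr hrY hrq hk hqk hno with ⟨h1, hN⟩ | ⟨h1, -⟩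
    · have hAS : dyc v r.1 r.2 ⊆ AS X k := by
        intro x hx
        refine ⟨hrD hx, ?_⟩
        rw [← r2_kept' X hk (hrDp hx)]
        exact r2_Act X (X.h₁.mapsTo (r2_Dp_Ω X hk (hrDp hx)))
          ((r2_η X).2.trans (by norm_num)) (hN x hx)
      refine (lintegral_mono_set sdiff_subset).trans (h1.trans ?_)
      rw [inter_eq_left.2 hAS, mul_add]
      gcongr ?_ + _
      have h2 : meshsum p v (X.I₂ ng) X.ℓ r ≤ ENNReal.ofReal
          (24 * 4 ^ p * (Cu * ‖cl (F (X.x k))‖) ^ p) * volume (dyc v r.1 r.2) :=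
        H582.specLipSum hp Ω v (X.I₂ ng) X.hh.toFun (Cu * ‖cl (F (X.x k))‖) r X.hΩ.1 H.geo.part hr
          (by positivity) (fun x hx y hy => (specLip X).2 k hk r hrDp hdisj x hx y hy)
      refine (mesh_c2 hCu0 hD0 hn0 h2).trans ?_
      rw [eA]
      gcongr
      exact le_add_self
    · have h2 := en_lip hp0 (by positivity) h1 (volume_frontier_dyc v _ _)
        ((meas_dyc v r).diff (good_meas X g.toFun)) sdiff_subset
      refine h2.trans ?_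
      have h3 : volume (dyc v r.1 r.2 \ good X g.toFun) ≤ volume (dyc v r.1 r.2 ∩ AS X k) := by
        refine measure_mono_ae ?_
        filter_upwards [H.good_ae] with x hx hxr
        refine ⟨hxr.1, hrD hxr.1, ?_⟩
        by_contra hA
        refine hxr.2 (hx k hk (hrD hxr.1) ?_)
        have e : X.a k x = Mx F X.x k *ᵥ x + bx f F X.x k := am_eq f F X.x k x
        rwa [e]
      calc ENNReal.ofReal ((D * (Cu * ‖cl (F (X.x k))‖)) ^ p) *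
            volume (dyc v r.1 r.2 \ good X g.toFun)
          ≤ ENNReal.ofReal ((D * (Cu * ‖cl (F (X.x k))‖)) ^ p) *
            volume (dyc v r.1 r.2 ∩ AS X k) := by gcongr
        _ ≤ _ := lip_c2 hCu0 hD0 hn0 _
        _ ≤ _ := by
          rw [eA]
          refine le_trans ?_ le_self_add
          gcongr
          exact le_add_self

/-- cells in a solid cube which is in the kept set: the full energy -/
theorem Res.cell_full (H : Res X D D' c₀ YS ng τ g) (hp : 1 ≤ p) {r q k : Idx}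
    (hr : r ∈ X.I₂ ng) (hq : q ∈ X.S)
    (hrq : dyc v r.1 r.2 ⊆ dyc v q.1 q.2) (hk : k ∈ X.K)
    (hqk : dyc v q.1 q.2 ⊆ dyc v k.1 k.2) (hqD : dyc v q.1 q.2 ⊆ X.D k) :
    ∫⁻ x in dyc v r.1 r.2, en p g.toFun x ≤
      ENNReal.ofReal (c2 p Cu D) * (X.W ⟨k, hk⟩ * volume (dyc v r.1 r.2 ∩ CN X k) +
        ‖cl (F (X.x k))‖ₑ ^ p * volume (dyc v r.1 r.2)) +
        ENNReal.ofReal (c1 p D) * ENNReal.ofReal (τ r) := by
  have hp0 : 0 ≤ p := by linarith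
  have hrY : ∀ s ∈ YS, Disjoint (dyc v r.1 r.2) (AB.squ v s) := fun s hs =>
    (H.offS q hq s hs).mono_left hrq
  have hCu0 : 0 ≤ Cu := zero_le_one.trans X.hCu
  have hD0 := H.D0.le
  have hn0 := norm_nonneg (cl (F (X.x k)))
  by_cases hcore : ∃ r' ∈ X.I₂ ng, (dyc v r.1 r.2 ∩ dyc v r'.1 r'.2).Nonempty ∧
      (dyc v r'.1 r'.2 ∩ X.core k).Nonempty
  · obtain ⟨r', hr', hne, hc⟩ := hcore
    obtain ⟨hsub, h1⟩ := H.core_type hp hr hrY hk hr' hne hc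
    refine h1.trans ?_
    rw [inter_eq_left.2 hsub]
    gcongr
    exact le_self_add
  · push Not at hcore
    have hno : ∀ r' ∈ X.I₂ ng, (dyc v r.1 r.2 ∩ dyc v r'.1 r'.2).Nonempty →
        ¬ (dyc v r'.1 r'.2 ∩ X.core k).Nonempty := fun r' hr' hne =>
      Set.not_nonempty_iff_eq_empty.2 (hcore r' hr' hne)
    have hx := dyo_sub_dyc (ctr_mem_dyo v r.1 r.2)
    have hrDp := (hrq.trans hqD).trans (r2_D_Dp X hk)
    have hdisj : Disjoint (dyc v r.1 r.2) (X.core k) := by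
      rw [Set.disjoint_left]
      intro u hu hu'
      exact hno r hr ⟨_, hx, hx⟩ ⟨u, hu, hu'⟩
    have eA : ENNReal.ofReal (‖cl (F (X.x k))‖ ^ p) = ‖cl (F (X.x k))‖ₑ ^ p := by
      rw [← ENNReal.ofReal_rpow_of_nonneg hn0 hp0, ofReal_norm]
    rcases H.far_type hp hr hrY hrq hk hqk hno with ⟨h1, -⟩ | ⟨h1, -⟩
    · refine h1.trans ?_
      rw [mul_add]
      gcongr ?_ + _
      have h2 : meshsum p v (X.I₂ ng) X.ℓ r ≤ ENNReal.ofReal
          (24 * 4 ^ p * (Cu * ‖cl (F (X.x k))‖) ^ p) * volume (dyc v r.1 r.2) :=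
        H582.specLipSum hp Ω v (X.I₂ ng) X.hh.toFun (Cu * ‖cl (F (X.x k))‖) r X.hΩ.1 H.geo.part hr
          (by positivity) (fun x hx y hy => (specLip X).2 k hk r hrDp hdisj x hx y hy)
      refine (mesh_c2 hCu0 hD0 hn0 h2).trans ?_
      rw [eA]
      gcongr
      exact le_add_self
    · have h2 := en_lip hp0 (by positivity) h1 (volume_frontier_dyc v _ _) (meas_dyc v r)
        Subset.rfl
      refine h2.trans ((lip_c2 hCu0 hD0 hn0 _).trans ?_)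
      rw [eA]
      refine le_trans ?_ le_self_add
      gcongr
      exact le_add_self

/-- **cells in a solid cube** -/
theorem Res.cell_out (H : Res X D D' c₀ YS ng τ g) (hp : 1 ≤ p) {r q k : Idx}
    (hr : r ∈ X.I₂ ng) (hq : q ∈ X.S)
    (hrq : dyc v r.1 r.2 ⊆ dyc v q.1 q.2) (hk : k ∈ X.K)
    (hqk : dyc v q.1 q.2 ⊆ dyc v k.1 k.2) :
    (∫⁻ x in dyc v r.1 r.2, en p g.toFun x ≤
      ENNReal.ofReal (c2 p Cu D) * (X.W ⟨k, hk⟩ * volume (dyc v r.1 r.2 ∩ CN X k) +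
        ENNReal.ofReal (X.E k) * volume (dyc v r.1 r.2)) +
        ENNReal.ofReal (c1 p D) * ENNReal.ofReal (τ r)) ∨
    (Disjoint (dyc v r.1 r.2) (X.core k) ∧ ∫⁻ x in dyc v r.1 r.2, en p g.toFun x ≤
      ENNReal.ofReal (c1 p D) * (meshsum p v (X.I₂ ng) X.ℓ r + ENNReal.ofReal (τ r))) := by
  have hp0 : 0 ≤ p := by linarith
  have hrY : ∀ s ∈ YS, Disjoint (dyc v r.1 r.2) (AB.squ v s) := fun s hs =>
    (H.offS q hq s hs).mono_left hrq
  have hCu0 : 0 ≤ Cu := zero_le_one.trans X.hCu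
  have hD0 := H.D0.le
  have hn0 := norm_nonneg (cl (F (X.x k)))
  by_cases hcore : ∃ r' ∈ X.I₂ ng, (dyc v r.1 r.2 ∩ dyc v r'.1 r'.2).Nonempty ∧
      (dyc v r'.1 r'.2 ∩ X.core k).Nonempty
  · obtain ⟨r', hr', hne, hc⟩ := hcore
    obtain ⟨hsub, h1⟩ := H.core_type hp hr hrY hk hr' hne hc
    left
    refine h1.trans ?_
    rw [inter_eq_left.2 hsub]
    gcongr
    exact le_self_add
  · push Not at hcore
    have hno : ∀ r' ∈ X.I₂ ng, (dyc v r.1 r.2 ∩ dyc v r'.1 r'.2).Nonempty →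
        ¬ (dyc v r'.1 r'.2 ∩ X.core k).Nonempty := fun r' hr' hne =>
      Set.not_nonempty_iff_eq_empty.2 (hcore r' hr' hne)
    have hx := dyo_sub_dyc (ctr_mem_dyo v r.1 r.2)
    rcases H.far_type hp hr hrY hrq hk hqk hno with ⟨h1, hN⟩ | ⟨h1, -⟩
    · right
      refine ⟨?_, h1⟩
      rw [Set.disjoint_left]
      intro u hu hu'
      exact hno r hr ⟨_, hx, hx⟩ ⟨u, hu, hu'⟩
    · left
      have h2 := en_lip hp0 (by positivity) h1 (volume_frontier_dyc v _ _) (meas_dyc v r)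
        Subset.rfl
      refine h2.trans ((lip_c2 hCu0 hD0 hn0 _).trans ?_)
      refine le_trans ?_ le_self_add
      gcongr
      refine le_trans ?_ le_add_self
      gcongr
      exact (X.box k hk).2.2.2.2.2

end R2

end Vale.Agent.P073.H490
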