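import Mathlib

/-!
# P073, block B10, [R2F]: double sums over boxes and cubes
-/

open Set
open scoped ENNReal

namespace Vale.Agent.P073.H490

/-- a sum over cubes is at most the double sum over the boxes and the cubes in them -/
theorem tsum_box_le {Q K : Type*} {S S' : Set Q} (hS : S ⊆ S') {T : Set K} {R : K → Q → Prop}
    (hex : ∀ q ∈ S, ∃ k ∈ T, R k q) (a : Q → ℝ≥0∞) (b : K → Q → ℝ≥0∞)
    (h : ∀ q ∈ S, ∀ k ∈ T, R k q → a q ≤ b k q) :
    ∑' q : S, a q ≤ ∑' k : T, ∑' q : {q // q ∈ S' ∧ R k q}, b k q := by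
  classical
  have hex' : ∀ q : S, ∃ k, k ∈ T ∧ R k q.1 := fun q => hex q.1 q.2
  choose k hk hR using hex'
  rw [← ENNReal.tsum_sigma' (fun x : (Σ k : T, {q // q ∈ S' ∧ R k.1 q}) => b x.1.1 x.2.1)]
  have h1 : ∀ q : S, a q ≤ b (k q) q := fun q => h q.1 q.2 _ (hk q) (hR q)
  refine (ENNReal.tsum_le_tsum h1).trans ?_
  refine ENNReal.tsum_comp_le_tsum_of_injective
    (f := fun q : S => (⟨⟨k q, hk q⟩, ⟨q.1, hS q.2, hR q⟩⟩ :
      Σ k : T, {q // q ∈ S' ∧ R k.1 q})) ?_ (fun x => b x.1.1 x.2.1)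
  intro q q' he
  have e1 : ∀ (x y : Σ k : T, {q // q ∈ S' ∧ R k.1 q}), x = y → x.2.1 = y.2.1 := by
    rintro x _ rfl; rfl
  exact Subtype.ext (e1 _ _ he)

/-- the double sum of a function of the cube, when the boxes of the cubes are unique -/
theorem tsum_box_unique {Q K : Type*} {S' : Set Q} {T : Set K} {R : K → Q → Prop}
    (hu : ∀ q ∈ S', ∀ k ∈ T, ∀ k' ∈ T, R k q → R k' q → k = k') (c : Q → ℝ≥0∞) :
    ∑' k : T, ∑' q : {q // q ∈ S' ∧ R k q}, c q.1 ≤ ∑' q : S', c q := by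
  rw [← ENNReal.tsum_sigma' (fun x : (Σ k : T, {q // q ∈ S' ∧ R k.1 q}) => c x.2.1)]
  refine ENNReal.tsum_comp_le_tsum_of_injective
    (f := fun x : (Σ k : T, {q // q ∈ S' ∧ R k.1 q}) => (⟨x.2.1, x.2.2.1⟩ : S')) ?_
    (fun q => c q)
  rintro ⟨⟨k, hk⟩, ⟨q, hq⟩⟩ ⟨⟨k', hk'⟩, ⟨q', hq'⟩⟩ he
  have h1 : q = q' := congrArg Subtype.val he
  subst h1
  have h2 : k = k' := hu q hq.1 k hk k' hk' hq.2 hq'.2
  subst h2
  rfl

/-- monotonicity for subtypes -/
theorem tsum_sub_le {Q : Type*} {A B : Q → Prop} (h : ∀ q, A q → B q) (c : Q → ℝ≥0∞) :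
    ∑' q : {q // A q}, c q.1 ≤ ∑' q : {q // B q}, c q.1 :=
  ENNReal.tsum_mono_subtype c h

open scoped Classical in
/-- a restricted sum -/
theorem tsum_ite_le {Q : Type*} {A C B : Q → Prop} (h : ∀ q, A q → C q → B q) (c : Q → ℝ≥0∞) :
    ∑' q : {q // A q}, (if C q.1 then c q.1 else 0) ≤ ∑' q : {q // B q}, c q.1 := by
  have e1 := tsum_subtype {q | A q} (fun q => if C q then c q else 0)
  have e2 := tsum_subtype {q | B q} c
  refine le_trans e1.le (le_trans (ENNReal.tsum_le_tsum fun q => ?_) e2.symm.le)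
  simp only [Set.indicator_apply, Set.mem_ofPred_eq]
  by_cases ha : A q <;> by_cases hc : C q <;> by_cases hb : B q <;> simp [ha, hc, hb]
  exact absurd (h q ha hc) hb

end Vale.Agent.P073.H490
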