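import Vale.Agent.P073.H490.R2c
import Vale.Agent.P073.H490.TsumB
import Vale.Agent.P073.H239.FSpec

/-!
# P073, block B10, [R2F]: local energies and the common choice of the partition
-/

open Set Metric Topology Filter MeasureTheory Matrix
open scoped ENNReal ContDiff

namespace Vale.Agent.P073.H490

open Vale.Agent.P073
open Vale.Agent.P073.St (V Mat)
open Vale.Agent.P073.AB (Idx Part cl)
open Vale.Agent.P073.AB.P86
open Vale.Agent.P073.H696
open Vale.Agent.P073.H73 (ctr Mesh)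
open Vale.Agent.P073.H304 (Nb mid In Out LipBd K3C)
open Vale.Agent.P073.H194 (partMesh cellT interior_dyc)
open Vale.Agent.P073.H239 (eP eB enP enX)
open Vale.Agent.P073.H212 (SharpOut3)
open Vale.Agent.P073.H803 (meshsum tinyT)
open Vale.Agent.P073.H851 (M3 LocLip)
open _root_.P073 (ConHomeo)
open _root_.P073.Net (dyc dyo IsTile SizeFn)

theorem nb_mono {w : V} {J : Set Idx} {c c' : ℝ} (h : c' ≤ c) : Nb w J c' ⊆ Nb w J c := by
  rintro y ⟨t, ht, x, hx, hyx⟩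
  refine ⟨t, ht, x, hx, hyx.trans ?_⟩
  gcongr

/-- the input of `K3C` for a smaller zone and a larger `δ` -/
theorem in_mono {Ω Λ : Set V} {η δ δ' c₀ c₀' : ℝ} {v w : V} {ρ : V → ℝ} {M : Mesh Ω} {h : V → V}
    {J₀ J : Set Idx} {P Z : Set M.ι} (H : In (Λ := Λ) η δ c₀ v w ρ M h J₀ J P Z)
    (hc : c₀' ≤ c₀) (hδ : δ ≤ δ') : In (Λ := Λ) η δ' c₀' v w ρ M h J₀ J P Z where
  tile := H.tile
  sub := H.sub
  nbr := H.nbr
  prot := H.prot
  surj := H.surj
  cube := fun i hi hne => H.cube i hi (hne.mono (inter_subset_inter_right _ (nb_mono hc)))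
  small := fun i hi t ht hne x hx y hy =>
    (H.small i hi t ht (hne.mono (inter_subset_inter_right _ (nb_mono hc))) x hx y hy).trans
      (by gcongr)
  face := fun k hne => H.face k (hne.mono (inter_subset_inter_right _ (nb_mono hc)))
  drawn := H.drawn

section R2

variable {p Cu : ℝ} {Lc : M3 → ℝ} {δ : ℝ} {j : ℕ} {ε : ℝ} {Ω Λ : Set V} {f : V → V} {F : V → Mat}
  {v : V} {X : R2 p Cu Lc δ j ε Ω Λ f F v} {D D' c₀ : ℝ} {YS : Set (Idx × Fin 3)}
  {ng : Idx → ℕ} {τ : Idx → ℝ} {g : ConHomeo Ω Λ}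

/-- the full energy of a solid cube in the kept set -/
theorem Res.sub_full (H : Res X D D' c₀ YS ng τ g) (hp : 1 ≤ p) {q k : Idx} (hq : q ∈ X.S)
    (hk : k ∈ X.K) (hqk : dyc v q.1 q.2 ⊆ dyc v k.1 k.2) (hqD : dyc v q.1 q.2 ⊆ X.D k) :
    ∫⁻ x in dyc v q.1 q.2, en p g.toFun x ≤
      ENNReal.ofReal (c2 p Cu D) * (X.W ⟨k, hk⟩ * volume (dyc v q.1 q.2 ∩ CN X k) +
        ‖cl (F (X.x k))‖ₑ ^ p * volume (dyc v q.1 q.2)) +
        ENNReal.ofReal (c1 p D) * TT X ng τ q := by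
  have h0 := lint_in2 H.geo hq ∅ (en p g.toFun)
  simp only [sdiff_empty] at h0
  refine h0.trans ?_
  refine (ENNReal.tsum_le_tsum fun r => H.cell_full hp r.2.1 hq r.2.2 hk hqk hqD).trans ?_
  rw [ENNReal.tsum_add, ENNReal.tsum_mul_left, ENNReal.tsum_add, ENNReal.tsum_mul_left,
    ENNReal.tsum_mul_left, ENNReal.tsum_mul_left]
  unfold TT
  have h1 := tsum_in2_vol H.geo q (CN X k)
  have h2 := tsum_in2_vol H.geo q univ
  simp only [inter_univ] at h2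
  gcongr

/-- the full energy of a solid cube which is not in the kept set -/
theorem Res.sub_out' (H : Res X D D' c₀ YS ng τ g) (hp : 1 ≤ p) {q k : Idx} (hq : q ∈ X.S)
    (hk : k ∈ X.K) (hqk : dyc v q.1 q.2 ⊆ dyc v k.1 k.2) {B : ℝ≥0∞}
    (hB : ∑' r : {r : Idx // r ∈ X.I₂ ng ∧ dyc v r.1 r.2 ⊆ dyc v q.1 q.2 ∧
        Disjoint (dyc v r.1 r.2) (X.core k)}, meshsum p v (X.I₂ ng) X.ℓ r.1 ≤ B) :
    ∫⁻ x in dyc v q.1 q.2, en p g.toFun x ≤
      ENNReal.ofReal (c2 p Cu D) * (X.W ⟨k, hk⟩ * volume (dyc v q.1 q.2 ∩ CN X k) +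
        ENNReal.ofReal (X.E k) * volume (dyc v q.1 q.2)) +
        ENNReal.ofReal (c1 p D) * TT X ng τ q + ENNReal.ofReal (c1 p D) * B := by
  classical
  have h0 := lint_in2 H.geo hq ∅ (en p g.toFun)
  simp only [sdiff_empty] at h0
  refine h0.trans ?_
  have key : ∀ r : In2 X ng q, ∫⁻ x in dyc v r.1.1 r.1.2, en p g.toFun x ≤
      (ENNReal.ofReal (c2 p Cu D) * (X.W ⟨k, hk⟩ * volume (dyc v r.1.1 r.1.2 ∩ CN X k) +
        ENNReal.ofReal (X.E k) * volume (dyc v r.1.1 r.1.2 ∩ univ)) +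
        ENNReal.ofReal (c1 p D) * ENNReal.ofReal (τ r.1)) +
      ENNReal.ofReal (c1 p D) * (if Disjoint (dyc v r.1.1 r.1.2) (X.core k) then
        meshsum p v (X.I₂ ng) X.ℓ r.1 else 0) := by
    intro r
    rw [inter_univ]
    rcases H.cell_out hp r.2.1 hq r.2.2 hk hqk with h | ⟨h0, h⟩
    · exact h.trans le_self_add
    · refine h.trans ?_
      rw [if_pos h0, mul_add, add_comm]
      gcongr
      exact le_add_self
  refine (ENNReal.tsum_le_tsum key).trans ?_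
  rw [ENNReal.tsum_add, ENNReal.tsum_add, ENNReal.tsum_mul_left, ENNReal.tsum_add,
    ENNReal.tsum_mul_left, ENNReal.tsum_mul_left, ENNReal.tsum_mul_left, ENNReal.tsum_mul_left]
  unfold TT
  have h1 := tsum_in2_vol H.geo q (CN X k)
  have h2 := tsum_in2_vol H.geo q univ
  simp only [inter_univ] at h2 ⊢
  have h3 : ∑' r : In2 X ng q, (if Disjoint (dyc v r.1.1 r.1.2) (X.core k) then
      meshsum p v (X.I₂ ng) X.ℓ r.1 else 0) ≤ B := by
    exact le_trans (le_of_eq (tsum_ite_sub (A := fun r => r ∈ X.I₂ ng)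
      (B := fun r => dyc v r.1 r.2 ⊆ dyc v q.1 q.2)
      (C := fun r => Disjoint (dyc v r.1 r.2) (X.core k)) (meshsum p v (X.I₂ ng) X.ℓ))) hB
  gcongr

/-- the cubes outside of the kept set miss the deep set -/
theorem sub_deep4 (X : R2 p Cu Lc δ j ε Ω Λ f F v) {q k : Idx} (hq : q ∈ X.S) (hk : k ∈ X.K)
    (hqk : dyc v q.1 q.2 ⊆ dyc v k.1 k.2) (hqD : ¬ dyc v q.1 q.2 ⊆ X.D k) :
    dyc v q.1 q.2 \ deep v X.n (4 * X.c₀ k) k = dyc v q.1 q.2 := by
  refine sdiff_eq_left.2 ?_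
  rw [Set.disjoint_left]
  intro y hy hd
  refine hqD fun u hu => ?_
  obtain ⟨z, hz, hyz⟩ := mem_iUnion₂.1 hd
  refine mem_iUnion₂.2 ⟨z, hz, ?_⟩
  rw [mem_closedBall, dist_eq_norm] at hyz ⊢
  have h1 := (_root_.P073.Net.NC.dist_le hu hy).trans (X.szS k hk q hq hqk)
  have h2 := norm_add_le (u - y) (y - ctr v (X.n k) z)
  rw [sub_add_sub_cancel] at h2
  have e1 : (1 - 2 * (4 * X.c₀ k)) / 2 / 2 ^ X.n k =
      1 / 2 / 2 ^ X.n k - 4 * (X.c₀ k / 2 ^ X.n k) := by ring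
  have e2 : (1 - 2 * (3 * X.c₀ k)) / 2 / 2 ^ X.n k =
      1 / 2 / 2 ^ X.n k - 3 * (X.c₀ k / 2 ^ X.n k) := by ring
  rw [e1] at hyz
  rw [e2]
  linarith

/-- the bound of the energy of the solid cube `q` in the box `k` -/
noncomputable def bq (X : R2 p Cu Lc δ j ε Ω Λ f F v) (D : ℝ) (ng : Idx → ℕ) (τ τ' : Idx → ℝ)
    (k : {k // k ∈ X.K}) (q : Idx) : ℝ≥0∞ :=
  ENNReal.ofReal (2 * c2 p Cu D) * (X.W k * volume (dyc v q.1 q.2 ∩ CN X k.1) +
    ‖cl (F (X.x k.1))‖ₑ ^ p * volume (dyc v q.1 q.2 ∩ dyc v k.1.1 k.1.2) +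
    ENNReal.ofReal (X.E k.1) * volume (dyc v q.1 q.2 \ deep v X.n (4 * X.c₀ k.1) k.1) +
    ENNReal.ofReal (τ' q)) + ENNReal.ofReal (c1 p D) * TT X ng τ q

/-- **the full energy of a solid cube** -/
theorem Res.solid' (H : Res X D D' c₀ YS ng τ g) (hp : 1 ≤ p) {q : Idx} (hq : q ∈ X.S)
    {τ' : Idx → ℝ}
    (h2 : ∀ k ∈ X.K, ∀ q ∈ X.S, dyc v q.1 q.2 ⊆ dyc v k.1 k.2 → ¬ dyc v q.1 q.2 ⊆ X.D k →
      ∑' r : {r : Idx // r ∈ X.I₂ ng ∧ dyc v r.1 r.2 ⊆ dyc v q.1 q.2 ∧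
        Disjoint (dyc v r.1 r.2) (X.core k)}, meshsum p v (X.I₂ ng) X.ℓ r.1 ≤
      ENNReal.ofReal (24 * 4 ^ p * Cu ^ p) * (ENNReal.ofReal (X.E k) * volume (dyc v q.1 q.2) +
        ENNReal.ofReal (τ' q))) {k : Idx} (hk : k ∈ X.K)
    (hqk : dyc v q.1 q.2 ⊆ dyc v k.1 k.2) :
    ∫⁻ x in dyc v q.1 q.2, en p g.toFun x ≤ bq X D ng τ τ' ⟨k, hk⟩ q := by
  have hCu0 : 0 ≤ Cu := zero_le_one.trans X.hCu
  have hD0 := H.D0.le
  have hc20 := c2_nonneg (p := p) hCu0 hD0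
  have h22 : ENNReal.ofReal (2 * c2 p Cu D) =
      ENNReal.ofReal (c2 p Cu D) + ENNReal.ofReal (c2 p Cu D) := by
    rw [two_mul, ENNReal.ofReal_add hc20 hc20]
  have hc : ENNReal.ofReal (c2 p Cu D) ≤ ENNReal.ofReal (2 * c2 p Cu D) :=
    ENNReal.ofReal_le_ofReal (by linarith)
  unfold bq
  rw [inter_eq_left.2 hqk]
  by_cases hqD : dyc v q.1 q.2 ⊆ X.D k
  · refine (H.sub_full hp hq hk hqk hqD).trans ?_
    refine add_le_add (mul_le_mul' hc ?_) le_rfl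
    rw [add_assoc]
    exact le_self_add
  · refine (H.sub_out' hp hq hk hqk (h2 k hk q hq hqk hqD)).trans ?_
    rw [sub_deep4 X hq hk hqk hqD]
    have h3 : ENNReal.ofReal (c1 p D) * (ENNReal.ofReal (24 * 4 ^ p * Cu ^ p) *
        (ENNReal.ofReal (X.E k) * volume (dyc v q.1 q.2) + ENNReal.ofReal (τ' q))) ≤
        ENNReal.ofReal (c2 p Cu D) *
          (ENNReal.ofReal (X.E k) * volume (dyc v q.1 q.2) + ENNReal.ofReal (τ' q)) := by
      rw [← mul_assoc, ← ENNReal.ofReal_mul (c1_nonneg hD0)]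
      gcongr
      exact c2_le2 hCu0 hD0
    set w := X.W ⟨k, hk⟩ * volume (dyc v q.1 q.2 ∩ CN X k) with hw
    set e := ENNReal.ofReal (X.E k) * volume (dyc v q.1 q.2) with he
    set a := ‖cl (F (X.x k))‖ₑ ^ p * volume (dyc v q.1 q.2) with ha
    set t := ENNReal.ofReal (τ' q) with ht
    set c := ENNReal.ofReal (c2 p Cu D) with hcc
    calc c * (w + e) + ENNReal.ofReal (c1 p D) * TT X ng τ q +
          ENNReal.ofReal (c1 p D) * (ENNReal.ofReal (24 * 4 ^ p * Cu ^ p) * (e + t))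
        ≤ c * (w + a + e + t) + ENNReal.ofReal (c1 p D) * TT X ng τ q + c * (w + a + e + t) := by
          refine add_le_add (add_le_add (mul_le_mul' le_rfl ?_) le_rfl)
            (h3.trans (mul_le_mul' le_rfl ?_))
          · calc w + e ≤ w + e + (a + t) := le_self_add
              _ = w + a + e + t := by ring
          · calc e + t ≤ e + t + (w + a) := le_self_add
              _ = w + a + e + t := by ring
      _ = ENNReal.ofReal (2 * c2 p Cu D) * (w + a + e + t) +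
          ENNReal.ofReal (c1 p D) * TT X ng τ q := by
          rw [h22, add_mul]
          ring

/-- constant of the local energies -/
noncomputable def kf (p Cu D : ℝ) : ℝ :=
  2 ^ (p - 1) * (16 * 4 ^ p * Cu ^ p) + 6 * (c2 p Cu D + c1 p D) / D

/-- **local energies** -/
theorem Res.local (H : Res X D D' c₀ YS ng τ g) (hp : 1 ≤ p) {τ' : Idx → ℝ}
    (h1 : ∀ q ∈ X.I₁ \ X.S, meshsum p v (X.I₂ ng) X.ℓ q ≤ ENNReal.ofReal (16 * 4 ^ p * Cu ^ p) *
      (ENNReal.ofReal (X.Eq q) * (cellT v X.I₁ univ X.H q + nSq v X.I₁ q * X.tol q)))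
    (h2 : ∀ k ∈ X.K, ∀ q ∈ X.S, dyc v q.1 q.2 ⊆ dyc v k.1 k.2 → ¬ dyc v q.1 q.2 ⊆ X.D k →
      ∑' r : {r : Idx // r ∈ X.I₂ ng ∧ dyc v r.1 r.2 ⊆ dyc v q.1 q.2 ∧
        Disjoint (dyc v r.1 r.2) (X.core k)}, meshsum p v (X.I₂ ng) X.ℓ r.1 ≤
      ENNReal.ofReal (24 * 4 ^ p * Cu ^ p) * (ENNReal.ofReal (X.E k) * volume (dyc v q.1 q.2) +
        ENNReal.ofReal (τ' q)))
    (hτ : ∑' r : Idx, ENNReal.ofReal (τ r) ≤ ENNReal.ofReal (ε * (D / D')))
    (hτ' : ∑' r : Idx, ENNReal.ofReal (τ' r) ≤ ENNReal.ofReal ε) (A : Set V) :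
    ∫⁻ x in Ω ∩ A, en p g.toFun x ≤ ENNReal.ofReal (kf p Cu D * D) * enX X A +
      ENNReal.ofReal (kf p Cu D * D') * enP X (⋃ s ∈ YS, AB.squ v s) +
      ENNReal.ofReal (kf p Cu D * D * (2 * ε)) := by
  classical
  have hCu0 : 0 ≤ Cu := zero_le_one.trans X.hCu
  have hD := H.D0
  have hD0 := H.D0.le
  have hD' : 0 < D' := hD.trans_le H.DD
  have hε := X.hε.1
  have hc10 := c1_nonneg (p := p) hD0
  have hc10' := c1_nonneg (p := p) hD'.le
  have hc20 := c2_nonneg (p := p) hCu0 hD0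
  have hCp : 0 ≤ Cu ^ p := Real.rpow_nonneg hCu0 p
  have h4p : (0:ℝ) < 4 ^ p := by positivity
  have h2p : (0:ℝ) < 2 ^ (p - 1) := by positivity
  have hadm := adm_of_geo H.geo
  set YY : Set V := ⋃ s ∈ YS, AB.squ v s with hYY
  have hfrac : D / D' ≤ 1 := by rw [div_le_one hD']; exact H.DD
  have hτ1 : ∑' r : Idx, ENNReal.ofReal (τ r) ≤ ENNReal.ofReal ε :=
    hτ.trans (ENNReal.ofReal_le_ofReal (by nlinarith))
  -- numbers
  have n1 : c1 p D * (16 * 4 ^ p * Cu ^ p) ≤ kf p Cu D * D := by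
    unfold kf c1
    have : 0 ≤ 6 * (c2 p Cu D + 2 ^ (p - 1) * D) / D := by positivity
    nlinarith
  have n2 : c1 p D' * (16 * 4 ^ p * Cu ^ p) ≤ kf p Cu D * D' := by
    unfold kf c1
    have : 0 ≤ 6 * (c2 p Cu D + 2 ^ (p - 1) * D) / D := by positivity
    nlinarith
  have n3 : 6 * (c2 p Cu D + c1 p D) ≤ kf p Cu D * D := by
    unfold kf
    rw [add_mul, div_mul_cancel₀ _ hD.ne']
    have : 0 ≤ 2 ^ (p - 1) * (16 * 4 ^ p * Cu ^ p) * D := by positivity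
    linarith
  -- the cover
  have hcov : ∫⁻ x in Ω ∩ A, en p g.toFun x ≤
      ∑' q : {q : Idx // q ∈ X.I₁ ∧ (dyc v q.1 q.2 ∩ A).Nonempty},
        ∫⁻ x in dyc v q.1.1 q.1.2, en p g.toFun x := by
    calc ∫⁻ x in Ω ∩ A, en p g.toFun x
        ≤ ∫⁻ x in ⋃ q : {q : Idx // q ∈ X.I₁ ∧ (dyc v q.1 q.2 ∩ A).Nonempty},
            dyc v q.1.1 q.1.2, en p g.toFun x := by
          refine lintegral_mono_set fun x hx => ?_
          obtain ⟨q, hq, hxq⟩ := X.st.part.cover x hx.1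
          exact mem_iUnion.2 ⟨⟨q, hq, x, hxq, hx.2⟩, hxq⟩
      _ ≤ _ := lintegral_iUnion_le _ _
  -- passive cubes
  have hpas : ∑' q : {q : Idx // q ∈ X.I₁ \ X.S ∧ (dyc v q.1 q.2 ∩ A).Nonempty},
      ∫⁻ x in dyc v q.1.1 q.1.2, en p g.toFun x ≤
      ENNReal.ofReal (kf p Cu D * D) * enP X A + ENNReal.ofReal (kf p Cu D * D') * enP X YY +
        ENNReal.ofReal (c1 p D * ε) := by
    have hc : ∀ q : {q : Idx // q ∈ X.I₁ \ X.S ∧ (dyc v q.1 q.2 ∩ A).Nonempty},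
        ∫⁻ x in dyc v q.1.1 q.1.2, en p g.toFun x ≤
        ENNReal.ofReal (kf p Cu D * D) * eP X q.1 + ENNReal.ofReal (kf p Cu D * D') *
          (if (dyc v q.1.1 q.1.2 ∩ YY).Nonempty then eP X q.1 else 0) +
        ENNReal.ofReal (c1 p D') * ENNReal.ofReal (τ q.1) := by
      rintro ⟨q, hq, -⟩
      have hdr : ∀ {C : ℝ}, 0 ≤ c1 p C → (D' ≤ C ∨ (D ≤ C ∧ ∀ s ∈ YS,
          Disjoint (dyc v q.1 q.2) (AB.squ v s))) → ∫⁻ x in dyc v q.1 q.2, en p g.toFun x ≤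
          ENNReal.ofReal (c1 p C * (16 * 4 ^ p * Cu ^ p)) * eP X q +
            ENNReal.ofReal (c1 p C) * ENNReal.ofReal (τ q) := by
        intro C hC0 hC
        refine (H.drawn hp (r := q) (Or.inl (Or.inl hq))
          (fun hc => hadm.notMem_of_C X.st.part hc hq)
          (fun y hy => (H.geo.off q hq y hy).2) hC).trans ?_
        rw [mul_add, ENNReal.ofReal_mul hC0, mul_assoc]
        gcongr
        exact h1 q hq
      by_cases hY : (dyc v q.1 q.2 ∩ YY).Nonempty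
      · refine (hdr hc10' (Or.inl le_rfl)).trans ?_
        rw [if_pos hY]
        refine add_le_add (le_trans ?_ le_add_self) le_rfl
        exact mul_le_mul' (ENNReal.ofReal_le_ofReal n2) le_rfl
      · refine (hdr hc10 (Or.inr ⟨le_rfl, fun s hs => ?_⟩)).trans ?_
        · rw [Set.disjoint_left]
          intro x hx hxs
          exact hY ⟨x, hx, mem_iUnion₂.2 ⟨s, hs, hxs⟩⟩
        · refine add_le_add (le_trans ?_ le_self_add) (mul_le_mul' ?_ le_rfl)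
          · exact mul_le_mul' (ENNReal.ofReal_le_ofReal n1) le_rfl
          · refine ENNReal.ofReal_le_ofReal ?_
            unfold c1
            have := H.DD
            gcongr
    refine (ENNReal.tsum_le_tsum hc).trans ?_
    rw [ENNReal.tsum_add, ENNReal.tsum_add, ENNReal.tsum_mul_left, ENNReal.tsum_mul_left,
      ENNReal.tsum_mul_left]
    refine add_le_add (add_le_add le_rfl (mul_le_mul' le_rfl ?_)) ?_
    · exact tsum_ite_le (A := fun q : Idx => q ∈ X.I₁ \ X.S ∧ (dyc v q.1 q.2 ∩ A).Nonempty)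
        (C := fun q : Idx => (dyc v q.1 q.2 ∩ YY).Nonempty)
        (B := fun q : Idx => q ∈ X.I₁ \ X.S ∧ (dyc v q.1 q.2 ∩ YY).Nonempty)
        (fun q h1 h2 => ⟨h1.1, h2⟩) (eP X)
    · have h5 : ∑' q : {q : Idx // q ∈ X.I₁ \ X.S ∧ (dyc v q.1 q.2 ∩ A).Nonempty},
          ENNReal.ofReal (τ q.1) ≤ ENNReal.ofReal (ε * (D / D')) :=
        (ENNReal.tsum_comp_le_tsum_of_injective Subtype.val_injective
          (fun r : Idx => ENNReal.ofReal (τ r))).trans hτ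
      refine (mul_le_mul' le_rfl h5).trans ?_
      rw [← ENNReal.ofReal_mul hc10']
      refine ENNReal.ofReal_le_ofReal (le_of_eq ?_)
      unfold c1
      field_simp
  -- solid cubes
  have hsol : ∑' q : {q : Idx // q ∈ X.S ∧ (dyc v q.1 q.2 ∩ A).Nonempty},
      ∫⁻ x in dyc v q.1.1 q.1.2, en p g.toFun x ≤
      ENNReal.ofReal (2 * c2 p Cu D) * (ENNReal.ofReal ε +
        (∑' k : {k : Idx // k ∈ X.K ∧ (dyc v k.1 k.2 ∩ A).Nonempty}, eB X k.1) +
        ENNReal.ofReal ε) + ENNReal.ofReal (c1 p D) * ENNReal.ofReal ε := by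
    set T : Set {k // k ∈ X.K} := {k | (dyc v k.1.1 k.1.2 ∩ A).Nonempty} with hT
    set R : {k // k ∈ X.K} → Idx → Prop := fun k q => dyc v q.1 q.2 ⊆ dyc v k.1.1 k.1.2 with hR
    have b1 : ∑' q : {q : Idx // q ∈ X.S ∧ (dyc v q.1 q.2 ∩ A).Nonempty},
        ∫⁻ x in dyc v q.1.1 q.1.2, en p g.toFun x ≤
        ∑' k : T, ∑' q : {q // q ∈ X.S ∧ R k.1 q}, bq X D ng τ τ' k.1 q.1 := by
      refine tsum_box_le (S := {q : Idx | q ∈ X.S ∧ (dyc v q.1 q.2 ∩ A).Nonempty}) (S' := X.S)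
        (T := T) (R := R) (fun q hq => hq.1) ?_ (fun q => ∫⁻ x in dyc v q.1 q.2, en p g.toFun x)
        (fun k q => bq X D ng τ τ' k q) ?_
      · rintro q ⟨hq, x, hx, hxA⟩
        obtain ⟨k, hk, hqk⟩ := X.st.inBox q hq
        exact ⟨⟨k, hk⟩, ⟨x, hqk hx, hxA⟩, hqk⟩
      · rintro q ⟨hq, -⟩ k hk hqk
        exact H.solid' hp hq h2 k.2 hqk
    have hv : ∀ (k : {k // k ∈ X.K}) (E : Set V), ∑' q : {q // q ∈ X.S ∧ R k q},
        volume (dyc v q.1.1 q.1.2 ∩ E) ≤ volume E := fun k E =>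
      tsum_vol_le X.st.part (c := fun q : {q // q ∈ X.S ∧ R k q} => q.1)
        Subtype.val_injective (fun q => X.st.sub q.2.1) E
    have b2 : ∀ k : T, ∑' q : {q // q ∈ X.S ∧ R k.1 q}, bq X D ng τ τ' k.1 q.1 ≤
        ENNReal.ofReal (2 * c2 p Cu D) * (X.W k.1 * volume (CN X k.1.1) + eB X k.1.1 +
          ∑' q : {q // q ∈ X.S ∧ R k.1 q}, ENNReal.ofReal (τ' q.1)) +
        ENNReal.ofReal (c1 p D) * ∑' q : {q // q ∈ X.S ∧ R k.1 q}, TT X ng τ q.1 := by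
      intro k
      unfold bq
      rw [ENNReal.tsum_add, ENNReal.tsum_mul_left, ENNReal.tsum_add, ENNReal.tsum_add,
        ENNReal.tsum_add, ENNReal.tsum_mul_left, ENNReal.tsum_mul_left, ENNReal.tsum_mul_left,
        ENNReal.tsum_mul_left]
      refine add_le_add (mul_le_mul' le_rfl (add_le_add ?_ le_rfl)) le_rfl
      rw [add_assoc]
      refine add_le_add (mul_le_mul' le_rfl (hv k.1 _)) ?_
      rw [add_comm]
      refine add_le_add (mul_le_mul' le_rfl ?_) (mul_le_mul' le_rfl (hv k.1 _))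
      refine le_trans (ENNReal.tsum_le_tsum fun q => measure_mono ?_) (hv k.1 (UU X k.1.1))
      exact fun y hy => ⟨hy.1, mem_iUnion₂.2 ⟨q.1, ⟨q.2.1, q.2.2⟩, hy.1⟩, hy.2⟩
    refine b1.trans ((ENNReal.tsum_le_tsum b2).trans ?_)
    rw [ENNReal.tsum_add, ENNReal.tsum_mul_left, ENNReal.tsum_mul_left, ENNReal.tsum_add,
      ENNReal.tsum_add]
    have b3 : ∑' k : T, X.W k.1 * volume (CN X k.1.1) ≤ ENNReal.ofReal ε :=
      (ENNReal.tsum_comp_le_tsum_of_injective Subtype.val_injective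
        (fun k : {k // k ∈ X.K} => X.W k * volume (CN X k.1))).trans X.tg.costC
    have b4 : ∑' k : T, eB X k.1.1 ≤
        ∑' k : {k : Idx // k ∈ X.K ∧ (dyc v k.1 k.2 ∩ A).Nonempty}, eB X k.1 := by
      refine ENNReal.tsum_comp_le_tsum_of_injective
        (f := fun k : T => (⟨k.1.1, k.1.2, k.2⟩ :
          {k : Idx // k ∈ X.K ∧ (dyc v k.1 k.2 ∩ A).Nonempty})) ?_ (fun k => eB X k.1)
      intro k k' he
      have h1 := congrArg Subtype.val he
      exact Subtype.ext (Subtype.ext h1)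
    have hu : ∀ q ∈ X.S, ∀ k ∈ T, ∀ k' ∈ T, R k q → R k' q → k = k' :=
      fun q _ k _ k' _ h h' => Subtype.ext (r2_uniq' X k.2 k'.2 h h')
    have b5 : ∑' k : T, ∑' q : {q // q ∈ X.S ∧ R k.1 q}, ENNReal.ofReal (τ' q.1) ≤
        ENNReal.ofReal ε :=
      (tsum_box_unique hu (fun q => ENNReal.ofReal (τ' q))).trans
        ((ENNReal.tsum_comp_le_tsum_of_injective Subtype.val_injective
          (fun r : Idx => ENNReal.ofReal (τ' r))).trans hτ')
    have b6 : ∑' k : T, ∑' q : {q // q ∈ X.S ∧ R k.1 q}, TT X ng τ q.1 ≤ ENNReal.ofReal ε :=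
      (tsum_box_unique hu (TT X ng τ)).trans ((tsum_TT X ng τ).trans hτ1)
    gcongr
  -- everything
  have hsplit : ∑' q : {q : Idx // q ∈ X.I₁ ∧ (dyc v q.1 q.2 ∩ A).Nonempty},
      ∫⁻ x in dyc v q.1.1 q.1.2, en p g.toFun x ≤
      (∑' q : {q : Idx // q ∈ X.I₁ \ X.S ∧ (dyc v q.1 q.2 ∩ A).Nonempty},
        ∫⁻ x in dyc v q.1.1 q.1.2, en p g.toFun x) +
      ∑' q : {q : Idx // q ∈ X.S ∧ (dyc v q.1 q.2 ∩ A).Nonempty},
        ∫⁻ x in dyc v q.1.1 q.1.2, en p g.toFun x := by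
    refine (tsum_sub_le (A := fun q : Idx => q ∈ X.I₁ ∧ (dyc v q.1 q.2 ∩ A).Nonempty)
      (B := fun q : Idx => q ∈ ({q : Idx | q ∈ X.I₁ \ X.S ∧ (dyc v q.1 q.2 ∩ A).Nonempty} ∪
        {q : Idx | q ∈ X.S ∧ (dyc v q.1 q.2 ∩ A).Nonempty} : Set Idx)) (fun q hq => ?_)
      (fun q => ∫⁻ x in dyc v q.1 q.2, en p g.toFun x)).trans
      (ENNReal.tsum_union_le (fun q : Idx => ∫⁻ x in dyc v q.1 q.2, en p g.toFun x) _ _)
    by_cases h : q ∈ X.S
    · exact Or.inr ⟨h, hq.2⟩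
    · exact Or.inl ⟨⟨hq.1, h⟩, hq.2⟩
  refine hcov.trans (hsplit.trans ((add_le_add hpas hsol).trans ?_))
  set EB := ∑' k : {k : Idx // k ∈ X.K ∧ (dyc v k.1 k.2 ∩ A).Nonempty}, eB X k.1 with hEB
  have hX : enX X A = enP X A + EB := rfl
  rw [hX]
  have m1 : ENNReal.ofReal (2 * c2 p Cu D) ≤ ENNReal.ofReal (kf p Cu D * D) :=
    ENNReal.ofReal_le_ofReal (by linarith)
  have m2 : ENNReal.ofReal (c1 p D * ε) + ENNReal.ofReal (2 * c2 p Cu D) *
      (ENNReal.ofReal ε + ENNReal.ofReal ε) + ENNReal.ofReal (c1 p D) * ENNReal.ofReal ε ≤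
      ENNReal.ofReal (kf p Cu D * D * (2 * ε)) := by
    rw [← ENNReal.ofReal_add hε.le hε.le, ← ENNReal.ofReal_mul (by positivity),
      ← ENNReal.ofReal_mul hc10, ← ENNReal.ofReal_add (by positivity) (by positivity),
      ← ENNReal.ofReal_add (by positivity) (by positivity)]
    refine ENNReal.ofReal_le_ofReal ?_
    nlinarith
  calc _ = ENNReal.ofReal (kf p Cu D * D) * enP X A + ENNReal.ofReal (kf p Cu D * D') * enP X YY +
        ENNReal.ofReal (2 * c2 p Cu D) * EB + (ENNReal.ofReal (c1 p D * ε) +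
          ENNReal.ofReal (2 * c2 p Cu D) * (ENNReal.ofReal ε + ENNReal.ofReal ε) +
          ENNReal.ofReal (c1 p D) * ENNReal.ofReal ε) := by ring
    _ ≤ ENNReal.ofReal (kf p Cu D * D) * enP X A + ENNReal.ofReal (kf p Cu D * D') * enP X YY +
        ENNReal.ofReal (kf p Cu D * D) * EB + ENNReal.ofReal (kf p Cu D * D * (2 * ε)) := by
        gcongr
    _ = _ := by ring

end R2

end Vale.Agent.P073.H490
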