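import Vale.Agent.P073.H490.R2d

/-!
# P073, block B10, [R2F]: the common choice of the partition
-/

open Set Metric Topology Filter MeasureTheory Matrix
open scoped ENNReal ContDiff

namespace Vale.Agent.P073.H490

open Vale.Agent.P073
open Vale.Agent.P073.St (V Mat)
open Vale.Agent.P073.AB (Idx Part cl)
open Vale.Agent.P073.AB.P86
open Vale.Agent.P073.H696
open Vale.Agent.P073.H73 (ctr Mesh)
open Vale.Agent.P073.H304 (Nb mid In Out LipBd K3C)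
open Vale.Agent.P073.H194 (partMesh cellT interior_dyc)
open Vale.Agent.P073.H239 (eP eB enP enX)
open Vale.Agent.P073.H212 (SharpOut3)
open Vale.Agent.P073.H803 (meshsum tinyT)
open Vale.Agent.P073.H851 (M3 LocLip)
open _root_.P073 (ConHomeo)
open _root_.P073.Net (dyc dyo IsTile SizeFn)

/-- a summable positive family -/
theorem exists_tol {a : ℝ} (ha : 0 < a) : ∃ τ : Idx → ℝ, (∀ r, 0 < τ r) ∧
    ∑' r : Idx, ENNReal.ofReal (τ r) ≤ ENNReal.ofReal a := by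
  obtain ⟨e, he, hs⟩ := ENNReal.exists_pos_sum_of_countable (ENNReal.ofReal_pos.2 ha).ne' Idx
  refine ⟨fun r => (e r : ℝ), fun r => he r, le_trans (le_of_eq ?_) hs.le⟩
  simp only [ENNReal.ofReal_coe_nnreal]

/-- **[R2F], the common choice**: the partition, the output of `K3C`, and the local energies -/
theorem exists_out {p Cu : ℝ} {Lc : M3 → ℝ} {δ : ℝ} {j : ℕ} {ε : ℝ} {Ω Λ : Set V} {f : V → V}
    {F : V → Mat} {v : V} {D D' c₀ δK μ r : ℝ} (hp : 1 ≤ p) (hK : KI p D D' c₀ δK μ r j)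
    (hD : 0 < D) (hDD : D ≤ D') (hc : c₀ ≤ 1 / 64) (hδ : δ ≤ δK)
    (X : R2 p Cu Lc δ j ε Ω Λ f F v) (YS : Set (Idx × Fin 3))
    (hoff : ∀ q ∈ X.S, ∀ s ∈ YS, Disjoint (dyc v q.1 q.2) (AB.squ v s))
    (Y : ∀ M : Mesh Ω, Set M.κ) (hY : ∀ M : Mesh Ω, ∀ k ∈ Y M, ∃ s ∈ YS, M.F k = AB.squ v s) :
    ∃ (ng : Idx → ℕ) (hΩ : IsOpen Ω) (hI : Part Ω v (X.I₂ ng)) (εk : (partMesh hΩ hI).κ → ℝ)
      (g : ConHomeo Ω Λ), X.Geo ng ∧
      (∀ s (hs : AB.MinSq v (X.I₂ ng) s), 0 ≤ εk ⟨s, hs⟩ ∧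
        2 * εk ⟨s, hs⟩ ≤ 2 * ε / 2 ^ s.1.1) ∧
      OutX p D D' (1 / 2 ^ j) c₀ 0 X.ρ (partMesh hΩ hI) X.hh.toFun X.J₀ X.J X.P X.Z
        (Y (partMesh hΩ hI)) εk g ∧
      SharpOut3 p D c₀ δK μ r 0 X.ρ (partMesh hΩ hI) X.hh.toFun X.J₀ (Y (partMesh hΩ hI)) εk g ∧
      ∀ A : Set V, ∫⁻ x in Ω ∩ A, en p g.toFun x ≤ ENNReal.ofReal (kf p Cu D * D) * enX X A +
        ENNReal.ofReal (kf p Cu D * D') * enP X (⋃ s ∈ YS, AB.squ v s) +
        ENNReal.ofReal (kf p Cu D * D * (2 * ε)) := by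
  have hε := X.hε.1
  have hD' : 0 < D' := hD.trans_le hDD
  obtain ⟨τ, hτ0, hτ⟩ := exists_tol (a := ε * (D / D')) (by positivity)
  obtain ⟨τ', hτ'0, hτ'⟩ := exists_tol hε
  obtain ⟨N₁, hN₁⟩ := specGeo X
  obtain ⟨N₂, hN₂⟩ := specIn X
  obtain ⟨N₃, hN₃⟩ := H582.R2.specSum2 hp X τ' hτ'0
  set ng : Idx → ℕ := fun q => max (N₁ q) (max (N₂ q) (N₃ q)) with hng
  have G := hN₁ ng fun q _ => le_max_left _ _
  have hΩ : IsOpen Ω := X.hΩ.1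
  have hI := G.part
  have hIn := in_mono (hN₂ ng (fun q _ => (le_max_left _ _).trans (le_max_right _ _)) hΩ hI) hc hδ
  have hS2 := hN₃ ng (fun q _ => (le_max_right _ _).trans (le_max_right _ _)) G
  have hS1 := H582.R2.specSum1 hp X ng G
  obtain ⟨εs, hεs0, hεs⟩ := H803.exists_tiny hI (show 0 < p by linarith) τ hτ0
    (fun s => 2 * ε / 2 ^ s.1.1) fun s => by positivity
  obtain ⟨g, O, Sh⟩ := hK Ω Λ X.hΩ X.hΛ v 0 X.ρ X.tg.size (partMesh hΩ hI) X.hh X.J₀ X.J X.P X.Z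
    hIn (Y (partMesh hΩ hI)) (fun k => εs k.1 / 2) (fun k => half_pos (hεs0 k.1).1)
  have H : Res X D D' c₀ YS ng τ g := by
    refine ⟨G, hD, hDD, hc, hoff, hΩ, hI, fun k => εs k.1 / 2, εs, Y (partMesh hΩ hI),
      fun k => (half_pos (hεs0 k.1).1).le, ?_, hεs, hY _, O⟩
    intro k s hks
    have hk : k.1 = s := H803.squ_injective v hks
    subst hk
    show 2 * (εs k.1 / 2) ≤ εs k.1
    linarith
  refine ⟨ng, hΩ, hI, fun k => εs k.1 / 2, g, G, fun s hs => ⟨(half_pos (hεs0 s).1).le, ?_⟩, O, Sh,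
    H.local hp hS1 hS2 hτ hτ'⟩
  show 2 * (εs s / 2) ≤ _
  have := (hεs0 s).2
  linarith

end Vale.Agent.P073.H490
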