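import Vale.Agent.P073.H490.R2e
import Vale.Agent.P073.H73.R2F4

/-!
# P073, block B10, [R2F], [R2B]: Round 2 for the producers of rank two and one

* `specR2F : SpecR2F p`;
* `specR2B : SpecR2B p`.
-/

open Set Metric Topology Filter MeasureTheory Matrix
open scoped ENNReal ContDiff

namespace Vale.Agent.P073.H490

open Vale.Agent.P073
open Vale.Agent.P073.St (V Mat)
open Vale.Agent.P073.AB (Idx Part cl)
open Vale.Agent.P073.H696
open Vale.Agent.P073.H73 (ctr Mesh)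
open Vale.Agent.P073.H304 (K3C)
open Vale.Agent.P073.H194 (partMesh cellT)
open Vale.Agent.P073.H235 (Bx bm rect)
open Vale.Agent.P073.H239 (eP eB enP enX FData BData SpecR2F SpecR2B)
open Vale.Agent.P073.H851 (M3 LocLip)
open _root_.P073 (ConHomeo)
open _root_.P073.Net (dyc dyo IsTile SizeFn)

/-- **(F6) [R2-F]** -/
theorem specR2F {p : ℝ} (hp : 1 ≤ p) : SpecR2F p := by
  intro hK
  obtain ⟨D₀, hD₀, hK⟩ := k3c_inst hK
  set D : ℝ := max D₀ 1 with hD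
  have hD1 : 1 ≤ D := le_max_right _ _
  have hD0 : 0 < D := by linarith
  refine ⟨2 * D, by linarith, fun Cu hCu => ?_⟩
  set K : ℝ := max ((2 * Cu) ^ p) (kf p Cu D) with hKK
  have hK1 : 0 < (2 * Cu) ^ p := Real.rpow_pos_of_pos (by linarith) p
  have hK0 : 0 < K := hK1.trans_le (le_max_left _ _)
  have hkf : kf p Cu D ≤ K := le_max_right _ _
  refine ⟨K, hK0, fun μ hμ => ?_⟩
  obtain ⟨D'₀, hD'₀, r, hr, hK⟩ := hK μ hμ
  set D' : ℝ := max D'₀ D with hD'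
  have hDD : D ≤ D' := le_max_right _ _
  refine ⟨2 * D', by linarith, min r 1, lt_min hr one_pos, min_le_right _ _,
    fun c₀ hc₀ hc₀' => ?_⟩
  obtain ⟨j, hj, δK, hδK, hK⟩ := hK c₀ hc₀ hc₀'
  refine ⟨j, min δK c₀, seven_le hj hc₀', lt_min hδK hc₀, min_le_right _ _, ?_⟩
  intro Lc C θ ν τ ε c Λ f F v _ _ X _ _
  obtain ⟨ng, hΩ, hI, εk, g, hG, hεk, O, Sh, hen⟩ := exists_out hp
    (hK.mono (le_max_left _ _) (le_max_left _ _)) hD0 hDD hc₀' (min_le_left _ _) X.toR2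
    {s | ∃ z ∈ rect X.a X.b, s = ((X.nS, z), 2)}
    (by
      rintro q hq s ⟨z, hz, rfl⟩
      exact X.pl.offS z hz q hq)
    (fun M => X.Y (M := M))
    (by
      rintro M k ⟨z, hz, hk⟩
      exact ⟨_, ⟨z, hz, rfl⟩, hk⟩)
  have hε := X.hε.1
  have hset : (⋃ s ∈ {s : Idx × Fin 3 | ∃ z ∈ rect X.a X.b, s = ((X.nS, z), 2)}, AB.squ v s) =
      ⋃ z ∈ rect X.a X.b, AB.squ v ((X.nS, z), 2) := by
    ext x
    simp only [mem_iUnion, mem_ofPred_eq, exists_prop]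
    constructor
    · rintro ⟨s, ⟨z, hz, rfl⟩, hx⟩
      exact ⟨z, hz, hx⟩
    · rintro ⟨z, hz, hx⟩
      exact ⟨_, ⟨z, hz, rfl⟩, hx⟩
  rw [hset] at hen
  refine ⟨g, H73.fOut_of X hG O.toL Sh hεk (by linarith) hD0.le hDD hc₀ hc₀' (min_le_left _ _)
    (min_le_right _ _) hμ.le (min_le_left _ _) (le_max_left _ _) fun A => (hen A).trans ?_⟩
  have e1 : kf p Cu D * D ≤ K * (2 * D) := by nlinarith
  have e2 : kf p Cu D * D' ≤ K * (2 * D') := by nlinarith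
  have e3 : kf p Cu D * D * (2 * ε) ≤ K * (2 * D) * (2 * ε) := by gcongr
  gcongr

/-- **(H1) [R2-B]** -/
theorem specR2B {p : ℝ} (hp : 1 ≤ p) : SpecR2B p := by
  intro hK
  obtain ⟨D₀, hD₀, hK⟩ := k3c_inst hK
  set D : ℝ := max D₀ 1 with hD
  have hD1 : 1 ≤ D := le_max_right _ _
  have hD0 : 0 < D := by linarith
  refine ⟨2 * D, by linarith, fun Cu hCu => ?_⟩
  set K : ℝ := max ((2 * Cu) ^ p) (kf p Cu D) with hKK
  have hK1 : 0 < (2 * Cu) ^ p := Real.rpow_pos_of_pos (by linarith) p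
  have hK0 : 0 < K := hK1.trans_le (le_max_left _ _)
  have hkf : kf p Cu D ≤ K := le_max_right _ _
  obtain ⟨D'₀, hD'₀, r, hr, hK⟩ := hK 1 one_pos
  refine ⟨K, hK0, fun c₀ hc₀ hc₀' => ?_⟩
  obtain ⟨j, hj, δK, hδK, hK⟩ := hK c₀ hc₀ hc₀'
  refine ⟨j, min δK c₀, seven_le hj hc₀', lt_min hδK hc₀, min_le_right _ _, ?_⟩
  intro Lc C θ₁ θ₂ ν₁ ν τ ε c Λ f F v _ _ _ X _ _
  obtain ⟨ng, hΩ, hI, εk, g, hG, hεk, O, Sh, hen⟩ := exists_out hp
    (hK.mono (le_max_left _ _) (le_max_left _ _)) hD0 (le_max_right D'₀ D) hc₀' (min_le_left _ _)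
    X.toR2 ∅ (fun _ _ s hs => absurd hs (notMem_empty s)) (fun _ => ∅)
    (fun _ k hk => absurd hk (notMem_empty k))
  have hε := X.hε.1
  have h0 : enP X.toR2 (⋃ s ∈ (∅ : Set (Idx × Fin 3)), AB.squ v s) = 0 := by
    unfold enP
    rw [ENNReal.tsum_eq_zero]
    rintro ⟨q, -, x, -, hx⟩
    simp only [mem_empty_iff_false, iUnion_of_empty, iUnion_empty] at hx
  refine ⟨g, H73.fOut1_of X hG O.empty.toL Sh hεk hp hD0.le hc₀ hc₀' (min_le_left _ _)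
    (min_le_right _ _) (le_max_left _ _) fun A => (hen A).trans ?_⟩
  rw [h0, mul_zero, add_zero]
  have e1 : kf p Cu D * D ≤ K * (2 * D) := by nlinarith
  have e3 : kf p Cu D * D * (2 * ε) ≤ K * (2 * D) * (2 * ε) := by gcongr
  gcongr

end Vale.Agent.P073.H490
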