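import Vale.Agent.P073.H490.SmallR

/-!
# P073, block B09, [ST1], [SEG]: the squares of the passive cubes in the zones

* `exists_r_of_ev`: the generations `N' k` are large, through the function `r` of the partition;
* `zone_square`: the minimal squares of the passive cubes in the zone of the box `k` have
  generation `N' k` and lie in the inner part `innB v k (n k)` of the box;
* `segQ_of`: the clause on the segments, from a map `φ` which is equal to `h` on the inner part.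
-/

open Set Metric Topology Filter MeasureTheory
open scoped ENNReal

namespace Vale.Agent.P073.H490

open Vale.Agent.P073
open Vale.Agent.P073.St (V Mat)
open Vale.Agent.P073.H73 (Mesh MinEdge segP onSeg ctr)
open Vale.Agent.P073.AB Vale.Agent.P073.AB.P86
open Vale.Agent.P073.H304 (af afi bl nL Blocks R1Out Zn)
open Vale.Agent.P073.H803 (RD BlkG outI bS)
open Vale.Agent.P073.H696 (Boxes HF am blk blkS solid deep part1 Dom IsNear)
open Vale.Agent.P073.H726 (LBOn)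
open _root_.P073.Net (dyc dyo len)
open _root_.P073 (ConHomeo)

/-- the box `k` without a layer of thickness `2 / 2 ^ n` -/
noncomputable def innB (v : V) (k : Idx) (n : ℕ) : Set V :=
  closedBall (ctr v k.1 k.2) (1 / 2 / 2 ^ k.1 - 2 / 2 ^ n)

/-- the segments in the squares of generation `m` in the set `X` have `h`-length at most `β` -/
def SegS (v : V) (X : Set V) (m : ℕ) (h : V → V) (β : ℝ) : Prop :=
  ∀ s : Idx × Fin 3, s.1.1 = m → squ v s ⊆ X → ∀ a ∈ squ v s,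
    ∃ b ∈ intrinsicFrontier ℝ (squ v s), len (onSeg h (a, b)) (Icc 0 1) ≤ ENNReal.ofReal β

/-- the generations `N' k` are as large as desired -/
theorem exists_r_of_ev {Ω : Set V} {v : V} {K : Set Idx} {nn : ℕ → ℕ} (hΩ : IsOpen Ω)
    (hfin : ∀ C ⊆ Ω, IsCompact C → {k ∈ K | (dyc v k.1 k.2 ∩ C).Nonempty}.Finite)
    (hmono : StrictMono nn) {P : Idx → ℕ → Prop} (hP : ∀ k ∈ K, ∀ᶠ l in atTop, P k (nn l)) :
    ∃ r : V → ℝ, LBOn Ω r ∧ ∀ {H : V → ℝ≥0∞} {n N N' : Idx → ℕ} {r₁ : V → ℝ} {εD : ℝ≥0∞}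
      {tolD : Idx → ℝ≥0∞} {I : Set Idx}, Dom Ω v H K n N r₁ εD tolD I N' → (∀ y, r₁ y ≤ r y) →
      (∀ k ∈ K, N' k ∈ Set.range nn) → ∀ k ∈ K, ∀ q ∈ I, dyc v q.1 q.2 ⊆ dyc v k.1 k.2 →
      (∀ k' ∈ K, Disjoint (dyc v q.1 q.2) (blkS v k' (n k'))) → P k (N' k) := by
  have hl : ∀ k : Idx, ∃ l₀ : ℕ, k ∈ K → ∀ l ≥ l₀, P k (nn l) := by
    intro k
    by_cases hk : k ∈ K
    · obtain ⟨l₀, h⟩ := eventually_atTop.1 (hP k hk)
      exact ⟨l₀, fun _ => h⟩
    · exact ⟨0, fun h => absurd h hk⟩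
  choose l₀ hl₀ using hl
  obtain ⟨bn, hbn, hbnk⟩ := exists_boxfun hΩ hfin (γ := fun k => 1 / 2 ^ nn (l₀ k))
    fun k _ => by positivity
  refine ⟨bn, hbn, ?_⟩
  intro H n N N' r₁ εD tolD I Dm hr hnn k hk q hq hqk hqd
  obtain ⟨y, hy⟩ := H304.dyc_nonempty v q.1 q.2
  have hqN : q.1 = N' k := by
    rcases Dm.out k hk q hq hqk with h | h
    · exfalso
      obtain ⟨u, hu, hu'⟩ := h.2
      exact Set.disjoint_left.1 (hqd k hk) hu hu'
    · exact h.1
  obtain ⟨l, hl⟩ := hnn k hk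
  have h1 : 1 / 2 ^ q.1 ≤ (1:ℝ) / 2 ^ nn (l₀ k) := by
    refine ((Dm.small q hq (fun k' hk' hn => ?_) y hy).trans (hr y)).trans (hbnk k hk y (hqk hy))
    obtain ⟨u, hu, hu'⟩ := hn.2
    exact Set.disjoint_left.1 (hqd k' hk') hu hu'
  have h2 := H803.pow_le_of_div h1
  rw [hqN, ← hl] at h2
  rw [← hl]
  exact hl₀ k hk l (hmono.le_iff_le.1 h2)

theorem convex_squ' (v : V) (s : Idx × Fin 3) : Convex ℝ (squ v s) := by
  intro x hx y hy a b ha hb hab
  have e : ∀ c : ℝ, c = a * c + b * c := fun c => by rw [← add_mul, hab, one_mul]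
  refine ⟨?_, fun k hk => ?_⟩
  · simp only [Pi.add_apply, Pi.smul_apply, smul_eq_mul]
    rw [hx.1, hy.1, ← add_mul, hab, one_mul]
  · simp only [Pi.add_apply, Pi.smul_apply, smul_eq_mul]
    have h1 := hx.2 k hk
    have h2 := hy.2 k hk
    constructor
    · rw [e (v k + (s.1.2 k : ℝ) / 2 ^ s.1.1)]
      exact add_le_add (mul_le_mul_of_nonneg_left h1.1 ha) (mul_le_mul_of_nonneg_left h2.1 hb)
    · rw [e (v k + ((s.1.2 k : ℝ) + 1) / 2 ^ s.1.1)]
      exact add_le_add (mul_le_mul_of_nonneg_left h1.2 ha) (mul_le_mul_of_nonneg_left h2.2 hb)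

theorem isClosed_squ' (v : V) (s : Idx × Fin 3) : IsClosed (squ v s) := by
  have h1 : IsClosed {x : V | x s.2 = v s.2 + s.1.2 s.2 / 2 ^ s.1.1} :=
    isClosed_eq (continuous_apply _) continuous_const
  have h2 : IsClosed (⋂ k : Fin 3, ⋂ _ : k ≠ s.2, {x : V | v k + s.1.2 k / 2 ^ s.1.1 ≤ x k ∧
      x k ≤ v k + (s.1.2 k + 1) / 2 ^ s.1.1}) :=
    isClosed_iInter fun k => isClosed_iInter fun _ =>
      (isClosed_le continuous_const (continuous_apply k)).inter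
        (isClosed_le (continuous_apply k) continuous_const)
  have h3 : squ v s = {x : V | x s.2 = v s.2 + s.1.2 s.2 / 2 ^ s.1.1} ∩
      ⋂ k : Fin 3, ⋂ _ : k ≠ s.2, {x : V | v k + s.1.2 k / 2 ^ s.1.1 ≤ x k ∧
        x k ≤ v k + (s.1.2 k + 1) / 2 ^ s.1.1} := by
    ext x
    simp only [mem_inter_iff, mem_setOf_eq, mem_iInter]
    rfl
  rw [h3]
  exact h1.inter h2

variable {Ω Λ : Set V} {f : V → V} {F : V → Mat} {v : V} {K : Set Idx} {x : Idx → V}
  {p D : ℝ} {J : ℝ → ℕ} {Δ Mg : ℝ → ℝ} {I : Set Idx} {n N N' : Idx → ℕ} {k₁ : V → ℕ}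
  {c₀ τ rσ : V → ℝ} {δ εs : Idx × Fin 3 → ℝ}

/-- a passive cube does not meet the blocks -/
theorem disj_blk {q : Idx} {I₁ : Set Idx} (hq : q ∈ I₁ \ solid v K n I₁) {k : Idx} (hk : k ∈ K) :
    Disjoint (dyc v q.1 q.2) (blkS v k (n k)) := by
  by_contra hcon
  rw [not_disjoint_iff_nonempty_inter] at hcon
  exact hq.2 ⟨hq.1, k, hk, hcon⟩

/-- passive cubes belong to the first partition -/
theorem mem_I_of_passive {q : Idx} {k₂ : Idx → ℕ}
    (hq : q ∈ part1 v K n k₂ I \ solid v K n (part1 v K n k₂ I)) : q ∈ I := by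
  rcases hq.1 with h | ⟨k, hk, -, z, hz, hsub⟩
  · exact h.1
  · exfalso
    obtain ⟨y, hy⟩ := H304.dyc_nonempty v q.1 q.2
    exact Set.disjoint_left.1 (disj_blk hq hk) hy (mem_iUnion₂.2 ⟨z, hz, hsub hy⟩)

/-- **the minimal squares of the passive cubes in the zones** -/
theorem zone_square (X : RD p D J Δ Mg Ω Λ f F v I K x n N N' k₁ c₀ τ rσ δ εs) {k : Idx}
    (hk : k ∈ K) {q : Idx} (hq : q ∈ part1 v K n (fun k => k₁ (x k)) I \
      solid v K n (part1 v K n (fun k => k₁ (x k)) I))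
    (hz : Zn (X.G.blocks X.T) ⟨k, hk⟩ q) {s : Idx × Fin 3}
    (hs : MinSq v (part1 v K n (fun k => k₁ (x k)) I) s) (hsq : squ v s ⊆ dyc v q.1 q.2) :
    s.1.1 = N' k ∧ squ v s ⊆ innB v k (n k) := by
  obtain ⟨y, hy, hzy⟩ := hz
  obtain ⟨⟨h1, -, -⟩, h3⟩ := X.G.zone_cube X.T hk (q := q) hq.1 hy hzy
  have hgen : q.1 = N' k := X.G.gen_out hk (q := q) hq.1 hq.2 h1
  refine ⟨le_antisymm ?_ (hgen ▸ H803.gen_le_of_squ hsq), fun a ha => ?_⟩
  · obtain ⟨q', hq', hf⟩ := hs.1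
    have hx : P86.sc v s ∈ squ v s := rel_sub sc_mem
    have h4 : P86.sc v s ∈ dyo v k.1 k.2 :=
      BlkG.dyo_of_margin (c := 2) (by norm_num) (h3 _ (hsq hx)).2.1
    rw [hf.1]
    exact (X.G.in_box hk (q := q') hq' (S308.squ_sub_of_face hf hx) h4).2.2
  · rw [innB, mem_closedBall, dist_eq_norm]
    exact (h3 a (hsq ha)).2.1

/-- **the clause on the segments** -/
theorem segQ_of (X : RD p D J Δ Mg Ω Λ f F v I K x n N N' k₁ c₀ τ rσ δ εs) {k : Idx}
    (hk : k ∈ K) {q : Idx} (hq : q ∈ part1 v K n (fun k => k₁ (x k)) I \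
      solid v K n (part1 v K n (fun k => k₁ (x k)) I))
    (hz : Zn (X.G.blocks X.T) ⟨k, hk⟩ q) {h₀ φ : V → V} {β : ℝ}
    (hX : ∀ y ∈ Ω, (∀ k ∈ K, ∀ z ∈ blk k (n k), y ∉ interior (dyc v (n k) z)) →
      X.h.toFun y = h₀ y)
    (hφ : EqOn h₀ φ (innB v k (n k))) (hS : SegS v (innB v k (n k)) (N' k) φ β) :
    SegQ v (part1 v K n (fun k => k₁ (x k)) I) X.h.toFun q β := by
  intro s hs hsq a ha
  obtain ⟨h1, h2⟩ := zone_square X hk hq hz hs hsq
  obtain ⟨b, hb, hlen⟩ := hS s h1 h2 a ha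
  refine ⟨b, hb, le_trans (le_of_eq ?_) hlen⟩
  have hbs : b ∈ squ v s := by
    exact intrinsicFrontier_subset (isClosed_squ' v s) hb
  refine _root_.P073.Net.len_congr fun t ht => ?_
  have hy : a + t • (b - a) ∈ squ v s := by
    refine (convex_squ' v s).segment_subset ha hbs ?_
    rw [segment_eq_image']
    exact ⟨t, ht, rfl⟩
  show X.h.toFun (a + t • (b - a)) = φ (a + t • (b - a))
  rw [hX _ (X.G.part1.sub q hq.1 (hsq hy)) fun k' hk' z hz' hyz =>
    Set.disjoint_left.1 (disj_blk hq hk') (hsq hy) (mem_iUnion₂.2 ⟨z, hz', interior_subset hyz⟩)]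
  exact hφ (h2 hy)

end Vale.Agent.P073.H490
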