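import Vale.Agent.P073.H490.SegA
import Vale.Agent.P073.H803.SegNet

/-!
# P073, block B09, [ST1], [SEG]: `H803.SegS` gives the hypothesis of `exists_small_rd`
-/

open Set Metric Topology Filter MeasureTheory
open scoped ENNReal

namespace Vale.Agent.P073.H490

open Vale.Agent.P073
open Vale.Agent.P073.St (V Mat)
open Vale.Agent.P073.H73 (Mesh MinEdge segP onSeg ctr)
open Vale.Agent.P073.AB Vale.Agent.P073.AB.P86
open Vale.Agent.P073.H304 (af afi bl nL Blocks R1Out Zn)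
open Vale.Agent.P073.H803 (RD BlkG outI bS boxD)
open Vale.Agent.P073.H696 (Boxes HF am blk blkS solid deep part1 Dom IsNear)
open _root_.P073.Net (dyc dyo len)

variable {Ω Λ : Set V} {f : V → V} {F : V → Mat} {v : V} {K : Set Idx} {x : Idx → V}
  {p D : ℝ} {J : ℝ → ℕ} {Δ Mg : ℝ → ℝ} {I : Set Idx} {n N N' : Idx → ℕ} {k₁ : V → ℕ}
  {c₀ τ rσ : V → ℝ} {δ εs : Idx × Fin 3 → ℝ}

theorem innB_sub_boxD (v : V) (k : Idx) (n : ℕ) : innB v k n ⊆ boxD v k n := by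
  intro y hy i
  rw [innB, mem_closedBall, dist_eq_norm] at hy
  have h1 := (norm_le_pi_norm (y - ctr v k.1 k.2) i).trans hy
  rw [Real.norm_eq_abs, Pi.sub_apply, abs_le] at h1
  have h2 : ctr v k.1 k.2 i = v i + (k.2 i + 1 / 2) / 2 ^ k.1 := rfl
  have h3 : (0:ℝ) < 1 / 2 ^ n := by positivity
  have e : (2:ℝ) / 2 ^ n = 2 * (1 / 2 ^ n) := by ring
  have e1 : v i + ((k.2 i : ℝ) + 1 / 2) / 2 ^ k.1 - 1 / 2 / 2 ^ k.1 = v i + k.2 i / 2 ^ k.1 := by
    ring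
  have e2 : v i + ((k.2 i : ℝ) + 1 / 2) / 2 ^ k.1 + 1 / 2 / 2 ^ k.1 =
      v i + (k.2 i + 1) / 2 ^ k.1 := by ring
  constructor
  · linarith [h1.1]
  · linarith [h1.2]

/-- **the hypothesis on the segments of `exists_small_rd`** -/
theorem hseg_of_segS (X : RD p D J Δ Mg Ω Λ f F v I K x n N N' k₁ c₀ τ rσ δ εs) {β : Idx → ℝ}
    (hS : H803.SegS v K n N' β X.h.toFun) (k : {k // k ∈ K}) {q : Idx}
    (hq : q ∈ part1 v K n (fun k => k₁ (x k)) I \
      solid v K n (part1 v K n (fun k => k₁ (x k)) I))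
    (hz : Zn (X.G.blocks X.T) k q) :
    SegQ v (part1 v K n (fun k => k₁ (x k)) I) X.h.toFun q (β k.1) := by
  intro s hs hsq a ha
  obtain ⟨h1, h2⟩ := zone_square X k.2 hq hz hs hsq
  refine hS k.1 k.2 s h1 (h2.trans (innB_sub_boxD v k.1 (n k.1))) (fun z hz' => ?_) a ha
  rw [Set.disjoint_left]
  intro y hy hyz
  exact Set.disjoint_left.1 (disj_blk hq k.2) (hsq hy)
    (mem_iUnion₂.2 ⟨z, hz', P86.dyo_sub_dyc hyz⟩)

end Vale.Agent.P073.H490
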