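import Vale.Agent.P073.H490.Osc0

/-!
# P073, block B09, [ST1]: the field `small`, complete leaf
-/

open Set Metric Topology Filter MeasureTheory
open scoped ENNReal

namespace Vale.Agent.P073.H490

open Vale.Agent.P073
open Vale.Agent.P073.St (V Mat)
open Vale.Agent.P073.SQ (ev)
open Vale.Agent.P073.H73 (Mesh MinEdge segP onSeg ctr)
open Vale.Agent.P073.AB Vale.Agent.P073.AB.P86
open Vale.Agent.P073.H194 (Gen)
open Vale.Agent.P073.H304 (af afi bl nL Blocks R1Out Zn)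
open Vale.Agent.P073.H622 (LF bF)
open Vale.Agent.P073.H803 (RD BlkG outI bS)
open Vale.Agent.P073.H696 (Boxes HF am blk blkS solid deep part1 Dom IsNear)
open Vale.Agent.P073.H726 (LBOn)
open _root_.P073.Net (dyc dyo len)
open _root_.P073 (ConHomeo)

variable {Ω Λ : Set V} {f : V → V} {F : V → Mat} {v : V} {K : Set Idx} {x : Idx → V}
  {p ε M₀ : ℝ} {c : ℝ≥0∞} {τ' φ κ μ : V → ℝ} {s : V → ℕ} {nn : ℕ → ℕ}

/-- **field `small`** over the data of Round 1; `β`: bounds for the segments in the faces of the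
passive cubes in the zones -/
theorem exists_small_rd (hp : 3 ≤ p) (hΩ : St.IsBoundedDomain Ω) (hf : St.IsHomeo Ω Λ f)
    (B : Boxes p ε M₀ c τ' φ κ μ s Ω Λ f F v nn K x)
    (hgen : ∀ k ∈ K, ∀ ω : ℝ≥0∞, ω ≠ 0 → ∃ l₀ : ℕ, ∀ l ≥ l₀, ∀ e : Idx × Fin 3, e.1.1 = nn l →
      edge v e ⊆ dyc v k.1 k.2 →
      ENNReal.ofReal ((1 / 2 ^ e.1.1) ^ 2) * eInt v e (HF p Ω F) ≤ ω)
    {D : ℝ} (hD : 0 < D) {δs : V → ℝ} (hδs : LBOn Ω δs) :
    ∃ (r rσ : V → ℝ) (δ₁ : Idx × Fin 3 → ℝ) (β : Idx → ℝ), LBOn Ω r ∧ LBOn Ω rσ ∧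
      (∀ e, 0 < δ₁ e) ∧ (∀ k, 0 < β k) ∧
    ∀ {J : ℝ → ℕ} {Δ Mg : ℝ → ℝ} {I : Set Idx} {n N N' : Idx → ℕ} {k₁ : V → ℕ}
      {c₀ τ r₁ rσ₁ : V → ℝ} {δ εs : Idx × Fin 3 → ℝ} {εD : ℝ≥0∞} {tolD : Idx → ℝ≥0∞},
      Dom Ω v (HF p Ω F) K n N r₁ εD tolD I N' → (∀ y, r₁ y ≤ r y) →
      (∀ k ∈ K, N' k ∈ Set.range nn) →
      ∀ X : RD p D J Δ Mg Ω Λ f F v I K x n N N' k₁ c₀ τ rσ₁ δ εs,
      (∀ y ∈ Ω, rσ₁ y ≤ rσ y) → (∀ e, δ e ≤ δ₁ e) →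
      (∀ (k : {k // k ∈ K}), ∀ q ∈ part1 v K n (fun k => k₁ (x k)) I \
          solid v K n (part1 v K n (fun k => k₁ (x k)) I), dyc v q.1 q.2 ⊆ dyc v k.1.1 k.1.2 →
        Zn (X.G.blocks X.T) k q →
        SegQ v (part1 v K n (fun k => k₁ (x k)) I) X.h.toFun q (β k.1)) →
      ∀ q ∈ part1 v K n (fun k => k₁ (x k)) I \
          solid v K n (part1 v K n (fun k => k₁ (x k)) I),
        ∀ a ∈ dyc v q.1 q.2, ∀ b ∈ dyc v q.1 q.2, ‖X.h₁.toFun a - X.h₁.toFun b‖ ≤ δs a := by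
  classical
  -- lower bounds on the boxes
  have hc : ∀ k : Idx, ∃ c : ℝ, 0 < c ∧ (k ∈ K → ∀ y ∈ dyc v k.1 k.2, c ≤ δs y) := by
    intro k
    by_cases hk : k ∈ K
    · obtain ⟨c, hc, h⟩ := hδs.exists_le
        (_root_.P073.Gauge.O407.isCompact_dyc v k.1 k.2) (B.pt k hk).2.1
      exact ⟨c, hc, fun _ => h⟩
    · exact ⟨1, one_pos, fun h => absurd h hk⟩
  choose cc hc0 hcc using hc
  set ka : Idx → ℝ := fun k => 4 * D * nL (LF F (x k)) * nL (LF F (x k)).symm with hka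
  have hka0 : ∀ k, 0 < ka k := fun k =>
    mul_pos (mul_pos (by positivity) (nL_pos _)) (nL_pos _)
  obtain ⟨r, rσ, δ₁, h1, h2, h3, h4⟩ := exists_osc0 hp hΩ hf B hgen
    (β := fun k => cc k / ka k) (fun k _ => div_pos (hc0 k) (hka0 k)) hδs
  refine ⟨r, rσ, δ₁, fun k => cc k / ka k, h1, h2, h3, fun k => div_pos (hc0 k) (hka0 k), ?_⟩
  intro J Δ Mg I n N N' k₁ c₀ τ r₁ rσ₁ δ εs εD tolD Dm hr hnn X hrσ hδ hseg
  obtain ⟨hoff, hbox⟩ := h4 Dm hr hnn X hrσ hδ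
  refine st1_small (n := n) X.link X.out (fun q hq _ => hoff q hq)
    (β := fun k => cc k.1 / ka k.1) (fun k => div_pos (hc0 k.1) (hka0 k.1))
    (fun k q hq hqk => (hbox k.1 k.2 q hq hqk).1) (fun k q hq hqk hmin => ?_) hseg ?_ ?_
  · refine le_trans ?_ ((hbox k.1 k.2 q hq hqk).2 hmin)
    rw [two_mul]
    exact le_self_add
  · rintro k q hq i ⟨q', rfl, hne⟩ hQ
    refine hq.2 ⟨hq.1, k.1, k.2, ?_⟩
    have h5 : dyc v q'.1.1 q'.1.2 = dyc v q.1 q.2 := hQ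
    rw [← h5]
    exact hne
  · intro k q hq hz a ha
    have hqU := X.link.mem_U hq
    have hqk := (X.link.zone k q hqU hz).1
    refine le_trans (le_of_eq ?_) (hcc k.1 k.2 a (hqk ha))
    show nL (LF F (x k.1)) * (D * (4 * nL (LF F (x k.1)).symm * (cc k.1 / ka k.1))) = cc k.1
    have h5 := hka0 k.1
    calc nL (LF F (x k.1)) * (D * (4 * nL (LF F (x k.1)).symm * (cc k.1 / ka k.1)))
        = ka k.1 * (cc k.1 / ka k.1) := by simp only [hka]; ring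
      _ = cc k.1 := by field_simp

end Vale.Agent.P073.H490
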